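import Vale.Agent.P192.H291.Unif

set_option linter.all false

/-! Groups of reversible `k`-head two-way automata on a coloured line. -/

namespace Vale.Agent.P192.H291

open Vale.Agent.P192 Vale.Agent.P192.H593 Vale.Agent.P192.H437 Vale.Agent.P192.H567

theorem uf_triv : UF (cls Unit Unit 0) := by
  classical
  refine uf_all Unit Unit ?_ ⊥ 0 (MulEquiv.ofUnique) 0
  intro E _
  refine ⟨1, ∅, fun x => ?_⟩
  refine (Set.encard_le_encard (Set.subset_univ _)).trans ?_
  rw [Set.encard_univ, ENat.card_eq_coe_natCard]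
  simp

def cutp {k : ℕ} (s : ℕ) (o : Fin k → Fin k → ℤ → Prop) : Fin k → Fin k → Fin (2 * s + 1) → Prop :=
  fun p q e => o p q (((e : ℕ) : ℤ) - s)

theorem cutp_pat {k : ℕ} {s s' : ℕ} (h : s' ≤ s) (z : Fin k → ℤ) :
    cutp s' (fun p q d => |d| ≤ (s : ℤ) ∧ z p + d = z q) = fpat s' z := by
  funext p q e
  apply propext
  have h1 := e.2
  constructor
  · intro h2; exact h2.2
  · intro h2
    refine ⟨?_, h2⟩
    rw [abs_le]; constructor <;> omega

theorem automata_finite (G : Type) [Group G] [Group.IsFinitelyPresented G] (hG : IsMulTorsion G)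
    (Q : Type) [Finite Q] (k : ℕ) (ρ : G →* Equiv.Perm (Q × (Fin k → ℤ)))
    (hρ : ∀ g, ∃ (m s : ℕ) (a : ℤ → Fin m)
      (f : Q → (Fin k → Fin m) → (Fin k → Fin k → ℤ → Prop) → Q × (Fin k → ℤ)),
      ∀ q z x, x = f q (fun j => a (z j)) (pat s z) → ρ g (q, z) = (x.1, z + x.2)) :
    Finite ρ.range := by
  classical
  obtain ⟨MM, σ, -, hσ, -⟩ := exists_tuple G ⊤ (by simp)
  choose m s a f hf using fun l : Fin MM × Bool => hρ (gen σ l)
  obtain ⟨s₁, hs₁⟩ := (Set.finite_range s).bddAbove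
  have hs : ∀ l, s l ≤ s₁ := fun l => hs₁ ⟨l, rfl⟩
  let X : Type := ∀ l : Fin MM × Bool, Fin (m l)
  let ε : X ≃ Fin (Nat.card X) := Finite.equivFin X
  let val : (Σ l : Fin MM × Bool, Q × (Fin k → Fin (m l)) ×
      (Fin k → Fin k → Fin (2 * s l + 1) → Prop)) → Q × (Fin k → ℤ) := fun y =>
    f y.1 y.2.1 y.2.2.1 (dpat (s y.1) y.2.2.2)
  obtain ⟨D, hD⟩ : ∃ D : ℕ, ∀ y j, |(val y).2 j| ≤ (D : ℤ) := by
    have h1 : ∀ j : Fin k, ∃ D : ℕ, ∀ y, |(val y).2 j| ≤ (D : ℤ) := by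
      intro j
      obtain ⟨c, hc⟩ := (Set.finite_range fun y => ((val y).2 j).natAbs).bddAbove
      refine ⟨c, fun y => ?_⟩
      have := hc ⟨y, rfl⟩
      rw [Int.abs_eq_natAbs]
      exact_mod_cast this
    choose Df hDf using h1
    obtain ⟨D, hD⟩ := (Set.finite_range Df).bddAbove
    exact ⟨D, fun y j => (hDf j y).trans (by exact_mod_cast hD ⟨j, rfl⟩)⟩
  obtain ⟨N, h1, h2, h3⟩ := heads_uniform (cls Unit Unit 0) uf_triv k G hG σ hσ (Nat.card Q) 1
    (Nat.card X) s₁ D {1} (Set.finite_singleton _) ⊤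
  let Y : Type := Unit × (∀ i : Fin 0, Unit) × Unit
  letI act : MulAction (Unit × (Fin 0 → Multiplicative ℤ) × Unit) Y :=
    { smul := fun l y => y
      one_smul := fun y => rfl
      mul_smul := fun l l' y => rfl }
  letI actu : MulAction Unit Unit :=
    { smul := fun l y => y
      one_smul := fun y => rfl
      mul_smul := fun l l' y => rfl }
  let bb : Y → Fin 1 × (Fin 0 → Fin 1) × Fin 1 := fun _ => (0, fun i => i.elim0, 0)
  let E : (Q × (Fin k → ℤ)) ≃ Q × Y × (Fin k → ℤ) :=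
    { toFun := fun x => (x.1, ((), fun i => i.elim0, ()), x.2)
      invFun := fun x => (x.1, x.2.2)
      left_inv := fun x => rfl
      right_inv := by
        rintro ⟨q, ⟨u, w, v⟩, z⟩
        refine Prod.ext rfl (Prod.ext (Prod.ext rfl (Prod.ext (funext fun i => i.elim0) rfl)) rfl) }
  obtain ⟨ρ', h4, h5⟩ := exists_conj E ρ
  let α : Fin k → ℤ → Fin (Nat.card X) := fun j x => ε (fun l => a l x)
  let F : Fin MM × Bool → Q → Fin 1 × (Fin 0 → Fin 1) × Fin 1 →
      (Fin k → Fin (Nat.card X)) × (Fin k → Fin k → ℤ → Prop) →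
      Q × (Unit × (Fin 0 → Multiplicative ℤ) × Unit) × (Fin k → ℤ) := fun l q _ o =>
    ((val ⟨l, q, fun j => ε.symm (o.1 j) l, cutp (s l) o.2⟩).1, 1,
      (val ⟨l, q, fun j => ε.symm (o.1 j) l, cutp (s l) o.2⟩).2)
  have hone : ∀ g ∈ N, ρ' g = 1 := by
    refine h3 Q le_rfl Y bb ?_ α F ?_ ?_ ρ' ?_
    · exact ⟨Unit, Unit, actu, actu, fun _ => Unit, fun _ => 1, Equiv.refl _, fun _ => 0,
        fun i => i.elim0, fun _ => 0, fun _ _ _ => rfl, fun _ _ _ => rfl,
        fun l y => Prod.ext rfl (Prod.ext (funext fun i => i.elim0) rfl),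
        fun y => Prod.ext rfl (Prod.ext (funext fun i => i.elim0) rfl)⟩
    · intro l q β o; rfl
    · intro l q β o j; exact hD _ _
    · rintro l ⟨q, y, z⟩
      have e1 : (q, y, z) = E (q, z) := by
        obtain ⟨u, w, v⟩ := y
        exact Prod.ext rfl (Prod.ext (Prod.ext rfl (Prod.ext (funext fun i => i.elim0) rfl)) rfl)
      have e2 : cutp (s l) (obs s₁ α ⊤ z).2 = fpat (s l) z := by
        rw [← cutp_pat (hs l) z]
        congr 1
        funext p q d
        exact propext ⟨fun h => h.2, fun h => ⟨trivial, h⟩⟩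
      have e3 : (fun j => ε.symm ((obs s₁ α ⊤ z).1 j) l) = fun j => a l (z j) := by
        funext j
        show ε.symm (ε (fun l => a l (z j))) l = a l (z j)
        rw [Equiv.symm_apply_apply]
      have e4 : F l q (bb y) (obs s₁ α ⊤ z) = ((f l q (fun j => a l (z j)) (pat (s l) z)).1, 1,
          (f l q (fun j => a l (z j)) (pat (s l) z)).2) := by
        show ((val ⟨l, q, fun j => ε.symm ((obs s₁ α ⊤ z).1 j) l,
          cutp (s l) (obs s₁ α ⊤ z).2⟩).1, 1, (val ⟨l, q, fun j => ε.symm ((obs s₁ α ⊤ z).1 j) l,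
          cutp (s l) (obs s₁ α ⊤ z).2⟩).2) = _
        rw [e2, e3]
        show ((f l q (fun j => a l (z j)) (dpat (s l) (fpat (s l) z))).1, 1,
          (f l q (fun j => a l (z j)) (dpat (s l) (fpat (s l) z))).2) = _
        rw [dpat_fpat]
      show ρ' (gen σ l) (q, y, z) = ((F l q (bb y) (obs s₁ α ⊤ z)).1,
        (F l q (bb y) (obs s₁ α ⊤ z)).2.1 • y, z + (F l q (bb y) (obs s₁ α ⊤ z)).2.2)
      rw [e4, e1, h4, hf l q z _ rfl]
      obtain ⟨u, w, v⟩ := y
      refine Prod.ext rfl (Prod.ext (Prod.ext rfl (Prod.ext (funext fun i => i.elim0) rfl)) rfl)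
  have hker : N ≤ ρ.ker := fun g hg => h5 g (hone g hg)
  haveI : ρ.ker.FiniteIndex := Subgroup.finiteIndex_of_le hker
  haveI : Finite (G ⧸ ρ.ker) := inferInstance
  exact Finite.of_equiv _ (QuotientGroup.quotientKerEquivRange ρ).toEquiv

end Vale.Agent.P192.H291
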