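import Vale.Agent.P192.H291.ChNear
import Vale.Agent.P192.H291.Main

set_option linter.all false

/-! Charts with `k` heads on common coloured lines: induction over the partitions of the heads. -/

namespace Vale.Agent.P192.H291

open Vale.Agent.P192 Vale.Agent.P192.H593 Vale.Agent.P192.H437 Vale.Agent.P192.H567

theorem ClC.mono {L : Type} [Group L] {c : Cls L} {G : Type} [Group G] {M : ℕ} {σ : Fin M → G}
    {k n m m₁ s D : ℕ} {K : Set L} {P Pd : Setoid (Fin k)} {Rd Rd' : ℕ} {N N' : Subgroup G}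
    (h : ClC c σ k n m m₁ s D K P Pd Rd N) (hR : Rd ≤ Rd') (hN : N' ≤ N) :
    ClC c σ k n m m₁ s D K P Pd Rd' N' := by
  intro I _ hI Y _ b hb a f hf1 hf2 X ρ z₀ ι hc hfar i y g hg
  have hR' : (Rd : ℤ) ≤ Rd' := by exact_mod_cast hR
  refine h I hI Y b hb a f hf1 hf2 X ρ z₀ ι (hc.mono fun j => ?_) (fun i j h1 h2 => ?_) i y g
    (hN hg)
  · rw [sub_self, abs_zero, zero_add]; exact hR'
  · exact lt_of_le_of_lt hR' (hfar i j h1 h2)

theorem all_clC {L : Type} [Group L] (c : Cls L) (hUF : UF c) (k : ℕ) (G : Type) [Group G]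
    [Group.IsFinitelyPresented G] (hG : IsMulTorsion G) {M : ℕ} (σ : Fin M → G)
    (hσ : Subgroup.closure (Set.range σ) = ⊤) (n m m₁ s D : ℕ) (K : Set L) (hK : K.Finite)
    (P Pd : Setoid (Fin k)) : (∀ i j, Pd i j → P i j) →
    ∃ (Rd : ℕ) (N : Subgroup G), N.Normal ∧ N.FiniteIndex ∧ ClC c σ k n m m₁ s D K P Pd Rd N := by
  classical
  haveI := setoid_finite k
  have hZ : UFZ c k := ufz_all k c hUF
  refine (wellFounded_lt : WellFounded ((· < ·) : Setoid (Fin k) → Setoid (Fin k) →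
    Prop)).induction (C := fun Pd => (∀ i j, Pd i j → P i j) → ∃ (Rd : ℕ) (N : Subgroup G),
      N.Normal ∧ N.FiniteIndex ∧ ClC c σ k n m m₁ s D K P Pd Rd N) Pd ?_
  intro Pd ih hPd
  have h1 : ∀ Pd' : {Pd' : Setoid (Fin k) // Pd' < Pd}, ∃ (Rd : ℕ) (N : Subgroup G),
      N.Normal ∧ N.FiniteIndex ∧ ClC c σ k n m m₁ s D K P Pd'.1 Rd N :=
    fun Pd' => ih Pd'.1 Pd'.2 (fun i j h => hPd i j (Pd'.2.le h))
  choose Rf Nf hNf1 hNf2 hCl using h1
  obtain ⟨R', hR'⟩ := (Set.finite_range Rf).bddAbove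
  haveI : (⨅ Pd', Nf Pd').Normal := Subgroup.normal_iInf_normal hNf1
  haveI : (⨅ Pd', Nf Pd').FiniteIndex := Subgroup.finiteIndex_iInf hNf2
  exact near_stepC c hZ G hG σ hσ n m m₁ s D K hK P Pd hPd R' (⨅ Pd', Nf Pd')
    (fun Pd' h => (hCl ⟨Pd', h⟩).mono (hR' ⟨⟨Pd', h⟩, rfl⟩) (iInf_le _ _))

/-- charts with `k` heads on common coloured lines, over any class with uniform finiteness -/
theorem charts_uniform {L : Type} [Group L] (c : Cls L) (hUF : UF c) (k : ℕ) (G : Type) [Group G]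
    [Group.IsFinitelyPresented G] (hG : IsMulTorsion G) {M : ℕ} (σ : Fin M → G)
    (hσ : Subgroup.closure (Set.range σ) = ⊤) (n m m₁ s D : ℕ) (K : Set L) (hK : K.Finite) :
    ∃ (R : ℕ) (N : Subgroup G), N.Normal ∧ N.FiniteIndex ∧ ∀ P : Setoid (Fin k),
      ∀ (I : Type) [Finite I], Nat.card I ≤ n →
      ∀ (Y : Type) [MulAction L Y] (b : Y → c.C m), c.P m Y b →
      ∀ (a : Fin k → ℤ → Fin m₁) (f : Fin M × Bool → I → c.C m →
        (Fin k → Fin m₁) × (Fin k → Fin k → ℤ → Prop) → I × L × (Fin k → ℤ)),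
      (∀ l i β o, (f l i β o).2.1 ∈ K) → (∀ l i β o j, |(f l i β o).2.2 j| ≤ (D : ℤ)) →
      ∀ (X : Type) (ρ : G →* Equiv.Perm X) (z₀ : Fin k → ℤ) (ι : I × Y × (Fin k → ℤ) → X),
      Cht σ ρ f b (obs s a P) z₀ R ι → ∀ i y, ∀ g ∈ N, ρ g (ι (i, y, z₀)) = ι (i, y, z₀) := by
  haveI := setoid_finite k
  choose Rf Nf hNf1 hNf2 hCl using fun P : Setoid (Fin k) =>
    all_clC c hUF k G hG σ hσ n m m₁ s D K hK P P (fun _ _ h => h)
  obtain ⟨R, hR⟩ := (Set.finite_range Rf).bddAbove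
  refine ⟨R, ⨅ P, Nf P, Subgroup.normal_iInf_normal hNf1, Subgroup.finiteIndex_iInf hNf2, ?_⟩
  intro P I _ hI Y _ b hb a f hf1 hf2 X ρ z₀ ι hc i y g hg
  exact (hCl P).mono (hR ⟨P, rfl⟩) (iInf_le _ P) I hI Y b hb a f hf1 hf2 X ρ z₀ ι hc
    (fun i j h h' => absurd h h') i y g hg

end Vale.Agent.P192.H291
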