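import Vale.Agent.P192.H291.Near

set_option linter.all false

/-! Adding independent coloured lines to a class. -/

namespace Vale.Agent.P192.H291

open Vale.Agent.P192 Vale.Agent.P192.H593 Vale.Agent.P192.H437 Vale.Agent.P192.H567

/-- products of a set of the class and a coloured line -/
def cp {L : Type} [Group L] (c : Cls L) : Cls (L × Multiplicative ℤ) where
  C := fun m => c.C m.unpair.1 × Fin m.unpair.2
  fin := fun m => by haveI := c.fin m.unpair.1; infer_instance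
  P := fun m Z _ b => ∃ (Y : Type) (_ : MulAction L Y) (e : Z ≃ Y × ℤ) (b₀ : Y → c.C m.unpair.1)
    (a : ℤ → Fin m.unpair.2), c.P m.unpair.1 Y b₀ ∧
    (∀ (l : L × Multiplicative ℤ) (z : Z), e (l • z) = (l.1 • (e z).1, (e z).2 + l.2.toAdd)) ∧
    ∀ z, b z = (b₀ (e z).1, a (e z).2)
  ref := by
    classical
    intro m S hS
    haveI : Finite S := hS
    obtain ⟨m₀, h₀⟩ := c.ref m.unpair.1 (Prod.fst '' S) (hS.image _)
    let ε : (S → Fin m.unpair.2) ≃ Fin (Nat.card (S → Fin m.unpair.2)) := Finite.equivFin _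
    obtain ⟨m', h1, h2⟩ : ∃ m' : ℕ, m'.unpair.1 = m₀ ∧
      m'.unpair.2 = Nat.card (S → Fin m.unpair.2) :=
      ⟨Nat.pair m₀ (Nat.card (S → Fin m.unpair.2)), by rw [Nat.unpair_pair],
        by rw [Nat.unpair_pair]⟩
    subst h1
    refine ⟨m', ?_⟩
    rintro Z _ b ⟨Y, _, e, b₀, a, hb₀, he, hb⟩
    obtain ⟨b₁, h3, h4⟩ := h₀ Y b₀ hb₀
    refine ⟨fun z => (b₁ (e z).1, Fin.cast h2.symm (ε (fun t => a ((e z).2 + t.1.2.toAdd)))),
      ⟨Y, _, e, b₁, fun x => Fin.cast h2.symm (ε (fun t => a (x + t.1.2.toAdd))), h3, he,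
        fun _ => rfl⟩, ?_⟩
    intro x y hxy t ht
    have g1 := congrArg Prod.fst hxy
    have g2 : Fin.cast h2.symm (ε (fun t => a ((e x).2 + t.1.2.toAdd))) =
      Fin.cast h2.symm (ε (fun t => a ((e y).2 + t.1.2.toAdd))) := congrArg Prod.snd hxy
    have g3 := congrFun (ε.injective (Fin.cast_injective _ g2)) ⟨t, ht⟩
    rw [hb, hb, he, he]
    exact Prod.ext (h4 _ _ g1 t.1 ⟨t, ht, rfl⟩) g3

theorem uf_cp {L : Type} [Group L] (c : Cls L) (h : UF c) : UF (cp c) := by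
  intro G _ _ hG M σ hσ n m K hK
  obtain ⟨κ, hκ⟩ : ∃ κ : ℕ, ∀ k ∈ K, |k.2.toAdd| ≤ (κ : ℤ) := by
    obtain ⟨c, hc⟩ := (hK.image fun k : L × Multiplicative ℤ => k.2.toAdd.natAbs).bddAbove
    refine ⟨c, fun k hk => ?_⟩
    have := hc ⟨k, hk, rfl⟩
    rw [Int.abs_eq_natAbs]
    exact_mod_cast this
  obtain ⟨N, h1, h2, h3⟩ := stepD c h G hG σ hσ n m.unpair.1 κ (Fin m.unpair.2) (Prod.fst '' K)
    (hK.image _)
  refine ⟨N, h1, h2, ?_⟩
  rintro I _ hI Z _ b ⟨Y, _, e, b₀, a, hb₀, he, hb⟩ f hf ρ hρ g hg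
  let E : I × Z ≃ I × ℤ × Y :=
    { toFun := fun q => (q.1, (e q.2).2, (e q.2).1)
      invFun := fun q => (q.1, e.symm (q.2.2, q.2.1))
      left_inv := by rintro ⟨i, z⟩; simp
      right_inv := by rintro ⟨i, x, y⟩; simp }
  obtain ⟨ρ', h4, h5⟩ := exists_conj E ρ
  apply h5
  refine h3 I hI Y b₀ hb₀ (fun l i x γ => ((f l i (γ, x)).1, (f l i (γ, x)).2.2.toAdd,
    (f l i (γ, x)).2.1)) (fun l i x γ => hκ _ (hf _ _ _)) (fun l i x γ => ⟨_, hf _ _ _, rfl⟩)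
    a ρ' ?_ g hg
  intro l q
  obtain ⟨q, rfl⟩ := E.surjective q
  obtain ⟨i, z⟩ := q
  rw [h4, hρ]
  show (_, (e _).2, (e _).1) = _
  rw [he, hb]
  rfl

theorem ufz_zero {L : Type} [Group L] (c : Cls L) (h : UF c) : UFZ c 0 := by
  intro G _ _ hG M σ hσ n m m₁ D K hK
  obtain ⟨N, h1, h2, h3⟩ := h G hG M σ hσ n m K hK
  refine ⟨N, h1, h2, ?_⟩
  intro I _ hI Y _ b hb a f hf1 hf2 ρ hρ g hg
  let E : I × Y × (Fin 0 → ℤ) ≃ I × Y :=
    { toFun := fun q => (q.1, q.2.1)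
      invFun := fun q => (q.1, q.2, fun j => j.elim0)
      left_inv := by
        rintro ⟨i, y, z⟩
        exact Prod.ext rfl (Prod.ext rfl (funext fun j => j.elim0))
      right_inv := by rintro ⟨i, y⟩; rfl }
  obtain ⟨ρ', h4, h5⟩ := exists_conj E ρ
  apply h5
  refine h3 I hI Y b hb (fun l i β => ((f l i β (fun j => j.elim0)).1,
    (f l i β (fun j => j.elim0)).2.1)) (fun l i β => hf1 _ _ _ _) ρ' ?_ g hg
  intro l i y
  have e1 : (i, y) = E (i, y, fun j => j.elim0) := rfl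
  rw [e1, h4, hρ]
  have e2 : (fun j : Fin 0 => a j ((fun j : Fin 0 => (j.elim0 : ℤ)) j)) =
    (fun j => j.elim0 : Fin 0 → Fin m₁) := funext fun j => j.elim0
  show ((f l i (b y) (fun j : Fin 0 => a j ((fun j : Fin 0 => (j.elim0 : ℤ)) j))).1,
    (f l i (b y) (fun j : Fin 0 => a j ((fun j : Fin 0 => (j.elim0 : ℤ)) j))).2.1 • y) = _
  rw [e2]

theorem ufz_succ {L : Type} [Group L] (c : Cls L) (k : ℕ) (h : UFZ (cp c) k) :
    UFZ c (k + 1) := by
  classical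
  intro G _ _ hG M σ hσ n m m₁ D K hK
  obtain ⟨m', e1, e2⟩ : ∃ m' : ℕ, m'.unpair.1 = m ∧ m'.unpair.2 = m₁ :=
    ⟨Nat.pair m m₁, by rw [Nat.unpair_pair], by rw [Nat.unpair_pair]⟩
  subst e1 e2
  let K' : Set (L × Multiplicative ℤ) := K ×ˢ (Multiplicative.ofAdd '' Set.Icc (-(D : ℤ)) D)
  have hK' : K'.Finite := hK.prod ((Set.finite_Icc _ _).image _)
  obtain ⟨N, h1, h2, h3⟩ := h G hG M σ hσ n m' m'.unpair.2 D K' hK'
  refine ⟨N, h1, h2, ?_⟩
  intro I _ hI Y _ b hb a f hf1 hf2 ρ hρ g hg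
  letI act : MulAction (L × Multiplicative ℤ) (Y × ℤ) :=
    { smul := fun l y => (l.1 • y.1, y.2 + l.2.toAdd)
      one_smul := by
        rintro ⟨y, x⟩
        show ((1 : L) • y, x + 0) = _
        rw [one_smul, add_zero]
      mul_smul := by
        rintro ⟨l, d⟩ ⟨l', d'⟩ ⟨y, x⟩
        show ((l * l') • y, x + (d * d').toAdd) = (l • l' • y, (x + d'.toAdd) + d.toAdd)
        rw [mul_smul, toAdd_mul]
        refine Prod.ext rfl ?_
        show x + (d.toAdd + d'.toAdd) = (x + d'.toAdd) + d.toAdd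
        ring }
  let b' : Y × ℤ → c.C m'.unpair.1 × Fin m'.unpair.2 := fun z => (b z.1, a 0 z.2)
  let E : I × Y × (Fin (k + 1) → ℤ) ≃ I × (Y × ℤ) × (Fin k → ℤ) :=
    { toFun := fun q => (q.1, (q.2.1, q.2.2 0), fun j => q.2.2 j.succ)
      invFun := fun q => (q.1, q.2.1.1, Fin.cons q.2.1.2 q.2.2)
      left_inv := by
        rintro ⟨i, y, z⟩
        refine Prod.ext rfl (Prod.ext rfl (funext fun j => ?_))
        refine Fin.cases ?_ (fun j => ?_) j
        · rfl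
        · rfl
      right_inv := by
        rintro ⟨i, ⟨y, x⟩, z⟩
        rfl }
  obtain ⟨ρ', h4, h5⟩ := exists_conj E ρ
  apply h5
  refine h3 I hI (Y × ℤ) b' ⟨Y, _, Equiv.refl _, b, a 0, hb, fun _ _ => rfl, fun _ => rfl⟩
    (fun j => a j.succ) (fun l i β γ => ((f l i β.1 (Fin.cons β.2 γ)).1,
      ((f l i β.1 (Fin.cons β.2 γ)).2.1,
        Multiplicative.ofAdd ((f l i β.1 (Fin.cons β.2 γ)).2.2 0)),
      fun j => (f l i β.1 (Fin.cons β.2 γ)).2.2 j.succ)) ?_ ?_ ρ' ?_ g hg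
  · intro l i β γ
    refine ⟨hf1 _ _ _ _, _, ?_, rfl⟩
    have := hf2 l i β.1 (Fin.cons β.2 γ) 0
    rw [abs_le] at this
    exact this
  · intro l i β γ j
    exact hf2 _ _ _ _ _
  · intro l q
    obtain ⟨q, rfl⟩ := E.surjective q
    obtain ⟨i, y, z⟩ := q
    rw [h4, hρ]
    have e3 : (Fin.cons (a 0 (z 0)) (fun j : Fin k => a j.succ (z j.succ)) :
        Fin (k + 1) → Fin m'.unpair.2) = fun j => a j (z j) := by
      funext j
      refine Fin.cases ?_ (fun j => ?_) j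
      · rfl
      · rfl
    show _ = ((f l i (b y) (Fin.cons (a 0 (z 0)) (fun j : Fin k => a j.succ (z j.succ)))).1,
      ((f l i (b y) (Fin.cons (a 0 (z 0)) (fun j : Fin k => a j.succ (z j.succ)))).2.1 • y,
        z 0 + (f l i (b y) (Fin.cons (a 0 (z 0))
          (fun j : Fin k => a j.succ (z j.succ)))).2.2 0),
      (fun j : Fin k => z j.succ) + fun j : Fin k => (f l i (b y) (Fin.cons (a 0 (z 0))
        (fun j : Fin k => a j.succ (z j.succ)))).2.2 j.succ)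
    rw [e3]
    rfl

theorem ufz_all (k : ℕ) : ∀ {L : Type} [Group L] (c : Cls L), UF c → UFZ c k := by
  induction k with
  | zero => intro L _ c h; exact ufz_zero c h
  | succ k ih => intro L _ c h; exact ufz_succ c k (ih (cp c) (uf_cp c h))

end Vale.Agent.P192.H291
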