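import Vale.Agent.P192.H291.ChVirt
import Vale.Agent.P192.H291.Ctr

set_option linter.all false

/-! The induction step for charts. -/

namespace Vale.Agent.P192.H291

open Vale.Agent.P192 Vale.Agent.P192.H593 Vale.Agent.P192.H437 Vale.Agent.P192.H567

/-- the centres of charts at which the heads of different classes of `Pd` are far apart are fixed by
`N` -/
def ClC {L : Type} [Group L] (c : Cls L) {G : Type} [Group G] {M : ℕ} (σ : Fin M → G)
    (k n m m₁ s D : ℕ) (K : Set L) (P Pd : Setoid (Fin k)) (Rd : ℕ) (N : Subgroup G) : Prop :=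
  ∀ (I : Type) [Finite I], Nat.card I ≤ n →
  ∀ (Y : Type) [MulAction L Y] (b : Y → c.C m), c.P m Y b →
  ∀ (a : Fin k → ℤ → Fin m₁) (f : Fin M × Bool → I → c.C m →
    (Fin k → Fin m₁) × (Fin k → Fin k → ℤ → Prop) → I × L × (Fin k → ℤ)),
  (∀ l i β o, (f l i β o).2.1 ∈ K) → (∀ l i β o j, |(f l i β o).2.2 j| ≤ (D : ℤ)) →
  ∀ (X : Type) (ρ : G →* Equiv.Perm X) (z₀ : Fin k → ℤ) (ι : I × Y × (Fin k → ℤ) → X),
  Cht σ ρ f b (obs s a P) z₀ Rd ι →
  (∀ i j, P i j → ¬ Pd i j → (Rd : ℤ) < |z₀ i - z₀ j|) →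
  ∀ i y, ∀ g ∈ N, ρ g (ι (i, y, z₀)) = ι (i, y, z₀)

theorem near_stepC {L : Type} [Group L] (c : Cls L) {k : ℕ} (hZ : UFZ c k) (G : Type) [Group G]
    [Group.IsFinitelyPresented G] (hG : IsMulTorsion G) {M : ℕ} (σ : Fin M → G)
    (hσ : Subgroup.closure (Set.range σ) = ⊤) (n m m₁ s D : ℕ) (K : Set L) (hK : K.Finite)
    (P Pd : Setoid (Fin k)) (hPd : ∀ i j, Pd i j → P i j) (R' : ℕ) (N' : Subgroup G) [N'.Normal]
    [N'.FiniteIndex] (ih : ∀ Pd' : Setoid (Fin k), Pd' < Pd → ClC c σ k n m m₁ s D K P Pd' R' N') :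
    ∃ (Rd : ℕ) (N : Subgroup G), N.Normal ∧ N.FiniteIndex ∧ ClC c σ k n m m₁ s D K P Pd Rd N := by
  classical
  obtain ⟨R, r, hr, hR, hRk⟩ := exists_pres G σ hσ
  obtain ⟨w, ℓ, hw1, hw2, hw3⟩ := coset_words σ hσ N'
  set κ : ℕ := k * R' with hκ
  set t : ℕ := D * (ℓ + 1) + D * r with ht
  obtain ⟨m', href⟩ := c.ref m (PP K ℓ) (PP_finite hK ℓ)
  let Wn : Type := Fin (2 * (κ + t) + 1) → (Fin k → Fin m₁)
  let ε : Wn ≃ Fin (Nat.card Wn) := Finite.equivFin Wn
  obtain ⟨N₂, hN₂1, hN₂2, hN₂3⟩ := hZ G hG M σ hσ (n * Nat.card (Rl k κ)) m' (Nat.card Wn) D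
    (insert 1 K) (hK.insert 1)
  obtain ⟨w₂, ℓ₂, hw₂1, hw₂2, hw₂3⟩ := coset_words σ hσ N₂
  obtain ⟨T, hT⟩ := close_both (Fin k → Fin m₁) (κ + t)
  set tt : ℕ := D * (ℓ₂ + 1) + D * (ℓ + 1) with htt
  set q : ℕ := κ + tt with hq
  refine ⟨2 * (q + T + κ) + 2 * t + s + R' + 2 * tt, N' ⊓ N₂, inferInstance, inferInstance, ?_⟩
  intro I _ hI Y _ b hb a f hf1 hf2 X ρ z₀ ι hc hfar i₀ y₀ g hg
  have hfar0 : ∀ i j, P i j → ¬ Pd i j →
      ((2 * (q + T + κ) + 2 * t + s + R' + 2 * tt : ℕ) : ℤ) < |z₀ i - z₀ j| := hfar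
  push_cast at hfar0
  set RR : ℕ := 2 * (q + T + κ) + 2 * t + s + R' + 2 * tt with hRR
  have hRRz : (RR : ℤ) = 2 * (q + T + κ) + 2 * t + s + R' + 2 * tt := by rw [hRR]; push_cast; ring
  have hs0 : (0 : ℤ) ≤ s := Int.natCast_nonneg s
  have hT0 : (0 : ℤ) ≤ T := Int.natCast_nonneg T
  have hκ0 : (0 : ℤ) ≤ κ := Int.natCast_nonneg κ
  have hq0 : (0 : ℤ) ≤ q := Int.natCast_nonneg q
  have ht0 : (0 : ℤ) ≤ t := Int.natCast_nonneg t
  have htt0 : (0 : ℤ) ≤ tt := Int.natCast_nonneg tt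
  have hR0 : (0 : ℤ) ≤ R' := Int.natCast_nonneg R'
  -- near positions
  let Nr : (Fin k → ℤ) → Prop := fun z => ∀ i j, Pd i j → |z i - z j| ≤ (κ : ℤ)
  have hbad : ∀ z : Fin k → ℤ, (∀ i j, P i j → ¬ Pd i j → (R' : ℤ) < |z i - z j|) →
      (∀ j, |z j - z₀ j| + R' ≤ (RR : ℤ)) → ¬ Nr z →
      ∀ i y, ∀ g ∈ N', ρ g (ι (i, y, z)) = ι (i, y, z) := by
    intro z hz hzR hno i y g hg
    have h1 : ∃ i₁ j₁, Pd i₁ j₁ ∧ (κ : ℤ) < |z i₁ - z j₁| := by
      by_contra hc
      push Not at hc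
      exact hno fun i j h => hc i j h
    obtain ⟨i₁, j₁, h2, h3⟩ := h1
    obtain ⟨i₂, j₂, h4, h5⟩ : ∃ i₂ j₂, Pd i₂ j₂ ∧ ((k * R' : ℕ) : ℤ) < z j₂ - z i₂ := by
      rw [hκ, lt_abs] at h3
      rcases h3 with h3 | h3
      · exact ⟨j₁, i₁, Pd.symm' h2, h3⟩
      · exact ⟨i₁, j₁, h2, by linarith⟩
    obtain ⟨Pd', h6, h7⟩ := gap P Pd R' z hz i₂ j₂ h4 h5
    exact ih Pd' h6 I hI Y b hb a f hf1 hf2 X ρ z ι (hc.mono hzR) h7 i y g hg
  by_cases hNr0 : Nr z₀
  swap
  · refine hbad z₀ (fun i j h1 h2 => ?_) (fun j => ?_) hNr0 i₀ y₀ g hg.1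
    · have h3 := hfar0 i j h1 h2
      linarith
    · rw [sub_self, abs_zero, hRRz]
      linarith
  -- representatives of the blocks
  obtain ⟨rep, hrep1, hrep2⟩ : ∃ rep : Fin k → Fin k, (∀ j, Pd j (rep j)) ∧
      ∀ i j, Pd i j → rep i = rep j :=
    ⟨fun j => (Quotient.mk Pd j).out, fun j => Pd.symm' (Quotient.mk_out j),
      fun i j h => congrArg Quotient.out (Quotient.sound h)⟩
  have hrep : ∀ j, rep (rep j) = rep j := fun j => (hrep2 _ _ (hrep1 j)).symm
  -- the closed tapes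
  let A : ℤ → (Fin k → Fin m₁) := fun x i => a i x
  choose A' hA1 hA2 using fun j => hT q A (z₀ j)
  let a' : Fin k → ℤ → Fin m₁ := fun i x => A' (rep i) x i
  let ob := obs s a P
  let ob' := obs s a' Pd
  -- realisation
  have RL : ∀ z, Nr z → ∃ z', Mt t ob' ob z z' ∧ (∀ j, |z' j - z₀ j| + t ≤ (RR : ℤ)) ∧
      ∀ d : Fin k → ℤ, (∀ j, |d j| ≤ (t : ℤ)) →
      ¬ Nr (z + d) → ∀ i y, ∀ g ∈ N', ρ g (ι (i, y, z' + d)) = ι (i, y, z' + d) := by
    intro z hz
    choose v hv1 hv2 using fun j => hA2 j (z j)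
    have hzr : ∀ j, |z j - z (rep j)| ≤ (κ : ℤ) := fun j => hz j (rep j) (hrep1 j)
    have hdiff : ∀ i j, Pd i j → (v (rep i) + (z i - z (rep i))) - (v (rep j) + (z j - z (rep j)))
        = z i - z j := by
      intro i j h
      rw [hrep2 i j h]; ring
    have hfar' : ∀ i j, P i j → ¬ Pd i j → (2 * (t : ℤ) + s + R') <
        |(v (rep i) + (z i - z (rep i))) - (v (rep j) + (z j - z (rep j)))| := by
      intro i j h1 h2
      have h3 : ¬ Pd (rep i) (rep j) := fun h => h2 (Pd.trans' (hrep1 i)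
        (Pd.trans' h (Pd.symm' (hrep1 j))))
      have h4 : P (rep i) (rep j) := P.trans' (P.symm' (hPd _ _ (hrep1 i)))
        (P.trans' h1 (hPd _ _ (hrep1 j)))
      have h5 := hfar0 _ _ h4 h3
      have h6 := hv1 (rep i)
      have h7 := hv1 (rep j)
      have h8 := hzr i
      have h9 := hzr j
      push_cast at h6 h7
      rw [abs_le] at h6 h7 h8 h9
      have h10 : (0 : ℤ) ≤ 2 * (tt : ℤ) := by positivity
      rw [lt_abs] at h5 ⊢
      rcases h5 with h5 | h5
      · left; linarith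
      · right; linarith
    have hclose : ∀ j, |(v (rep j) + (z j - z (rep j))) - z₀ j| ≤ (q + T + 2 * κ : ℤ) := by
      intro j
      have h6 := hv1 (rep j)
      have h8 := hzr j
      have h9 := hNr0 j (rep j) (hrep1 j)
      push_cast at h6
      rw [abs_le] at h6 h8 h9 ⊢
      constructor <;> linarith
    refine ⟨fun i => v (rep i) + (z i - z (rep i)), ?_, ?_, ?_⟩
    · intro d hd
      refine Prod.ext (funext fun i => ?_) (funext fun i => funext fun j => funext fun e =>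
        propext ?_)
      · show A' (rep i) (z i + d i) i = A ((v (rep i) + (z i - z (rep i))) + d i) i
        have h1 := hv2 (rep i) (z i - z (rep i) + d i) (by
          have h2 := hzr i
          have h3 := hd i
          rw [abs_le] at h2 h3 ⊢
          push_cast
          constructor <;> linarith)
        have h4 : z (rep i) + (z i - z (rep i) + d i) = z i + d i := by ring
        have h5 : v (rep i) + (z i - z (rep i) + d i) = v (rep i) + (z i - z (rep i)) + d i := by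
          ring
        rw [h4, h5] at h1
        rw [h1]
      · show (Pd i j ∧ |e| ≤ (s : ℤ) ∧ (z i + d i) + e = z j + d j) ↔
          (P i j ∧ |e| ≤ (s : ℤ) ∧ (v (rep i) + (z i - z (rep i)) + d i) + e =
            v (rep j) + (z j - z (rep j)) + d j)
        constructor
        · rintro ⟨h1, h2, h3⟩
          refine ⟨hPd _ _ h1, h2, ?_⟩
          have := hdiff i j h1
          linarith
        · rintro ⟨h1, h2, h3⟩
          by_cases h4 : Pd i j
          · refine ⟨h4, h2, ?_⟩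
            have := hdiff i j h4
            linarith
          · exfalso
            have h5 := hfar' i j h1 h4
            have h6 := hd i
            have h7 := hd j
            rw [abs_le] at h2 h6 h7
            have h8 : (0 : ℤ) ≤ R' := Int.natCast_nonneg _
            rw [lt_abs] at h5
            rcases h5 with h5 | h5 <;> linarith
    · intro j
      have h1 := hclose j
      show |(v (rep j) + (z j - z (rep j))) - z₀ j| + t ≤ (RR : ℤ)
      rw [hRRz]
      linarith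
    · intro d hd hno
      refine hbad _ ?_ ?_ ?_
      · intro i j h1 h2
        have h5 := hfar' i j h1 h2
        have h6 := hd i
        have h7 := hd j
        rw [abs_le] at h6 h7
        have h8 : (0 : ℤ) ≤ s := Int.natCast_nonneg _
        show (R' : ℤ) < |(v (rep i) + (z i - z (rep i)) + d i) -
          (v (rep j) + (z j - z (rep j)) + d j)|
        rw [lt_abs] at h5 ⊢
        rcases h5 with h5 | h5
        · left; linarith
        · right; linarith
      · intro j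
        have h1 := hclose j
        have h2 := hd j
        have h3 : (v (rep j) + (z j - z (rep j)) + d j) - z₀ j =
          ((v (rep j) + (z j - z (rep j))) - z₀ j) + d j := by ring
        have h4 := abs_add_le ((v (rep j) + (z j - z (rep j))) - z₀ j) (d j)
        show |(v (rep j) + (z j - z (rep j)) + d j) - z₀ j| + R' ≤ (RR : ℤ)
        rw [h3, hRRz]
        linarith
      · intro hc
        apply hno
        intro i j h
        have h1 := hc i j h
        have h2 := hdiff i j h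
        have h3 : (z + d) i - (z + d) j = (v (rep i) + (z i - z (rep i)) + d i) -
            (v (rep j) + (z j - z (rep j)) + d j) := by
          show (z i + d i) - (z j + d j) = _
          linarith
        rw [h3]
        exact h1
  -- the virtual system
  have ht1 : D * (ℓ + 1) ≤ t := Nat.le_add_right _ _
  have ht2 : D * r ≤ t := Nat.le_add_left _ _
  have hms := mem_stepC hf1 hf2 b ob ob' σ N' w ℓ t hw2 hw3 hw1 ht1 Nr ρ z₀ RR ι hc RL
  have hgood2 := st2_goodC hf1 hf2 b ob ob' σ R r hr hR hRk N' w ℓ t hw2 hw3 hw1 ht1 ht2 Nr ρ z₀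
    RR ι hc RL
  have hMN : ∀ p, Mem w (hst f b ob') Nr p → Nr p.2.2 := by
    intro p hp
    have := hp 1
    rwa [hw1] at this
  have hκr : ∀ z, Nr z → ∀ j, |z j - z (rep j)| ≤ (κ : ℤ) := fun z hz j => hz _ _ (hrep1 j)
  have hgood3 : SGood R (st3 (κ := κ) f b ob' w Nr rep) :=
    st3_good hms hMN hκr hrep hgood2
  obtain ⟨ρ₃, hρ₃⟩ := hom_of_steps σ hσ hRk hgood3
  -- colours
  obtain ⟨b', hb', hbb⟩ := href Y b hb
  let a₃ : Fin k → ℤ → Fin (Nat.card Wn) := fun j x =>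
    ε (fun e => A' j (x + (((e : ℕ) : ℤ) - (κ + t))))
  have ha₃ : ∀ j x x', a₃ j x = a₃ j x' → ∀ d : ℤ, |d| ≤ (κ + t : ℕ) →
      A' j (x + d) = A' j (x' + d) := by
    intro j x x' h d hd
    have h1 := congrFun (ε.injective h) ⟨(d + (κ + t : ℕ)).toNat, by
      rw [abs_le] at hd; omega⟩
    have h2 : (((d + ((κ + t : ℕ) : ℤ)).toNat : ℕ) : ℤ) = d + (κ + t : ℕ) :=
      Int.toNat_of_nonneg (by rw [abs_le] at hd; omega)
    simp only at h1
    rw [h2] at h1
    have h3 : d + ((κ + t : ℕ) : ℤ) - (κ + t) = d := by push_cast; ring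
    rw [h3] at h1
    exact h1
  let dt : Fin M × Bool → I × Rl k κ → Y × (Fin k → ℤ) → (I × Rl k κ) × L × (Fin k → ℤ) :=
    fun l i yz => dat f b ob' w Nr rep l (i, yz.1, yz.2)
  have hdt : ∀ l i (yz yz' : Y × (Fin k → ℤ)), b' yz.1 = b' yz'.1 →
      (∀ j, a₃ j (yz.2 j) = a₃ j (yz'.2 j)) → dt l i yz = dt l i yz' := by
    rintro l i ⟨y, z⟩ ⟨y', z'⟩ h1 h2
    refine dat_congr hf1 hf2 hw3 ht1 l i y y' z z' (fun τ hτ => hbb y y' h1 τ hτ) ?_ ?_
    · intro d hd
      refine Prod.ext (funext fun j => ?_) (funext fun j => funext fun j' => funext fun e =>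
        propext ?_)
      · show A' (rep j) ((z (rep j) + dec i.2 j) + d j) j =
          A' (rep j) ((z' (rep j) + dec i.2 j) + d j) j
        have h3 := ha₃ (rep j) (z (rep j)) (z' (rep j)) (h2 (rep j)) (dec i.2 j + d j) (by
          have h4 := abs_dec i.2 j
          have h5 := hd j
          rw [abs_le] at h4 h5 ⊢
          push_cast
          constructor <;> linarith)
        rw [add_assoc, h3, add_assoc]
      · show (Pd j j' ∧ |e| ≤ (s : ℤ) ∧ (z (rep j) + dec i.2 j + d j) + e =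
            z (rep j') + dec i.2 j' + d j') ↔
          (Pd j j' ∧ |e| ≤ (s : ℤ) ∧ (z' (rep j) + dec i.2 j + d j) + e =
            z' (rep j') + dec i.2 j' + d j')
        refine and_congr_right fun h3 => and_congr_right fun _ => ?_
        rw [hrep2 j j' h3]
        constructor <;> intro h4 <;> linarith
    · intro d
      refine forall_congr' fun j => forall_congr' fun j' => forall_congr' fun h3 => ?_
      show |(z (rep j) + dec i.2 j + d j) - (z (rep j') + dec i.2 j' + d j')| ≤ (κ : ℤ) ↔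
        |(z' (rep j) + dec i.2 j + d j) - (z' (rep j') + dec i.2 j' + d j')| ≤ (κ : ℤ)
      rw [hrep2 j j' h3]
      have h4 : (z (rep j') + dec i.2 j + d j) - (z (rep j') + dec i.2 j' + d j') =
        (z' (rep j') + dec i.2 j + d j) - (z' (rep j') + dec i.2 j' + d j') := by ring
      rw [h4]
  have hdt1 : ∀ l i yz, (dt l i yz).2.1 ∈ insert 1 K := by
    intro l i yz
    show (dat f b ob' w Nr rep l (i, yz.1, yz.2)).2.1 ∈ insert 1 K
    unfold dat
    split_ifs
    · exact Or.inr (hf1 _ _ _ _)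
    · exact Or.inl rfl
  have hdt2 : ∀ l i yz j, |(dt l i yz).2.2 j| ≤ (D : ℤ) := by
    intro l i yz j
    show |(dat f b ob' w Nr rep l (i, yz.1, yz.2)).2.2 j| ≤ (D : ℤ)
    unfold dat
    split_ifs
    · exact hf2 _ _ _ _ _
    · simp
  let f₃ : Fin M × Bool → I × Rl k κ → c.C m' → (Fin k → Fin (Nat.card Wn)) →
      (I × Rl k κ) × L × (Fin k → ℤ) := fun l i β γ =>
    if h : ∃ yz : Y × (Fin k → ℤ), b' yz.1 = β ∧ (fun j => a₃ j (yz.2 j)) = γ then
      dt l i h.choose else (i, 1, 0)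
  have hcard : Nat.card (I × Rl k κ) ≤ n * Nat.card (Rl k κ) := by
    rw [Nat.card_prod]; exact Nat.mul_le_mul_right _ hI
  have hone := hN₂3 (I × Rl k κ) hcard Y b' hb' a₃ f₃ (by
      intro l i β γ
      show (if h : ∃ yz : Y × (Fin k → ℤ), b' yz.1 = β ∧ (fun j => a₃ j (yz.2 j)) = γ then
        dt l i h.choose else (i, 1, 0)).2.1 ∈ insert 1 K
      split_ifs with h
      · exact hdt1 _ _ _
      · exact Or.inl rfl) (by
      intro l i β γ j
      show |(if h : ∃ yz : Y × (Fin k → ℤ), b' yz.1 = β ∧ (fun j => a₃ j (yz.2 j)) = γ then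
        dt l i h.choose else (i, 1, 0)).2.2 j| ≤ (D : ℤ)
      split_ifs with h
      · exact hdt2 _ _ _ _
      · simp) ρ₃ (by
      rintro l ⟨i, y, z⟩
      rw [hρ₃]
      have h : ∃ yz : Y × (Fin k → ℤ), b' yz.1 = b' y ∧
        (fun j => a₃ j (yz.2 j)) = fun j => a₃ j (z j) := ⟨(y, z), rfl, rfl⟩
      have h1 : f₃ l i (b' y) (fun j => a₃ j (z j)) = dt l i (y, z) := by
        show (if h : ∃ yz : Y × (Fin k → ℤ), b' yz.1 = b' y ∧ (fun j => a₃ j (yz.2 j)) =
          (fun j => a₃ j (z j)) then dt l i h.choose else (i, 1, 0)) = _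
        rw [dif_pos h]
        exact hdt l i _ _ h.choose_spec.1 (fun j => congrFun h.choose_spec.2 j)
      show _ = ((f₃ l i (b' y) (fun j => a₃ j (z j))).1,
        (f₃ l i (b' y) (fun j => a₃ j (z j))).2.1 • y,
        z + (f₃ l i (b' y) (fun j => a₃ j (z j))).2.2)
      rw [h1]
      rfl)
  -- real and virtual system agree near the point
  have hMt0 : Mt tt ob' ob z₀ z₀ := by
    intro d hd
    refine Prod.ext (funext fun i => ?_) (funext fun i => funext fun j => funext fun e =>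
      propext ?_)
    · show A' (rep i) (z₀ i + d i) i = A (z₀ i + d i) i
      rw [hA1 (rep i) _ (by
        have h2 := hκr z₀ hNr0 i
        have h3 := hd i
        rw [abs_le] at h2 h3 ⊢
        push_cast [hq]
        constructor <;> linarith)]
    · show (Pd i j ∧ |e| ≤ (s : ℤ) ∧ (z₀ i + d i) + e = z₀ j + d j) ↔
        (P i j ∧ |e| ≤ (s : ℤ) ∧ (z₀ i + d i) + e = z₀ j + d j)
      refine ⟨fun h => ⟨hPd _ _ h.1, h.2⟩, fun h => ⟨?_, h.2⟩⟩
      by_contra h4
      obtain ⟨h1, h2, h3⟩ := h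
      have h5 := hfar0 i j h1 h4
      have h6 := hd i
      have h7 := hd j
      rw [abs_le] at h2 h6 h7
      have h8 : (0 : ℤ) ≤ 2 * (q + T + κ) + 2 * t + R' := by positivity
      rw [lt_abs] at h5
      rcases h5 with h5 | h5 <;> linarith
  have hagree : ∀ W : List (Fin M × Bool), D * W.length ≤ tt →
      ρ ((FreeGroup.lift σ : FreeGroup (Fin M) →* G) (FreeGroup.mk W)) (ι (i₀, y₀, z₀)) =
        ι (runS (hst f b ob') W (i₀, y₀, z₀)) ∧
      ∃ i₁ y₁, ∃ d : Fin k → ℤ, (∀ j, |d j| ≤ (tt : ℤ)) ∧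
        runS (hst f b ob') W (i₀, y₀, z₀) = (i₁, y₁, z₀ + d) := by
    intro W hW
    have hW' : ((D * W.length : ℕ) : ℤ) ≤ tt := by exact_mod_cast hW
    obtain ⟨i₁, y₁, d₁, hd₁, h1, h2⟩ := c_transfer hf1 hf2 ob' hc W i₀ y₀ z₀ z₀
      (hMt0.mono hW) (fun j => by
        rw [sub_self, abs_zero, hRRz]
        linarith)
    exact ⟨by rw [h1, h2], i₁, y₁, d₁, fun j => (hd₁ j).trans hW', h1⟩
  have htt1 : D * (ℓ₂ + 1) ≤ tt := Nat.le_add_right _ _
  have htt2 : D * (ℓ + 1) ≤ tt := Nat.le_add_left _ _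
  by_cases hM : Mem w (hst f b ob') Nr (i₀, y₀, z₀)
  · -- the point is a member
    let e₀ : (I × Rl k κ) × Y × (Fin k → ℤ) :=
      ((i₀, enc κ (fun j => z₀ j - z₀ (rep j))), y₀, z₀)
    have hpr : pr rep e₀ = (i₀, y₀, z₀) := by
      refine Prod.ext rfl (Prod.ext rfl (funext fun j => ?_))
      show z₀ (rep j) + dec (enc κ (fun j => z₀ j - z₀ (rep j))) j = z₀ j
      rw [dec_enc _ (hκr z₀ hNr0)]
      ring
    have hVd : Vd w (hst f b ob') Nr rep e₀ := by
      refine ⟨fun j => ?_, by rw [hpr]; exact hM⟩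
      show dec (enc κ (fun j => z₀ j - z₀ (rep j))) (rep j) = 0
      rw [dec_enc _ (hκr z₀ hNr0), hrep]
      ring
    refine fix_of_cosets σ hσ N₂ w₂ hw₂1 (st := fun l x => ρ (gen σ l) x) ρ (fun _ _ => rfl)
      (ι (i₀, y₀, z₀)) ?_ g hg.2
    intro l x
    set x₂ : G ⧸ N₂ := QuotientGroup.mk (gen σ l) * x with hx₂
    have hlen1 : D * (l :: w₂ x).length ≤ tt := by
      rw [List.length_cons]
      exact (Nat.mul_le_mul_left D (Nat.add_le_add_right (hw₂3 x) 1)).trans htt1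
    have hlen2 : D * (w₂ x₂).length ≤ tt :=
      (Nat.mul_le_mul_left D ((hw₂3 x₂).trans (Nat.le_succ _))).trans htt1
    rw [← hom_run σ ρ (fun _ _ => rfl), ← hom_run σ ρ (fun _ _ => rfl),
      (hagree _ hlen1).1, (hagree _ hlen2).1]
    congr 1
    rw [← hpr, ← (st3_run hms hMN hκr hrep (l :: w₂ x) e₀ hVd).1,
      ← (st3_run hms hMN hκr hrep (w₂ x₂) e₀ hVd).1,
      ← hom_run σ ρ₃ hρ₃, ← hom_run σ ρ₃ hρ₃]
    congr 2
    set g₁ := (FreeGroup.lift σ : FreeGroup (Fin M) →* G) (FreeGroup.mk (l :: w₂ x)) with hg₁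
    set g₂ := (FreeGroup.lift σ : FreeGroup (Fin M) →* G) (FreeGroup.mk (w₂ x₂)) with hg₂
    have h1 : (QuotientGroup.mk g₂ : G ⧸ N₂) = QuotientGroup.mk g₁ := by
      rw [hg₂, hw₂2, hg₁, lift_gen, List.map_cons, List.prod_cons, ← lift_gen, hx₂]
      conv_lhs => rw [← hw₂2 x]
      rfl
    have h2 : g₂⁻¹ * g₁ ∈ N₂ := QuotientGroup.eq.1 h1
    have h3 : g₁ = g₂ * (g₂⁻¹ * g₁) := by group
    rw [h3, map_mul, hone _ h2, mul_one]
  · -- some element of the transversal leads to a position with a gap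
    have hM' : ∃ x, ¬ Nr (runS (hst f b ob') (w x) (i₀, y₀, z₀)).2.2 := by
      by_contra hc
      push Not at hc
      exact hM hc
    obtain ⟨x, hx⟩ := hM'
    have hlen : D * (w x).length ≤ tt :=
      (Nat.mul_le_mul_left D ((hw3 x).trans (Nat.le_succ _))).trans htt2
    obtain ⟨h1, i₁, y₁, d, hd, h2⟩ := hagree (w x) hlen
    rw [h2] at h1 hx
    refine fix_back N' ρ ((FreeGroup.lift σ : FreeGroup (Fin M) →* G) (FreeGroup.mk (w x))) _
      ?_ g hg.1
    rw [h1]
    refine hbad _ ?_ ?_ hx i₁ y₁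
    · intro i j h4 h5
      have h6 := hfar0 i j h4 h5
      have h7 := hd i
      have h8 := hd j
      rw [abs_le] at h7 h8
      show (R' : ℤ) < |(z₀ i + d i) - (z₀ j + d j)|
      rw [lt_abs] at h6 ⊢
      rcases h6 with h6 | h6
      · left; linarith
      · right; linarith
    · intro j
      have h7 := hd j
      show |(z₀ j + d j) - z₀ j| + R' ≤ (RR : ℤ)
      rw [add_sub_cancel_left, hRRz]
      linarith

end Vale.Agent.P192.H291
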