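import Vale.Agent.P192.H291.Compo

set_option linter.all false

/-! Charts: the real system is an arbitrary set with an action; it looks like a system with `k` heads
near a point only. -/

namespace Vale.Agent.P192.H291

open Vale.Agent.P192 Vale.Agent.P192.H593 Vale.Agent.P192.H437 Vale.Agent.P192.H567

section

variable {G L : Type} [Group G] [Group L] {M k : ℕ} {I Y B O X : Type} [MulAction L Y]

/-- a chart of radius `R` around `z₀` -/
structure Cht (σ : Fin M → G) (ρ : G →* Equiv.Perm X)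
    (f : Fin M × Bool → I → B → O → I × L × (Fin k → ℤ)) (b : Y → B) (ob : (Fin k → ℤ) → O)
    (z₀ : Fin k → ℤ) (R : ℕ) (ι : I × Y × (Fin k → ℤ) → X) : Prop where
  step : ∀ l x, (∀ j, |x.2.2 j - z₀ j| ≤ (R : ℤ)) → ρ (gen σ l) (ι x) = ι (hst f b ob l x)
  inj : ∀ x x', (∀ j, |x.2.2 j - z₀ j| ≤ (R : ℤ)) → (∀ j, |x'.2.2 j - z₀ j| ≤ (R : ℤ)) →
    ι x = ι x' → x = x'

theorem Cht.mono {σ : Fin M → G} {ρ : G →* Equiv.Perm X}
    {f : Fin M × Bool → I → B → O → I × L × (Fin k → ℤ)} {b : Y → B} {ob : (Fin k → ℤ) → O}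
    {z₀ z₁ : Fin k → ℤ} {R R₁ : ℕ} {ι : I × Y × (Fin k → ℤ) → X} (h : Cht σ ρ f b ob z₀ R ι)
    (hz : ∀ j, |z₁ j - z₀ j| + R₁ ≤ (R : ℤ)) : Cht σ ρ f b ob z₁ R₁ ι := by
  have key : ∀ x : I × Y × (Fin k → ℤ), (∀ j, |x.2.2 j - z₁ j| ≤ (R₁ : ℤ)) →
      ∀ j, |x.2.2 j - z₀ j| ≤ (R : ℤ) := by
    intro x hx j
    have h1 := hx j
    have h2 := hz j
    have h3 : x.2.2 j - z₀ j = (x.2.2 j - z₁ j) + (z₁ j - z₀ j) := by ring
    rw [h3]
    refine (abs_add_le _ _).trans ?_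
    linarith
  exact ⟨fun l x hx => h.step l x (key x hx), fun x x' hx hx' => h.inj x x' (key x hx)
    (key x' hx')⟩

theorem Cht.run {σ : Fin M → G} {ρ : G →* Equiv.Perm X} {D : ℕ}
    {f : Fin M × Bool → I → B → O → I × L × (Fin k → ℤ)}
    (hf2 : ∀ l i β o j, |(f l i β o).2.2 j| ≤ (D : ℤ)) {b : Y → B} {ob : (Fin k → ℤ) → O}
    {z₀ : Fin k → ℤ} {R : ℕ} {ι : I × Y × (Fin k → ℤ) → X} (h : Cht σ ρ f b ob z₀ R ι)
    (W : List (Fin M × Bool)) (x : I × Y × (Fin k → ℤ))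
    (hx : ∀ j, |x.2.2 j - z₀ j| + (D * W.length : ℕ) ≤ (R : ℤ)) :
    ρ ((FreeGroup.lift σ : FreeGroup (Fin M) →* G) (FreeGroup.mk W)) (ι x) =
      ι (runS (hst f b ob) W x) ∧
      ∀ j, |(runS (hst f b ob) W x).2.2 j - x.2.2 j| ≤ (D * W.length : ℕ) := by
  rw [lift_gen]
  induction W with
  | nil => exact ⟨by simp [runS], fun j => by simp [runS]⟩
  | cons l W ih =>
    have hlen : ((D * (l :: W).length : ℕ) : ℤ) = (D * W.length : ℕ) + D := by
      rw [List.length_cons]; push_cast; ring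
    have hD : (0 : ℤ) ≤ D := Int.natCast_nonneg D
    obtain ⟨h1, h2⟩ := ih (fun j => by have := hx j; rw [hlen] at this; linarith)
    rw [List.map_cons, List.prod_cons, map_mul, Equiv.Perm.mul_apply, h1, runS_cons]
    constructor
    · apply h.step
      intro j
      have h3 := h2 j
      have h4 := hx j
      rw [hlen] at h4
      have h5 : (runS (hst f b ob) W x).2.2 j - z₀ j =
        ((runS (hst f b ob) W x).2.2 j - x.2.2 j) + (x.2.2 j - z₀ j) := by ring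
      rw [h5]
      refine (abs_add_le _ _).trans ?_
      linarith
    · intro j
      have h3 := h2 j
      have h4 := hf2 l (runS (hst f b ob) W x).1 (b (runS (hst f b ob) W x).2.1)
        (ob (runS (hst f b ob) W x).2.2) j
      have h5 : (hst f b ob l (runS (hst f b ob) W x)).2.2 j - x.2.2 j =
        ((runS (hst f b ob) W x).2.2 j - x.2.2 j) + (f l (runS (hst f b ob) W x).1
          (b (runS (hst f b ob) W x).2.1) (ob (runS (hst f b ob) W x).2.2)).2.2 j := by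
        show ((runS (hst f b ob) W x).2.2 j + _) - x.2.2 j = _
        ring
      rw [h5, hlen]
      refine (abs_add_le _ _).trans ?_
      linarith

theorem c_transfer {K : Set L} {D : ℕ} {f : Fin M × Bool → I → B → O → I × L × (Fin k → ℤ)}
    (hf1 : ∀ l i β o, (f l i β o).2.1 ∈ K) (hf2 : ∀ l i β o j, |(f l i β o).2.2 j| ≤ (D : ℤ))
    {σ : Fin M → G} {ρ : G →* Equiv.Perm X} {b : Y → B} (ob' : (Fin k → ℤ) → O)
    {ob : (Fin k → ℤ) → O} {z₀ : Fin k → ℤ} {R : ℕ} {ι : I × Y × (Fin k → ℤ) → X}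
    (h : Cht σ ρ f b ob z₀ R ι) (W : List (Fin M × Bool)) (i : I) (y : Y) (z z' : Fin k → ℤ)
    (hz : Mt (D * W.length) ob' ob z z')
    (hz' : ∀ j, |z' j - z₀ j| + (D * W.length : ℕ) ≤ (R : ℤ)) :
    ∃ (i' : I) (y' : Y) (d : Fin k → ℤ), (∀ j, |d j| ≤ (D * W.length : ℕ)) ∧
      runS (hst f b ob') W (i, y, z) = (i', y', z + d) ∧
      ρ ((FreeGroup.lift σ : FreeGroup (Fin M) →* G) (FreeGroup.mk W)) (ι (i, y, z')) =
        ι (i', y', z' + d) := by
  obtain ⟨i', t, d, -, hd, h1, h2⟩ := h_transfer hf1 hf2 b ob' ob W i y y z z'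
    (fun _ _ => rfl) hz
  refine ⟨i', t • y, d, hd, h1, ?_⟩
  rw [(h.run hf2 W (i, y, z') hz').1, h2]

theorem mem_stepC {K : Set L} {D : ℕ} {f : Fin M × Bool → I → B → O → I × L × (Fin k → ℤ)}
    (hf1 : ∀ l i β o, (f l i β o).2.1 ∈ K) (hf2 : ∀ l i β o j, |(f l i β o).2.2 j| ≤ (D : ℤ))
    (b : Y → B) (ob ob' : (Fin k → ℤ) → O) (σ : Fin M → G)
    (N : Subgroup G) [N.Normal] (w : G ⧸ N → List (Fin M × Bool)) (ℓ t : ℕ)
    (hw2 : ∀ x, (QuotientGroup.mk ((FreeGroup.lift σ : FreeGroup (Fin M) →* G)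
        (FreeGroup.mk (w x))) : G ⧸ N) = x) (hw3 : ∀ x, (w x).length ≤ ℓ) (hw1 : w 1 = [])
    (ht : D * (ℓ + 1) ≤ t) (Nr : (Fin k → ℤ) → Prop)
    (ρ : G →* Equiv.Perm X) (z₀ : Fin k → ℤ) (R : ℕ) (ι : I × Y × (Fin k → ℤ) → X)
    (hc : Cht σ ρ f b ob z₀ R ι)
    (RL : ∀ z, Nr z → ∃ z', Mt t ob' ob z z' ∧ (∀ j, |z' j - z₀ j| + t ≤ (R : ℤ)) ∧
      ∀ d : Fin k → ℤ, (∀ j, |d j| ≤ (t : ℤ)) →
      ¬ Nr (z + d) → ∀ i y, ∀ g ∈ N, ρ g (ι (i, y, z' + d)) = ι (i, y, z' + d))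
    (l : Fin M × Bool) (p : I × Y × (Fin k → ℤ)) (hp : Mem w (hst f b ob') Nr p) :
    Mem w (hst f b ob') Nr (hst f b ob' l p) := by
  obtain ⟨i, y, z⟩ := p
  have hz : Nr z := by
    have := hp 1
    rwa [hw1] at this
  obtain ⟨z', hz1, hzR, hz2⟩ := RL z hz
  have hbox : ∀ n : ℕ, n ≤ t → ∀ j, |z' j - z₀ j| + (n : ℕ) ≤ (R : ℤ) := by
    intro n hn j
    have h1 := hzR j
    have h2 : (n : ℤ) ≤ t := by exact_mod_cast hn
    linarith
  have hin : ∀ d : Fin k → ℤ, (∀ j, |d j| ≤ (t : ℤ)) → ∀ j, |(z' + d) j - z₀ j| ≤ (R : ℤ) := by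
    intro d hd j
    have h8 := hzR j
    have h9 := hd j
    have h10 : (z' + d) j - z₀ j = (z' j - z₀ j) + d j := by
      show (z' j + d j) - z₀ j = _
      ring
    have h11 := abs_add_le (z' j - z₀ j) (d j)
    rw [h10]
    linarith
  intro x
  have hrun : runS (hst f b ob') (w x) (hst f b ob' l (i, y, z)) =
      runS (hst f b ob') (w x ++ [l]) (i, y, z) := by
    rw [runS_append]; rfl
  rw [hrun]
  have hlen : (w x ++ [l]).length ≤ ℓ + 1 := by
    rw [List.length_append]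
    exact Nat.add_le_add (hw3 x) le_rfl
  have hlt : D * (w x ++ [l]).length ≤ t := (Nat.mul_le_mul_left D hlen).trans ht
  obtain ⟨i₁, y₁, d₁, hd₁, h1, h2⟩ := c_transfer hf1 hf2 ob' hc (w x ++ [l]) i y z z'
    (hz1.mono hlt) (hbox _ hlt)
  rw [h1]
  by_contra hno
  have hfix := hz2 d₁ (fun j => (hd₁ j).trans (by exact_mod_cast hlt)) hno i₁ y₁
  set g' := (FreeGroup.lift σ : FreeGroup (Fin M) →* G) (FreeGroup.mk (w x ++ [l])) with hg'
  have hfix' : ∀ n ∈ N, ρ n (ι (i, y, z')) = ι (i, y, z') :=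
    fix_back N ρ g' _ (by rw [h2]; exact hfix)
  set x₂ : G ⧸ N := QuotientGroup.mk g' with hx₂
  set g₂ := (FreeGroup.lift σ : FreeGroup (Fin M) →* G) (FreeGroup.mk (w x₂)) with hg₂
  have h4 : g₂⁻¹ * g' ∈ N := by
    apply QuotientGroup.eq.1
    exact hw2 x₂
  have h5 : ρ g₂ (ι (i, y, z')) = ρ g' (ι (i, y, z')) := by
    have : g' = g₂ * (g₂⁻¹ * g') := by group
    conv_rhs => rw [this, map_mul, Equiv.Perm.mul_apply, hfix' _ h4]
  have hlt2 : D * (w x₂).length ≤ t :=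
    (Nat.mul_le_mul_left D ((hw3 x₂).trans (Nat.le_succ ℓ))).trans ht
  obtain ⟨i₂, y₂, d₂, hd₂, h6, h7⟩ := c_transfer hf1 hf2 ob' hc (w x₂) i y z z'
    (hz1.mono hlt2) (hbox _ hlt2)
  rw [h7, h2] at h5
  have h8 := hc.inj (i₂, y₂, z' + d₂) (i₁, y₁, z' + d₁) (hin d₂ fun j => (hd₂ j).trans (by exact_mod_cast hlt2))
    (hin d₁ fun j => (hd₁ j).trans (by exact_mod_cast hlt)) h5
  have h9 : z' + d₂ = z' + d₁ := congrArg (fun q : I × Y × (Fin k → ℤ) => q.2.2) h8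
  have h10 : d₂ = d₁ := add_left_cancel h9
  have h11 := hp x₂
  rw [h6] at h11
  apply hno
  show Nr (z + d₁)
  rw [← h10]
  exact h11

theorem st2_goodC {K : Set L} {D : ℕ} {f : Fin M × Bool → I → B → O → I × L × (Fin k → ℤ)}
    (hf1 : ∀ l i β o, (f l i β o).2.1 ∈ K) (hf2 : ∀ l i β o j, |(f l i β o).2.2 j| ≤ (D : ℤ))
    (b : Y → B) (ob ob' : (Fin k → ℤ) → O) (σ : Fin M → G) (Rl : Set (FreeGroup (Fin M))) (r : ℕ)
    (hr : 2 ≤ r) (hR : ∀ w ∈ Rl, w.norm ≤ r)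
    (hRk : Subgroup.normalClosure Rl = (FreeGroup.lift σ : FreeGroup (Fin M) →* G).ker)
    (N : Subgroup G) [N.Normal] (w : G ⧸ N → List (Fin M × Bool)) (ℓ t : ℕ)
    (hw2 : ∀ x, (QuotientGroup.mk ((FreeGroup.lift σ : FreeGroup (Fin M) →* G)
        (FreeGroup.mk (w x))) : G ⧸ N) = x) (hw3 : ∀ x, (w x).length ≤ ℓ) (hw1 : w 1 = [])
    (ht : D * (ℓ + 1) ≤ t) (ht' : D * r ≤ t) (Nr : (Fin k → ℤ) → Prop)
    (ρ : G →* Equiv.Perm X) (z₀ : Fin k → ℤ) (R : ℕ) (ι : I × Y × (Fin k → ℤ) → X)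
    (hc : Cht σ ρ f b ob z₀ R ι)
    (RL : ∀ z, Nr z → ∃ z', Mt t ob' ob z z' ∧ (∀ j, |z' j - z₀ j| + t ≤ (R : ℤ)) ∧
      ∀ d : Fin k → ℤ, (∀ j, |d j| ≤ (t : ℤ)) →
      ¬ Nr (z + d) → ∀ i y, ∀ g ∈ N, ρ g (ι (i, y, z' + d)) = ι (i, y, z' + d)) :
    SGood Rl (st2 w (hst f b ob') Nr) := by
  have hms := mem_stepC hf1 hf2 b ob ob' σ N w ℓ t hw2 hw3 hw1 ht Nr ρ z₀ R ι hc RL
  have key : ∀ W : List (Fin M × Bool), W.length ≤ r →
      (FreeGroup.lift σ : FreeGroup (Fin M) →* G) (FreeGroup.mk W) = 1 →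
      ∀ p, runS (st2 w (hst f b ob') Nr) W p = p := by
    intro W hW hW1 p
    by_cases hp : Mem w (hst f b ob') Nr p
    · rw [(st2_run hms W p hp).1]
      obtain ⟨i, y, z⟩ := p
      have hz : Nr z := by
        have := hp 1
        rwa [hw1] at this
      obtain ⟨z', hz1, hzR, hz2⟩ := RL z hz
      have hlt : D * W.length ≤ t := (Nat.mul_le_mul_left D hW).trans ht'
      have hbox : ∀ j, |z' j - z₀ j| + ((D * W.length : ℕ) : ℤ) ≤ (R : ℤ) := by
        intro j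
        have h1 := hzR j
        have h2 : ((D * W.length : ℕ) : ℤ) ≤ t := by exact_mod_cast hlt
        linarith
      obtain ⟨i₁, y₁, d₁, hd₁, h1, h2⟩ := c_transfer hf1 hf2 ob' hc W i y z z' (hz1.mono hlt)
        hbox
      rw [hW1, map_one] at h2
      have ht0 : (0 : ℤ) ≤ t := Int.natCast_nonneg t
      have h4 : (i, y, z') = (i₁, y₁, z' + d₁) := by
        refine hc.inj _ _ (fun j => ?_) (fun j => ?_) h2
        · have := hzR j
          show |z' j - z₀ j| ≤ (R : ℤ)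
          linarith
        · have h8 := hbox j
          have h9 := hd₁ j
          have h10 : (z' + d₁) j - z₀ j = (z' j - z₀ j) + d₁ j := by
            show (z' j + d₁ j) - z₀ j = _
            ring
          show |(z' + d₁) j - z₀ j| ≤ (R : ℤ)
          rw [h10]
          refine (abs_add_le _ _).trans ?_
          linarith
      have e1 : i = i₁ := congrArg Prod.fst h4
      have e2 : y = y₁ := congrArg (fun q : I × Y × (Fin k → ℤ) => q.2.1) h4
      have e3 : z' = z' + d₁ := congrArg (fun q : I × Y × (Fin k → ℤ) => q.2.2) h4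
      have e4 : d₁ = 0 := by
        have : z' + 0 = z' + d₁ := by rw [add_zero]; exact e3
        exact (add_left_cancel this).symm
      rw [h1, ← e1, ← e2, e4, add_zero]
    · exact st2_run_not W p hp
  refine ⟨fun i ε p => ?_, fun v hv p => ?_⟩
  · refine key [(i, ε), (i, !ε)] (by simpa using hr) ?_ p
    rw [lift_gen]
    simp only [List.map_cons, List.map_nil, List.prod_cons, List.prod_nil, mul_one]
    exact gen_inv σ i ε
  · refine key v.toWord (hR v hv) ?_ p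
    rw [FreeGroup.mk_toWord]
    have h1 : v ∈ (FreeGroup.lift σ : FreeGroup (Fin M) →* G).ker := by
      rw [← hRk]; exact Subgroup.subset_normalClosure hv
    exact h1

end

end Vale.Agent.P192.H291
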