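import Vale.Agent.P192.H291.Virt

set_option linter.all false

/-! Composite heads: the relative positions inside the blocks are part of the finite state. -/

namespace Vale.Agent.P192.H291

open Vale.Agent.P192 Vale.Agent.P192.H593 Vale.Agent.P192.H437 Vale.Agent.P192.H567

/-- relative positions -/
abbrev Rl (k κ : ℕ) : Type := Fin k → Fin (2 * κ + 1)

def dec {k κ : ℕ} (ρ : Rl k κ) (j : Fin k) : ℤ := ((ρ j : ℕ) : ℤ) - κ

def enc {k : ℕ} (κ : ℕ) (v : Fin k → ℤ) : Rl k κ := fun j =>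
  if h : |v j| ≤ (κ : ℤ) then ⟨(v j + κ).toNat, by rw [abs_le] at h; omega⟩ else ⟨0, by omega⟩

theorem dec_enc {k κ : ℕ} (v : Fin k → ℤ) (h : ∀ j, |v j| ≤ (κ : ℤ)) (j : Fin k) :
    dec (enc κ v) j = v j := by
  unfold dec enc
  rw [dif_pos (h j)]
  have h1 := h j
  rw [abs_le] at h1
  show (((v j + κ).toNat : ℕ) : ℤ) - κ = v j
  rw [Int.toNat_of_nonneg (by omega)]
  ring

theorem dec_inj {k κ : ℕ} {ρ ρ' : Rl k κ} (h : ∀ j, dec ρ j = dec ρ' j) : ρ = ρ' := by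
  funext j
  have h1 := h j
  unfold dec at h1
  apply Fin.ext
  omega

theorem abs_dec {k κ : ℕ} (ρ : Rl k κ) (j : Fin k) : |dec ρ j| ≤ (κ : ℤ) := by
  have h1 := (ρ j).2
  unfold dec
  rw [abs_le]
  constructor <;> omega

section

variable {G L : Type} [Group G] [Group L] {M k : ℕ} {I Y B O : Type} [MulAction L Y]

/-- the virtual position -/
def pr {κ : ℕ} (rep : Fin k → Fin k) (e : (I × Rl k κ) × Y × (Fin k → ℤ)) : I × Y × (Fin k → ℤ) :=
  (e.1.1, e.2.1, fun j => e.2.2 (rep j) + dec e.1.2 j)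

def Vd {κ : ℕ} (w : G → List (Fin M × Bool)) (st : Fin M × Bool → (I × Y × (Fin k → ℤ)) →
    (I × Y × (Fin k → ℤ))) (Nr : (Fin k → ℤ) → Prop) (rep : Fin k → Fin k)
    (e : (I × Rl k κ) × Y × (Fin k → ℤ)) : Prop :=
  (∀ j, dec e.1.2 (rep j) = 0) ∧ Mem w st Nr (pr rep e)

/-- the data of a step -/
noncomputable def dat {κ : ℕ} (f : Fin M × Bool → I → B → O → I × L × (Fin k → ℤ)) (b : Y → B)
    (ob : (Fin k → ℤ) → O) (w : G → List (Fin M × Bool)) (Nr : (Fin k → ℤ) → Prop)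
    (rep : Fin k → Fin k) (l : Fin M × Bool) (e : (I × Rl k κ) × Y × (Fin k → ℤ)) :
    (I × Rl k κ) × L × (Fin k → ℤ) :=
  open Classical in if Vd w (hst f b ob) Nr rep e then
    (((f l e.1.1 (b e.2.1) (ob (pr rep e).2.2)).1,
      enc κ (fun j => dec e.1.2 j + (f l e.1.1 (b e.2.1) (ob (pr rep e).2.2)).2.2 j -
        (f l e.1.1 (b e.2.1) (ob (pr rep e).2.2)).2.2 (rep j))),
      (f l e.1.1 (b e.2.1) (ob (pr rep e).2.2)).2.1,
      (f l e.1.1 (b e.2.1) (ob (pr rep e).2.2)).2.2)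
  else (e.1, 1, 0)

noncomputable def st3 {κ : ℕ} (f : Fin M × Bool → I → B → O → I × L × (Fin k → ℤ)) (b : Y → B)
    (ob : (Fin k → ℤ) → O) (w : G → List (Fin M × Bool)) (Nr : (Fin k → ℤ) → Prop)
    (rep : Fin k → Fin k) (l : Fin M × Bool) (e : (I × Rl k κ) × Y × (Fin k → ℤ)) :
    (I × Rl k κ) × Y × (Fin k → ℤ) :=
  ((dat f b ob w Nr rep l e).1, (dat f b ob w Nr rep l e).2.1 • e.2.1,
    e.2.2 + (dat f b ob w Nr rep l e).2.2)

theorem st3_valid {κ : ℕ} {f : Fin M × Bool → I → B → O → I × L × (Fin k → ℤ)} {b : Y → B}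
    {ob : (Fin k → ℤ) → O} {w : G → List (Fin M × Bool)} {Nr : (Fin k → ℤ) → Prop}
    {rep : Fin k → Fin k} (hms : ∀ l p, Mem w (hst f b ob) Nr p → Mem w (hst f b ob) Nr
      (hst f b ob l p)) (hMN : ∀ p, Mem w (hst f b ob) Nr p → Nr p.2.2)
    (hκ : ∀ z, Nr z → ∀ j, |z j - z (rep j)| ≤ (κ : ℤ)) (hrep : ∀ j, rep (rep j) = rep j)
    (l : Fin M × Bool) (e : (I × Rl k κ) × Y × (Fin k → ℤ)) (he : Vd w (hst f b ob) Nr rep e) :
    pr rep (st3 f b ob w Nr rep l e) = hst f b ob l (pr rep e) ∧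
      Vd w (hst f b ob) Nr rep (st3 f b ob w Nr rep l e) ∧
      ∀ j, (st3 f b ob w Nr rep l e).2.2 j - e.2.2 j =
        (hst f b ob l (pr rep e)).2.2 j - (pr rep e).2.2 j := by
  obtain ⟨he1, he2⟩ := he
  set x := f l e.1.1 (b e.2.1) (ob (pr rep e).2.2) with hx
  have hst' : hst f b ob l (pr rep e) = (x.1, x.2.1 • e.2.1, (pr rep e).2.2 + x.2.2) := rfl
  have hs3 : st3 f b ob w Nr rep l e = ((x.1, enc κ (fun j => dec e.1.2 j + x.2.2 j -
      x.2.2 (rep j))), x.2.1 • e.2.1, e.2.2 + x.2.2) := by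
    unfold st3 dat
    rw [if_pos ⟨he1, he2⟩]
  have hm := hms l _ he2
  have hN := hMN _ hm
  have hv : ∀ j, |dec e.1.2 j + x.2.2 j - x.2.2 (rep j)| ≤ (κ : ℤ) := by
    intro j
    have h1 := hκ _ hN j
    rw [hst'] at h1
    have h2 : ((pr rep e).2.2 + x.2.2) j - ((pr rep e).2.2 + x.2.2) (rep j) =
        dec e.1.2 j + x.2.2 j - x.2.2 (rep j) := by
      show (e.2.2 (rep j) + dec e.1.2 j + x.2.2 j) -
        (e.2.2 (rep (rep j)) + dec e.1.2 (rep j) + x.2.2 (rep j)) = _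
      rw [hrep, he1]; ring
    rw [← h2]
    exact h1
  have hpr : pr rep (st3 f b ob w Nr rep l e) = hst f b ob l (pr rep e) := by
    rw [hs3, hst']
    refine Prod.ext rfl (Prod.ext rfl (funext fun j => ?_))
    show (e.2.2 + x.2.2) (rep j) + dec (enc κ (fun j => dec e.1.2 j + x.2.2 j -
      x.2.2 (rep j))) j = e.2.2 (rep j) + dec e.1.2 j + x.2.2 j
    rw [dec_enc _ hv, Pi.add_apply]
    ring
  refine ⟨hpr, ⟨fun j => ?_, ?_⟩, fun j => ?_⟩
  · rw [hs3]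
    show dec (enc κ (fun j => dec e.1.2 j + x.2.2 j - x.2.2 (rep j))) (rep j) = 0
    rw [dec_enc _ hv, he1, hrep]
    ring
  · rw [hpr]; exact hm
  · rw [hs3, hst']
    show (e.2.2 j + x.2.2 j) - e.2.2 j = ((pr rep e).2.2 j + x.2.2 j) - (pr rep e).2.2 j
    ring

theorem st3_run {κ : ℕ} {f : Fin M × Bool → I → B → O → I × L × (Fin k → ℤ)} {b : Y → B}
    {ob : (Fin k → ℤ) → O} {w : G → List (Fin M × Bool)} {Nr : (Fin k → ℤ) → Prop}
    {rep : Fin k → Fin k} (hms : ∀ l p, Mem w (hst f b ob) Nr p → Mem w (hst f b ob) Nr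
      (hst f b ob l p)) (hMN : ∀ p, Mem w (hst f b ob) Nr p → Nr p.2.2)
    (hκ : ∀ z, Nr z → ∀ j, |z j - z (rep j)| ≤ (κ : ℤ)) (hrep : ∀ j, rep (rep j) = rep j)
    (W : List (Fin M × Bool)) (e : (I × Rl k κ) × Y × (Fin k → ℤ))
    (he : Vd w (hst f b ob) Nr rep e) :
    pr rep (runS (st3 f b ob w Nr rep) W e) = runS (hst f b ob) W (pr rep e) ∧
      Vd w (hst f b ob) Nr rep (runS (st3 f b ob w Nr rep) W e) ∧
      ∀ j, (runS (st3 f b ob w Nr rep) W e).2.2 j - e.2.2 j =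
        (runS (hst f b ob) W (pr rep e)).2.2 j - (pr rep e).2.2 j := by
  induction W with
  | nil => exact ⟨rfl, he, fun j => by simp [runS]⟩
  | cons l W ih =>
    obtain ⟨h1, h2, h3⟩ := ih
    obtain ⟨h4, h5, h6⟩ := st3_valid hms hMN hκ hrep l _ h2
    rw [runS_cons, runS_cons]
    rw [h1] at h4 h6
    refine ⟨h4, h5, fun j => ?_⟩
    have h7 := h6 j
    have h8 := h3 j
    linarith

theorem st3_run_not {κ : ℕ} {f : Fin M × Bool → I → B → O → I × L × (Fin k → ℤ)} {b : Y → B}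
    {ob : (Fin k → ℤ) → O} {w : G → List (Fin M × Bool)} {Nr : (Fin k → ℤ) → Prop}
    {rep : Fin k → Fin k} (W : List (Fin M × Bool)) (e : (I × Rl k κ) × Y × (Fin k → ℤ))
    (he : ¬ Vd w (hst f b ob) Nr rep e) : runS (st3 f b ob w Nr rep) W e = e := by
  induction W with
  | nil => rfl
  | cons l W ih =>
    rw [runS_cons, ih]
    unfold st3 dat
    rw [if_neg he]
    simp

theorem st3_good {κ : ℕ} {f : Fin M × Bool → I → B → O → I × L × (Fin k → ℤ)} {b : Y → B}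
    {ob : (Fin k → ℤ) → O} {w : G → List (Fin M × Bool)} {Nr : (Fin k → ℤ) → Prop}
    {rep : Fin k → Fin k} (hms : ∀ l p, Mem w (hst f b ob) Nr p → Mem w (hst f b ob) Nr
      (hst f b ob l p)) (hMN : ∀ p, Mem w (hst f b ob) Nr p → Nr p.2.2)
    (hκ : ∀ z, Nr z → ∀ j, |z j - z (rep j)| ≤ (κ : ℤ)) (hrep : ∀ j, rep (rep j) = rep j)
    {R : Set (FreeGroup (Fin M))} (hg : SGood R (st2 w (hst f b ob) Nr)) :
    SGood R (st3 (κ := κ) f b ob w Nr rep) := by
  have key : ∀ W : List (Fin M × Bool), (∀ p, runS (st2 w (hst f b ob) Nr) W p = p) →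
      ∀ e, runS (st3 (κ := κ) f b ob w Nr rep) W e = e := by
    intro W hW e
    by_cases he : Vd w (hst f b ob) Nr rep e
    · obtain ⟨h1, h2, h3⟩ := st3_run hms hMN hκ hrep W e he
      have h4 : runS (hst f b ob) W (pr rep e) = pr rep e := by
        rw [← (st2_run hms W (pr rep e) he.2).1, hW]
      rw [h4] at h1 h3
      have h5 : (runS (st3 (κ := κ) f b ob w Nr rep) W e).2.2 = e.2.2 := by
        funext j
        have := h3 j
        linarith
      have h6 : (runS (st3 (κ := κ) f b ob w Nr rep) W e).1.1 = e.1.1 :=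
        congrArg (fun q : I × Y × (Fin k → ℤ) => q.1) h1
      have h7 : (runS (st3 (κ := κ) f b ob w Nr rep) W e).2.1 = e.2.1 :=
        congrArg (fun q : I × Y × (Fin k → ℤ) => q.2.1) h1
      have h8 : (runS (st3 (κ := κ) f b ob w Nr rep) W e).1.2 = e.1.2 := by
        apply dec_inj
        intro j
        have h9 : (runS (st3 (κ := κ) f b ob w Nr rep) W e).2.2 (rep j) +
            dec (runS (st3 (κ := κ) f b ob w Nr rep) W e).1.2 j = e.2.2 (rep j) + dec e.1.2 j :=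
          congrFun (congrArg (fun q : I × Y × (Fin k → ℤ) => q.2.2) h1) j
        rw [h5] at h9
        linarith
      exact Prod.ext (Prod.ext h6 h8) (Prod.ext h7 h5)
    · exact st3_run_not W e he
  refine ⟨fun i ε e => ?_, fun v hv e => key _ (fun p => hg.rel v hv p) e⟩
  exact key [(i, ε), (i, !ε)] (fun p => hg.inv i ε p) e

theorem one_mem_PP (K : Set L) (n : ℕ) : (1 : L) ∈ PP K n := by
  induction n with
  | zero => rfl
  | succ n ih => exact Or.inl ih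

theorem dat_congr {κ : ℕ} {K : Set L} {D : ℕ}
    {f : Fin M × Bool → I → B → O → I × L × (Fin k → ℤ)}
    (hf1 : ∀ l i β o, (f l i β o).2.1 ∈ K) (hf2 : ∀ l i β o j, |(f l i β o).2.2 j| ≤ (D : ℤ))
    {b : Y → B} {ob : (Fin k → ℤ) → O} {w : G → List (Fin M × Bool)} {ℓ t : ℕ}
    (hw3 : ∀ x, (w x).length ≤ ℓ) (ht : D * (ℓ + 1) ≤ t) {Nr : (Fin k → ℤ) → Prop}
    {rep : Fin k → Fin k} (l : Fin M × Bool) (q : I × Rl k κ) (y y' : Y) (z z' : Fin k → ℤ)
    (hy : ∀ τ ∈ PP K ℓ, b (τ • y) = b (τ • y'))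
    (hm : Mt t ob ob (pr rep (q, y, z)).2.2 (pr rep (q, y', z')).2.2)
    (hN : ∀ d, Nr ((pr rep (q, y, z)).2.2 + d) ↔ Nr ((pr rep (q, y', z')).2.2 + d)) :
    dat f b ob w Nr rep l (q, y, z) = dat f b ob w Nr rep l (q, y', z') := by
  have h1 : b y = b y' := by
    have := hy 1 (one_mem_PP K ℓ)
    rwa [one_smul, one_smul] at this
  have h2 : ob (pr rep (q, y, z)).2.2 = ob (pr rep (q, y', z')).2.2 := by
    have := hm 0 (fun j => by simp)
    rwa [add_zero, add_zero] at this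
  have h3 : Vd w (hst f b ob) Nr rep (q, y, z) ↔ Vd w (hst f b ob) Nr rep (q, y', z') := by
    unfold Vd
    refine and_congr Iff.rfl ?_
    unfold Mem
    refine forall_congr' fun x => ?_
    obtain ⟨i₁, τ₁, d₁, -, -, h4, h5⟩ := h_transfer hf1 hf2 b ob ob (w x) q.1 y y'
      (pr rep (q, y, z)).2.2 (pr rep (q, y', z')).2.2
      (fun τ hτ => hy τ (PP_mono K (hw3 x) hτ))
      (hm.mono ((Nat.mul_le_mul_left D ((hw3 x).trans (Nat.le_succ ℓ))).trans ht))
    have h6 : pr rep (q, y, z) = (q.1, y, (pr rep (q, y, z)).2.2) := rfl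
    have h7 : pr rep (q, y', z') = (q.1, y', (pr rep (q, y', z')).2.2) := rfl
    rw [h6, h7, h4, h5]
    exact hN d₁
  unfold dat
  by_cases h : Vd w (hst f b ob) Nr rep (q, y, z)
  · rw [if_pos h, if_pos (h3.1 h)]
    simp only [h1, h2]
  · rw [if_neg h, if_neg (fun h' => h (h3.2 h'))]

end

end Vale.Agent.P192.H291
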