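import Vale.Agent.P192.R2.H849.Per

set_option linter.all false

/-! Closing up a coloured line on both sides of an interval, with control of the place. -/

namespace Vale.Agent.P192.H291

open Vale.Agent.P192.R2.H360

theorem close_right (A : Type) [Finite A] (r : ℕ) : ∃ T : ℕ, ∀ (a : ℤ → A) (x : ℤ),
    ∃ a' : ℤ → A, (∀ t ≤ x, a' t = a t) ∧ ∀ u, ∃ v, v ≤ x + T ∧ (v = u ∨ x ≤ v) ∧
      ∀ t : ℤ, |t| ≤ r → a' (u + t) = a (v + t) := by
  classical
  set P := Nat.card (Fin (2 * r + 1) → A) with hP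
  refine ⟨r + P + 1, ?_⟩
  intro a x
  let f : Fin (P + 1) → (Fin (2 * r + 1) → A) := fun j t => a (x + r + (j : ℕ) + ((t : ℕ) - r))
  obtain ⟨i, j, hij, hf⟩ : ∃ i j, i ≠ j ∧ f i = f j := by
    by_contra hno
    push Not at hno
    have hinj : Function.Injective f := by
      intro i j h
      by_contra hne
      exact hno i j hne h
    have h1 := Nat.card_le_card_of_injective f hinj
    rw [Nat.card_eq_fintype_card, Fintype.card_fin] at h1
    omega
  wlog hlt : i < j generalizing i j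
  · exact this j i hij.symm hf.symm (lt_of_le_of_ne (not_lt.1 hlt) hij.symm)
  have hlt' : (i : ℕ) < j := hlt
  set p₁ : ℤ := x + r + (i : ℕ) with hp₁
  set p₂ : ℤ := x + r + (j : ℕ) with hp₂
  have hwin : win (r : ℤ) a p₁ a p₂ := by
    intro t ht
    rw [abs_le] at ht
    have h2 := congrFun hf ⟨(t + r).toNat, by omega⟩
    simp only [f] at h2
    have e1 : ((t + r).toNat : ℤ) = t + r := Int.toNat_of_nonneg (by omega)
    rw [e1] at h2
    have e2 : t + (r : ℤ) - r = t := by ring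
    rw [e2] at h2
    exact h2
  obtain ⟨a', h1, h2, -⟩ := periodize a p₁ p₂ r (Int.natCast_nonneg r) hwin
  have hne : p₁ ≠ p₂ := by omega
  have hmin : min p₁ p₂ = p₁ := min_eq_left (by omega)
  have hmax : max p₁ p₂ = p₂ := max_eq_right (by omega)
  have hag : ∀ t, p₁ - r ≤ t → t ≤ p₂ + r → a' t = a t := by
    intro t h4 h5
    apply h2
    intro _
    rw [hmin, hmax]
    exact ⟨h4, h5⟩
  have hper : Function.Periodic a' (p₂ - p₁) := h1
  have hj := j.2
  refine ⟨fun t => if t ≤ p₂ then a t else a' t, ?_, ?_⟩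
  · intro t ht
    exact if_pos (by omega)
  · intro u
    by_cases hu : u ≤ p₂
    · refine ⟨u, by push_cast; omega, Or.inl rfl, fun t ht => ?_⟩
      rw [abs_le] at ht
      show (if u + t ≤ p₂ then a (u + t) else a' (u + t)) = a (u + t)
      split_ifs with h6
      · rfl
      · exact hag _ (by omega) (by omega)
    · have hπ : 0 < p₂ - p₁ := by omega
      have e1 := Int.emod_nonneg (u - p₁) hπ.ne'
      have e2 := Int.emod_lt_of_pos (u - p₁) hπ
      have e3 := Int.emod_add_mul_ediv (u - p₁) (p₂ - p₁)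
      refine ⟨p₁ + (u - p₁) % (p₂ - p₁), by push_cast; omega, Or.inr (by omega), fun t ht => ?_⟩
      rw [abs_le] at ht
      have e4 : a (p₁ + (u - p₁) % (p₂ - p₁) + t) = a' (p₁ + (u - p₁) % (p₂ - p₁) + t) :=
        (hag _ (by omega) (by omega)).symm
      have e5 : a' (u + t) = a' (p₁ + (u - p₁) % (p₂ - p₁) + t) := by
        have e6 := hper.int_mul ((u - p₁) / (p₂ - p₁)) (p₁ + (u - p₁) % (p₂ - p₁) + t)
        rw [← e6]
        congr 1
        push_cast
        linarith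
      show (if u + t ≤ p₂ then a (u + t) else a' (u + t)) = _
      rw [e4, ← e5]
      split_ifs with h6
      · exact (hag _ (by omega) (by omega)).symm
      · rfl

theorem close_left (A : Type) [Finite A] (r : ℕ) : ∃ T : ℕ, ∀ (a : ℤ → A) (x : ℤ),
    ∃ a' : ℤ → A, (∀ t, x ≤ t → a' t = a t) ∧ ∀ u, ∃ v, x - T ≤ v ∧ (v = u ∨ v ≤ x) ∧
      ∀ t : ℤ, |t| ≤ r → a' (u + t) = a (v + t) := by
  obtain ⟨T, h⟩ := close_right A r
  refine ⟨T, fun a x => ?_⟩
  obtain ⟨b, h1, h2⟩ := h (fun t => a (-t)) (-x)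
  refine ⟨fun t => b (-t), ?_, ?_⟩
  · intro t ht
    show b (-t) = a t
    rw [h1 (-t) (by omega), neg_neg]
  · intro u
    obtain ⟨v, hv1, hv2, hv3⟩ := h2 (-u)
    refine ⟨-v, by omega, by omega, fun t ht => ?_⟩
    have h4 := hv3 (-t) (by rwa [abs_neg])
    show b (-(u + t)) = a (-v + t)
    rw [show -(u + t) = -u + -t by ring, h4]
    show a (-(v + -t)) = _
    congr 1; ring

/-- closing up on both sides of the interval of radius `q` around `x`; the windows of the new line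
are windows of the old one near `x` -/
theorem close_both (A : Type) [Finite A] (r : ℕ) : ∃ T : ℕ, ∀ (q : ℕ) (a : ℤ → A) (x : ℤ),
    ∃ a' : ℤ → A, (∀ t, |t - x| ≤ q → a' t = a t) ∧ ∀ u, ∃ v, |v - x| ≤ (q + T : ℕ) ∧
      ∀ t : ℤ, |t| ≤ r → a' (u + t) = a (v + t) := by
  obtain ⟨T1, h1⟩ := close_right A r
  obtain ⟨T2, h2⟩ := close_left A r
  refine ⟨max T1 T2, fun q a x => ?_⟩
  obtain ⟨b, b1, b2⟩ := h1 a (x + q)
  obtain ⟨c, c1, c2⟩ := h2 b (x - q)
  have e1 : (T1 : ℤ) ≤ (max T1 T2 : ℕ) := by exact_mod_cast le_max_left _ _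
  have e2 : (T2 : ℤ) ≤ (max T1 T2 : ℕ) := by exact_mod_cast le_max_right _ _
  refine ⟨c, fun t ht => ?_, fun u => ?_⟩
  · rw [abs_le] at ht
    rw [c1 t (by omega), b1 t (by omega)]
  · obtain ⟨v, v1, v2, v3⟩ := c2 u
    obtain ⟨w, w1, w2, w3⟩ := b2 v
    refine ⟨w, ?_, fun t ht => by rw [v3 t ht, w3 t ht]⟩
    rw [abs_le, Nat.cast_add]
    constructor <;> omega

end Vale.Agent.P192.H291
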