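import Vale.Agent.P192.H567.CtUnif
import Vale.Agent.P192.H291.Tape

set_option linter.all false

/-! Systems with `k` heads: steps, transfer of words, gaps. -/

namespace Vale.Agent.P192.H291

open Vale.Agent.P192 Vale.Agent.P192.H593 Vale.Agent.P192.H437 Vale.Agent.P192.H567

section

variable {L : Type} [Group L] {M k : ℕ} {I Y B O : Type} [MulAction L Y]

/-- one step of a system with `k` heads -/
def hst (f : Fin M × Bool → I → B → O → I × L × (Fin k → ℤ)) (b : Y → B) (ob : (Fin k → ℤ) → O)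
    (l : Fin M × Bool) (x : I × Y × (Fin k → ℤ)) : I × Y × (Fin k → ℤ) :=
  ((f l x.1 (b x.2.1) (ob x.2.2)).1, (f l x.1 (b x.2.1) (ob x.2.2)).2.1 • x.2.1,
    x.2.2 + (f l x.1 (b x.2.1) (ob x.2.2)).2.2)

/-- equal observations near two positions -/
def Mt (t : ℕ) (ob ob' : (Fin k → ℤ) → O) (z z' : Fin k → ℤ) : Prop :=
  ∀ d : Fin k → ℤ, (∀ j, |d j| ≤ t) → ob (z + d) = ob' (z' + d)

theorem Mt.mono {t t' : ℕ} {ob ob' : (Fin k → ℤ) → O} {z z' : Fin k → ℤ} (h : Mt t ob ob' z z')
    (ht : t' ≤ t) : Mt t' ob ob' z z' :=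
  fun d hd => h d fun j => (hd j).trans (by exact_mod_cast ht)

theorem h_transfer {K : Set L} {D : ℕ} {f : Fin M × Bool → I → B → O → I × L × (Fin k → ℤ)}
    (hf1 : ∀ l i β o, (f l i β o).2.1 ∈ K) (hf2 : ∀ l i β o j, |(f l i β o).2.2 j| ≤ (D : ℤ))
    (b : Y → B) (ob ob' : (Fin k → ℤ) → O) (W : List (Fin M × Bool)) (i : I) (y y' : Y)
    (z z' : Fin k → ℤ) (hy : ∀ t ∈ PP K W.length, b (t • y) = b (t • y'))
    (hz : Mt (D * W.length) ob ob' z z') :
    ∃ (i' : I) (t : L) (d : Fin k → ℤ), t ∈ PP K W.length ∧ (∀ j, |d j| ≤ (D * W.length : ℕ)) ∧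
      runS (hst f b ob) W (i, y, z) = (i', t • y, z + d) ∧
      runS (hst f b ob') W (i, y', z') = (i', t • y', z' + d) := by
  induction W with
  | nil => exact ⟨i, 1, 0, rfl, fun j => by simp, by simp [runS], by simp [runS]⟩
  | cons l W ih =>
    have hlen : D * (l :: W).length = D * W.length + D := by
      rw [List.length_cons]; ring
    obtain ⟨i', t, d, ht, hd, h1, h2⟩ := ih (fun t ht => hy t (Or.inl ht))
      (hz.mono (by rw [hlen]; omega))
    have hob : ob (z + d) = ob' (z' + d) := hz d fun j => (hd j).trans (by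
      rw [hlen]; push_cast; linarith [Int.natCast_nonneg D])
    have hb : b (t • y) = b (t • y') := hy t (Or.inl ht)
    refine ⟨(f l i' (b (t • y)) (ob (z + d))).1, (f l i' (b (t • y)) (ob (z + d))).2.1 * t,
      d + (f l i' (b (t • y)) (ob (z + d))).2.2, Or.inr ⟨_, hf1 _ _ _ _, t, ht, rfl⟩, ?_, ?_, ?_⟩
    · intro j
      refine (abs_add_le _ _).trans ?_
      rw [hlen]
      push_cast
      have := hd j
      push_cast at this
      exact add_le_add this (hf2 _ _ _ _ _)
    · rw [runS_cons, h1]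
      unfold hst
      simp only [add_assoc, mul_smul]
    · rw [runS_cons, h2]
      unfold hst
      simp only [add_assoc, mul_smul, hb, hob]

end

/-- a large gap inside a block splits the block -/
theorem gap {k : ℕ} (P Pd : Setoid (Fin k)) (R : ℕ) (z : Fin k → ℤ)
    (h : ∀ i j, P i j → ¬ Pd i j → (R : ℤ) < |z i - z j|) (i₀ j₀ : Fin k) (hij : Pd i₀ j₀)
    (hgap : ((k * R : ℕ) : ℤ) < z j₀ - z i₀) :
    ∃ Pd' : Setoid (Fin k), Pd' < Pd ∧ ∀ i j, P i j → ¬ Pd' i j → (R : ℤ) < |z i - z j| := by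
  classical
  obtain ⟨s, hs⟩ : ∃ s : Fin k, ∀ h, Pd i₀ h →
      ¬ (z i₀ + (s : ℕ) * R < z h ∧ z h ≤ z i₀ + ((s : ℕ) + 1) * R) := by
    by_contra hno
    push Not at hno
    choose g hg1 hg2 hg3 using hno
    have key : ∀ s s' : Fin k, s < s' → g s ≠ g s' := by
      intro s s' hss he
      have h1 : (s : ℕ) + 1 ≤ (s' : ℕ) := hss
      have h2 : (((s : ℕ) : ℤ) + 1) * R ≤ ((s' : ℕ) : ℤ) * R :=
        mul_le_mul_of_nonneg_right (by exact_mod_cast h1) (Int.natCast_nonneg R)
      have h3 := hg3 s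
      have h4 := hg2 s'
      rw [he] at h3
      linarith
    have hinj : Function.Injective g := by
      intro s s' he
      rcases lt_trichotomy s s' with h | h | h
      · exact absurd he (key _ _ h)
      · exact h
      · exact absurd he.symm (key _ _ h)
    obtain ⟨s, hs⟩ := Finite.injective_iff_surjective.1 hinj i₀
    have h4 := hg2 s
    rw [hs] at h4
    have h5 : (0 : ℤ) ≤ ((s : ℕ) : ℤ) * R := by positivity
    linarith
  set t : ℤ := z i₀ + (s : ℕ) * R with ht
  have ht2 : z i₀ + (((s : ℕ) : ℤ) + 1) * R = t + R := by rw [ht]; ring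
  have hsR : (0 : ℤ) ≤ ((s : ℕ) : ℤ) * R := by positivity
  have hsk : ((s : ℕ) : ℤ) * R ≤ ((k * R : ℕ) : ℤ) := by
    push_cast
    exact mul_le_mul_of_nonneg_right (by exact_mod_cast s.2.le) (Int.natCast_nonneg R)
  refine ⟨Pd ⊓ Setoid.ker (fun h => (Pd i₀ h ∧ z h ≤ t)), lt_of_le_of_ne inf_le_left ?_, ?_⟩
  · intro he
    have h1 : (Pd ⊓ Setoid.ker (fun h => (Pd i₀ h ∧ z h ≤ t))) i₀ j₀ := by rw [he]; exact hij
    have h2 : (Pd i₀ i₀ ∧ z i₀ ≤ t) = (Pd i₀ j₀ ∧ z j₀ ≤ t) := h1.2
    have h3 : Pd i₀ j₀ ∧ z j₀ ≤ t := by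
      rw [← h2]; exact ⟨Pd.refl' i₀, by linarith⟩
    have h4 := h3.2
    linarith
  · intro i j hP hPd
    by_cases hd : Pd i j
    · have hne : ¬ ((Pd i₀ i ∧ z i ≤ t) = (Pd i₀ j ∧ z j ≤ t)) := fun he => hPd ⟨hd, he⟩
      by_cases hi : Pd i₀ i
      · have hj : Pd i₀ j := Pd.trans' hi hd
        have hi2 := hs i hi
        have hj2 := hs j hj
        rw [ht2] at hi2 hj2
        rw [lt_abs]
        by_cases hzi : z i ≤ t
        · by_cases hzj : z j ≤ t
          · exact absurd (by simp [hi, hj, hzi, hzj]) hne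
          · have : t + R < z j := by
              by_contra hc
              exact hj2 ⟨by omega, by omega⟩
            right; linarith
        · by_cases hzj : z j ≤ t
          · have : t + R < z i := by
              by_contra hc
              exact hi2 ⟨by omega, by omega⟩
            left; linarith
          · exact absurd (by simp [hi, hj, hzi, hzj]) hne
      · have hj : ¬ Pd i₀ j := fun hj => hi (Pd.trans' hj (Pd.symm' hd))
        exact absurd (by simp [hi, hj]) hne
    · exact h i j hP hd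

end Vale.Agent.P192.H291
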