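import Vale.Agent.P192.H479.StmtQ

/-! Definitions for the statement of `P192.ThinDefects`. -/

namespace Vale.Agent.P192.H291

/-- `Chart S δ h k m r R K ρ p`: the point `p` of the `G`-set is the centre of a chart of radius
`R`. This is a map `ι` to the `G`-set, injective on the points whose heads `z 0, ..., z (k - 1)` are
at distance at most `R` from those of the centre, on which each element of `S` and each inverse of
one moves an `L`-set `U` of asymptotic dimension at most one with bounds `δ`, `h` sets `W i` with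
permutations `T i`, a free `M`-set `V` and the heads on the line of integers by an element of `K`
depending on `u`, on `m`-valued colours of the `w i`, of `v` and of the heads, and on the differences
of at most `r` between heads which are equivalent under `P`. -/
def Chart {G L M : Type} [Group G] [Group L] [Group M] (S : Set G) (δ : Set L → ℕ)
    (h k m r R : ℕ) (K : Set (L × (Fin h → ℤ) × M × (Fin k → ℤ))) {X : Type}
    (ρ : G →* Equiv.Perm X) (p : X) : Prop :=
  ∃ (U V : Type) (_ : MulAction L U) (_ : MulAction M V) (W : Fin h → Type)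
    (T : ∀ i, Equiv.Perm (W i)) (ι : (U × (∀ i, W i) × V) × (Fin k → ℤ) → X)
    (y₀ : U × (∀ i, W i) × V) (z₀ : Fin k → ℤ) (P : Setoid (Fin k)), ι (y₀, z₀) = p ∧
    H479.Q.QC L U δ ∧ (∀ (x : M) (v : V), x • v = v → x = 1) ∧
    (∀ x x', (∀ j, |x.2 j - z₀ j| ≤ (R : ℤ)) → (∀ j, |x'.2 j - z₀ j| ≤ (R : ℤ)) →
      ι x = ι x' → x = x') ∧
    (∀ g, (g ∈ S ∨ g⁻¹ ∈ S) → ∃ (a : ∀ i, W i → Fin m) (b : V → Fin m) (c : Fin k → ℤ → Fin m)
      (f : U → (Fin h → Fin m) → Fin m → (Fin k → Fin m) → (Fin k → Fin k → ℤ → Prop) →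
        L × (Fin h → ℤ) × M × (Fin k → ℤ)), (∀ u α β γ o, f u α β γ o ∈ K) ∧
      ∀ u w v z, (∀ j, |z j - z₀ j| ≤ (R : ℤ)) → ∀ x, x = f u (fun i => a i (w i)) (b v)
          (fun j => c j (z j)) (fun p q d => P p q ∧ |d| ≤ (r : ℤ) ∧ z p + d = z q) →
        ρ g (ι ((u, w, v), z)) = ι ((x.1 • u, (fun i => (T i ^ x.2.1 i) (w i)),
          x.2.2.1 • v), z + x.2.2.2))

end Vale.Agent.P192.H291
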