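import Vale.Agent.P192.H291.Unif3

set_option linter.all false

/-! Product type outside a thin set. -/

namespace Vale.Agent.P192.H291

open Vale.Agent.P192 Vale.Agent.P192.H593 Vale.Agent.P192.H437 Vale.Agent.P192.H567

/-- if the points outside a thin set are fixed by a normal subgroup of finite index, then a normal
subgroup of finite index acts trivially -/
theorem thin_abs (G : Type) [Group G] [Group.IsFinitelyPresented G] (hG : IsMulTorsion G)
    (S : Set G) (hS : Subgroup.closure S = ⊤) :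
    ∃ R₂ : ℕ, ∀ B : ℕ, ∃ N₂ : Subgroup G, N₂.Normal ∧ N₂.FiniteIndex ∧
      ∀ (X : Type) (ρ : G →* Equiv.Perm X) (N₁ : Subgroup G), N₁.Normal → ∀ (H C : Set X),
      (∀ x ∈ H, ∀ g ∈ N₁, ρ g x = x) →
      (∀ x ∉ H, {y | Relation.ReflTransGen (fun a b => b ∉ H ∧ (a ∈ C ↔ b ∈ C) ∧
        ∃ w : List G, (∀ s ∈ w, s ∈ S ∨ s⁻¹ ∈ S) ∧ w.length ≤ R₂ ∧ ρ w.prod a = b) x y}.encard
          ≤ B) →
      ∀ g ∈ N₁ ⊓ N₂, ρ g = 1 := by
  classical
  obtain ⟨R₂, hR₂⟩ := uniform_colour.{0, 0} G hG S hS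
  refine ⟨R₂, fun B => ?_⟩
  obtain ⟨N₂, h1, h2, h3⟩ := hR₂ B
  refine ⟨N₂, h1, h2, ?_⟩
  intro X ρ N₁ hN₁ H C hH hC g hg
  let F : Set X := {x | ∀ g ∈ N₁, ρ g x = x}
  have hFinv : ∀ (g : G) (x : X), x ∉ F → ρ g x ∉ F := by
    intro g x hx hgx
    exact hx (fix_back N₁ ρ g x hgx)
  letI : MulAction G {x : X // x ∉ F} :=
    { smul := fun g x => ⟨ρ g x.1, hFinv g x.1 x.2⟩
      one_smul := fun x => Subtype.ext (by show ρ 1 x.1 = x.1; rw [map_one]; rfl)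
      mul_smul := fun g h x => Subtype.ext (by
        show ρ (g * h) x.1 = ρ g (ρ h x.1)
        rw [map_mul]; rfl) }
  have hsm : ∀ (g : G) (x : {x : X // x ∉ F}), (g • x).1 = ρ g x.1 := fun _ _ => rfl
  have hHF : ∀ x, x ∉ F → x ∉ H := fun x hx hxH => hx (hH x hxH)
  have h4 : ∀ g ∈ N₂, ∀ x : {x : X // x ∉ F}, g • x = x := by
    refine h3 {x : X // x ∉ F} {x | x.1 ∈ C} ?_
    intro x
    rw [← (Subtype.val_injective.encard_image {z | mono S R₂ {x : {x : X // x ∉ F} | x.1 ∈ C} x z})]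
    refine (Set.encard_le_encard ?_).trans (hC x.1 (hHF x.1 x.2))
    rintro _ ⟨z, hz, rfl⟩
    have hz' : mono S R₂ {x : {x : X // x ∉ F} | x.1 ∈ C} x z := hz
    clear hz
    induction hz' with
    | refl => exact Relation.ReflTransGen.refl
    | @tail a b _ hab ih =>
      obtain ⟨h5, w, hw1, hw2, hw3⟩ := hab
      refine Relation.ReflTransGen.tail ih ⟨hHF b.1 b.2, h5, w, hw1, hw2, ?_⟩
      rw [← hw3]; rfl
  ext1 x
  by_cases hx : x ∈ F
  · exact hx g hg.1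
  · have h5 := h4 g hg.2 ⟨x, hx⟩
    exact congrArg Subtype.val h5

theorem box_card {k : ℕ} (Q : Type) [Finite Q] (n R : ℕ) (hQ : Nat.card Q ≤ n)
    (z₀ : Fin k → ℤ) :
    {x : Q × (Fin k → ℤ) | ∀ j, |z₀ j - x.2 j| ≤ (R : ℤ)}.encard ≤
      ((n * (2 * R + 1) ^ k : ℕ) : ℕ∞) := by
  classical
  have h1 : {x : Q × (Fin k → ℤ) | ∀ j, |z₀ j - x.2 j| ≤ (R : ℤ)} ⊆
      Set.range (fun y : Q × (Fin k → Fin (2 * R + 1)) =>
        ((y.1, fun j => z₀ j + (((y.2 j : ℕ) : ℤ) - R)) : Q × (Fin k → ℤ))) := by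
    rintro ⟨q, z⟩ hz
    have hz' : ∀ j, |z₀ j - z j| ≤ (R : ℤ) := hz
    refine ⟨(q, fun j => ⟨(z j - z₀ j + R).toNat, by have := hz' j; rw [abs_le] at this; omega⟩), ?_⟩
    refine Prod.ext rfl (funext fun j => ?_)
    have := hz' j
    rw [abs_le] at this
    show z₀ j + ((((z j - z₀ j + R).toNat : ℕ) : ℤ) - R) = z j
    rw [Int.toNat_of_nonneg (by omega)]
    ring
  refine (Set.encard_le_encard h1).trans ?_
  rw [← Set.image_univ]
  refine (Set.encard_image_le _ _).trans ?_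
  rw [Set.encard_univ, ENat.card_eq_coe_natCard, Nat.card_prod, Nat.card_pi]
  simp only [Nat.card_eq_fintype_card, Fintype.card_fin, Finset.prod_const, Finset.card_univ]
  exact_mod_cast Nat.mul_le_mul_right _ hQ

/-- words of length at most `n` move by at most `c * n` -/
theorem word_disp {G : Type} [Group G] {M k : ℕ} (σ : Fin M → G) {Q : Type} {c : ℕ}
    (ρ : G →* Equiv.Perm (Q × (Fin k → ℤ)))
    (h : ∀ l x j, |(ρ (gen σ l) x).2 j - x.2 j| ≤ (c : ℤ)) (w : List G)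
    (hw : ∀ s ∈ w, s ∈ Set.range σ ∨ s⁻¹ ∈ Set.range σ) (x : Q × (Fin k → ℤ)) (j : Fin k) :
    |(ρ w.prod x).2 j - x.2 j| ≤ ((c * w.length : ℕ) : ℤ) := by
  induction w with
  | nil => simp
  | cons s w ih =>
    have h1 := ih (fun t ht => hw t (by simp [ht]))
    obtain ⟨l, hl⟩ : ∃ l, s = gen σ l := by
      rcases hw s (by simp) with ⟨i, hi⟩ | ⟨i, hi⟩
      · exact ⟨(i, true), hi.symm⟩
      · refine ⟨(i, false), ?_⟩
        show s = (σ i)⁻¹
        rw [hi, inv_inv]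
    rw [List.prod_cons, map_mul, Equiv.Perm.mul_apply, hl]
    have h2 := h l (ρ w.prod x) j
    have h3 : (ρ (gen σ l) (ρ w.prod x)).2 j - x.2 j =
      ((ρ (gen σ l) (ρ w.prod x)).2 j - (ρ w.prod x).2 j) + ((ρ w.prod x).2 j - x.2 j) := by ring
    have h4 : ((c * (gen σ l :: w).length : ℕ) : ℤ) = c + (c * w.length : ℕ) := by
      rw [List.length_cons]; push_cast; ring
    rw [h3, h4]
    exact (abs_add_le _ _).trans (add_le_add h2 h1)

/-- `k` heads on a common line, arbitrary rules on a set of asymptotic dimension at most one -/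
theorem defects (G : Type) [Group G] [Group.IsFinitelyPresented G] (hG : IsMulTorsion G)
    (S : Set G) (hS : Subgroup.closure S = ⊤) (n k m c s : ℕ) (μ : ℕ → ℕ) :
    ∃ N : Subgroup G, N.Normal ∧ N.FiniteIndex ∧ ∀ (Q : Type) [Finite Q], Nat.card Q ≤ n →
      ∀ D : Set (Fin k → ℤ), (∀ t : ℕ, ∃ C : Set (Fin k → ℤ), ∀ z,
        {z' | Relation.ReflTransGen (fun x y => x ∈ D ∧ y ∈ D ∧ (x ∈ C ↔ y ∈ C) ∧
          ∀ j, |x j - y j| ≤ (t : ℤ)) z z'}.encard ≤ μ t) →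
      ∀ ρ : G →* Equiv.Perm (Q × (Fin k → ℤ)),
      (∀ g, (g ∈ S ∨ g⁻¹ ∈ S) → (∀ q z j, |(ρ g (q, z)).2 j - z j| ≤ (c : ℤ)) ∧
        ∃ (a : Fin k → ℤ → Fin m)
          (f : Q → (Fin k → Fin m) → (Fin k → Fin k → ℤ → Prop) → Q × (Fin k → ℤ)),
          ∀ q z, z ∉ D → ∀ x, x = f q (fun j => a j (z j)) (pat s z) →
            ρ g (q, z) = (x.1, z + x.2)) →
      ∀ g ∈ N, ρ g = 1 := by
  classical
  obtain ⟨MM, σ, hσS, hσ, -⟩ := exists_tuple G S hS
  let Λ : Type := Fin MM × Bool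
  let ε : (Λ → Fin m) ≃ Fin (Nat.card (Λ → Fin m)) := Finite.equivFin _
  obtain ⟨R, N₁, hN₁1, hN₁2, hN₁3⟩ := charts_uniform (cls Unit Unit 0) uf_triv k G hG σ hσ n 1
    (Nat.card (Λ → Fin m)) s c {1} (Set.finite_singleton _)
  obtain ⟨R₂, hR₂⟩ := thin_abs G hG (Set.range σ) hσ
  obtain ⟨N₂, hN₂1, hN₂2, hN₂3⟩ := hR₂ (μ (c * R₂ + 2 * R) * (n * (2 * R + 1) ^ k))
  refine ⟨N₁ ⊓ N₂, inferInstance, inferInstance, ?_⟩
  intro Q _ hQ D hD ρ hρ g hg
  have hρ1 : ∀ l x j, |(ρ (gen σ l) x).2 j - x.2 j| ≤ (c : ℤ) := fun l x j =>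
    (hρ (gen σ l) (gen_mem σ S hσS l)).1 x.1 x.2 j
  choose a f hf using fun l => (hρ (gen σ l) (gen_mem σ S hσS l)).2
  let H : Set (Q × (Fin k → ℤ)) := {x | ∀ z' ∈ D, ¬ ∀ j, |z' j - x.2 j| ≤ (R : ℤ)}
  -- the points far from `D` are fixed by `N₁`
  have hH : ∀ x ∈ H, ∀ g ∈ N₁, ρ g x = x := by
    intro x₀ hx₀ g hg
    let Y : Type := Unit × (∀ i : Fin 0, Unit) × Unit
    letI act : MulAction (Unit × (Fin 0 → Multiplicative ℤ) × Unit) Y :=
      { smul := fun l y => y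
        one_smul := fun y => rfl
        mul_smul := fun l l' y => rfl }
    letI actu : MulAction Unit Unit :=
      { smul := fun l y => y
        one_smul := fun y => rfl
        mul_smul := fun l l' y => rfl }
    let bb : Y → Fin 1 × (Fin 0 → Fin 1) × Fin 1 := fun _ => (0, fun i => i.elim0, 0)
    have hY : ∀ y y' : Y, y = y' := by
      rintro ⟨u, w, v⟩ ⟨u', w', v'⟩
      exact Prod.ext rfl (Prod.ext (funext fun i => i.elim0) rfl)
    let α : Fin k → ℤ → Fin (Nat.card (Λ → Fin m)) := fun j x => ε (fun l => a l j x)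
    let v : Λ → Q → (Fin k → Fin (Nat.card (Λ → Fin m))) × (Fin k → Fin k → ℤ → Prop) →
      Q × (Fin k → ℤ) := fun l q o => f l q (fun j => ε.symm (o.1 j) l) o.2
    let F : Fin MM × Bool → Q → Fin 1 × (Fin 0 → Fin 1) × Fin 1 →
        (Fin k → Fin (Nat.card (Λ → Fin m))) × (Fin k → Fin k → ℤ → Prop) →
        Q × (Unit × (Fin 0 → Multiplicative ℤ) × Unit) × (Fin k → ℤ) := fun l q _ o =>
      if ∀ j, |(v l q o).2 j| ≤ (c : ℤ) then ((v l q o).1, 1, (v l q o).2) else (q, 1, 0)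
    have hobs : ∀ z : Fin k → ℤ, (obs s α ⊤ z).2 = pat s z := by
      intro z
      funext p q d
      exact propext ⟨fun h => h.2, fun h => ⟨trivial, h⟩⟩
    have hv : ∀ l q z, v l q (obs s α ⊤ z) = f l q (fun j => a l j (z j)) (pat s z) := by
      intro l q z
      have e1 : (fun j => ε.symm ((obs s α ⊤ z).1 j) l) = fun j => a l j (z j) := by
        funext j
        show ε.symm (ε (fun l => a l j (z j))) l = a l j (z j)
        rw [Equiv.symm_apply_apply]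
      show f l q (fun j => ε.symm ((obs s α ⊤ z).1 j) l) (obs s α ⊤ z).2 = _
      rw [e1, hobs]
    let ι : Q × Y × (Fin k → ℤ) → Q × (Fin k → ℤ) := fun x => (x.1, x.2.2)
    have hc : Cht σ ρ F bb (obs s α ⊤) x₀.2 R ι := by
      refine ⟨?_, ?_⟩
      · rintro l ⟨q, y, z⟩ hz
        have hz' : ∀ j, |z j - x₀.2 j| ≤ (R : ℤ) := hz
        have hzD : z ∉ D := fun h => hx₀ z h hz'
        have e1 := hf l q z hzD _ rfl
        have e2 : ∀ j, |(v l q (obs s α ⊤ z)).2 j| ≤ (c : ℤ) := by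
          intro j
          have h1 := hρ1 l (q, z) j
          rw [e1] at h1
          rw [hv]
          have h2 : (z + (f l q (fun j => a l j (z j)) (pat s z)).2) j - z j =
            (f l q (fun j => a l j (z j)) (pat s z)).2 j := by
            show (z j + _) - z j = _
            ring
          rw [← h2]
          exact h1
        have e3 : F l q (bb y) (obs s α ⊤ z) = ((v l q (obs s α ⊤ z)).1, 1,
            (v l q (obs s α ⊤ z)).2) := if_pos e2
        show ρ (gen σ l) (q, z) = ((F l q (bb y) (obs s α ⊤ z)).1,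
          z + (F l q (bb y) (obs s α ⊤ z)).2.2)
        rw [e3, e1, hv]
      · rintro ⟨q, y, z⟩ ⟨q', y', z'⟩ - - h
        have h1 : q = q' := congrArg Prod.fst h
        have h2 : z = z' := congrArg Prod.snd h
        rw [h1, h2, hY y y']
    exact hN₁3 ⊤ Q hQ Y bb ⟨Unit, Unit, actu, actu, fun _ => Unit, fun _ => 1, Equiv.refl _,
      fun _ => 0, fun i => i.elim0, fun _ => 0, fun _ _ _ => rfl, fun _ _ _ => rfl,
      fun l y => hY _ _, fun y => Prod.ext rfl (Prod.ext (funext fun i => i.elim0) rfl)⟩ α F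
      (fun l q β o => by
        show (if ∀ j, |(v l q o).2 j| ≤ (c : ℤ) then
          (((v l q o).1, 1, (v l q o).2) : Q × (Unit × (Fin 0 → Multiplicative ℤ) × Unit) ×
            (Fin k → ℤ)) else (q, 1, 0)).2.1 = 1
        split_ifs <;> rfl) (fun l q β o j => by
        show |(if ∀ j, |(v l q o).2 j| ≤ (c : ℤ) then
          (((v l q o).1, 1, (v l q o).2) : Q × (Unit × (Fin 0 → Multiplicative ℤ) × Unit) ×
            (Fin k → ℤ)) else (q, 1, 0)).2.2 j| ≤ (c : ℤ)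
        split_ifs with h
        · exact h j
        · simp) (Q × (Fin k → ℤ)) ρ x₀.2 ι hc x₀.1 ((), (fun i => i.elim0), ()) g hg
  -- the points near `D`
  obtain ⟨C, hC⟩ := hD (c * R₂ + 2 * R)
  have hnear : ∀ x : Q × (Fin k → ℤ), ∃ z' : Fin k → ℤ, x ∉ H → z' ∈ D ∧
      ∀ j, |z' j - x.2 j| ≤ (R : ℤ) := by
    intro x
    by_cases hx : x ∈ H
    · exact ⟨x.2, fun h => absurd hx h⟩
    · have hx' : ∃ z' ∈ D, ∀ j, |z' j - x.2 j| ≤ (R : ℤ) := by
        by_contra hno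
        push Not at hno
        apply hx
        intro z' hz' hall
        obtain ⟨j, hj⟩ := hno z' hz'
        exact absurd (hall j) (not_le.2 hj)
      obtain ⟨z', h1, h2⟩ := hx'
      exact ⟨z', fun _ => ⟨h1, h2⟩⟩
  choose π hπ using hnear
  refine hN₂3 (Q × (Fin k → ℤ)) ρ N₁ hN₁1 H {x | π x ∈ C} hH ?_ g hg
  intro x hx
  have key : ∀ y, Relation.ReflTransGen (fun a b => b ∉ H ∧ (a ∈ {x | π x ∈ C} ↔
      b ∈ {x | π x ∈ C}) ∧ ∃ w : List G, (∀ s ∈ w, s ∈ Set.range σ ∨ s⁻¹ ∈ Set.range σ) ∧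
        w.length ≤ R₂ ∧ ρ w.prod a = b) x y → y ∉ H ∧ Relation.ReflTransGen (fun x y => x ∈ D ∧
          y ∈ D ∧ (x ∈ C ↔ y ∈ C) ∧ ∀ j, |x j - y j| ≤ ((c * R₂ + 2 * R : ℕ) : ℤ)) (π x)
            (π y) := by
    intro y hy
    induction hy with
    | refl => exact ⟨hx, Relation.ReflTransGen.refl⟩
    | @tail a b _ hab ih =>
      obtain ⟨h1, h2, w, hw1, hw2, hw3⟩ := hab
      refine ⟨h1, ih.2.tail ⟨(hπ a ih.1).1, (hπ b h1).1, h2, fun j => ?_⟩⟩
      have h3 := (hπ a ih.1).2 j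
      have h4 := (hπ b h1).2 j
      have h5 := word_disp σ ρ hρ1 w hw1 a j
      rw [hw3] at h5
      have h6 : ((c * w.length : ℕ) : ℤ) ≤ c * R₂ := by
        exact_mod_cast Nat.mul_le_mul_left c hw2
      push_cast
      rw [abs_le] at h3 h4 h5 ⊢
      constructor <;> linarith
  have hsub : {y | Relation.ReflTransGen (fun a b => b ∉ H ∧ (a ∈ {x | π x ∈ C} ↔
      b ∈ {x | π x ∈ C}) ∧ ∃ w : List G, (∀ s ∈ w, s ∈ Set.range σ ∨ s⁻¹ ∈ Set.range σ) ∧
        w.length ≤ R₂ ∧ ρ w.prod a = b) x y} ⊆ ⋃ d ∈ {z' | Relation.ReflTransGen (fun x y =>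
          x ∈ D ∧ y ∈ D ∧ (x ∈ C ↔ y ∈ C) ∧ ∀ j, |x j - y j| ≤ ((c * R₂ + 2 * R : ℕ) : ℤ))
            (π x) z'}, {y : Q × (Fin k → ℤ) | ∀ j, |d j - y.2 j| ≤ (R : ℤ)} := by
    intro y hy
    obtain ⟨h1, h2⟩ := key y hy
    exact Set.mem_biUnion h2 (hπ y h1).2
  refine (Set.encard_le_encard hsub).trans ?_
  exact H630.biUnion_le _ _ _ _ (hC (π x)) (fun d _ => box_card Q n R hQ d)

end Vale.Agent.P192.H291
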