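import Vale.Agent.P192.H291.Unif3
import Vale.Agent.P192.H479.Q1

set_option linter.all false

/-! The forms with an action of asymptotic dimension at most one in the place of a free action. -/

namespace Vale.Agent.P192.H291

open Vale.Agent.P192 Vale.Agent.P192.H593 Vale.Agent.P192.H437 Vale.Agent.P192.H567
open Vale.Agent.P192.H479.Q

/-- coding of the rules by colours, for any kind of positions `Ps` -/
theorem codingQ (MM k₀ k m s : ℕ) (L M : Type) [Group L] [Group M] (δ : Set L → ℕ)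
    (K : Set (L × (Fin k₀ → ℤ) × M × (Fin k → ℤ))) (hK : K.Finite) :
    ∃ m' : ℕ, ∀ (U V Cz : Type) [MulAction L U] [MulAction M V] (W : Fin k₀ → Type)
      (T : ∀ i, Equiv.Perm (W i)),
      QC L U δ → (∀ (x : M) (v : V), x • v = v → x = 1) →
      ∀ (a : Fin MM × Bool → ∀ i, W i → Fin m) (b : Fin MM × Bool → V → Fin m)
        (c : Fin MM × Bool → Fin k → Cz → Fin m)
        (f : Fin MM × Bool → U → (Fin k₀ → Fin m) → Fin m → (Fin k → Fin m) →
          (Fin k → Fin k → ℤ → Prop) → L × (Fin k₀ → ℤ) × M × (Fin k → ℤ)),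
        (∀ l u α β γ o, f l u α β γ o ∈ K) →
      ∃ (act : MulAction (L × (Fin k₀ → Multiplicative ℤ) × M) (U × (∀ i, W i) × V))
        (bb : U × (∀ i, W i) × V → (clsQ L M δ k₀).C m') (cc : Fin k → Cz → Fin m')
        (F : Fin MM × Bool → Unit → (clsQ L M δ k₀).C m' →
          (Fin k → Fin m') × (Fin k → Fin k → ℤ → Prop) →
          Unit × (L × (Fin k₀ → Multiplicative ℤ) × M) × (Fin k → ℤ)),
        (clsQ L M δ k₀).P m' (U × (∀ i, W i) × V) bb ∧
        (∀ l i β o, (F l i β o).2.1 ∈ insert 1 ((fun x : L × (Fin k₀ → ℤ) × M × (Fin k → ℤ) =>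
          ((x.1, fun i => Multiplicative.ofAdd (x.2.1 i), x.2.2.1) :
            L × (Fin k₀ → Multiplicative ℤ) × M)) '' K)) ∧
        (∀ D : ℕ, (∀ x ∈ K, ∀ j, |x.2.2.2 j| ≤ (D : ℤ)) →
          ∀ l i β o j, |(F l i β o).2.2 j| ≤ (D : ℤ)) ∧
        (∀ (l : L × (Fin k₀ → Multiplicative ℤ) × M) (y : U × (∀ i, W i) × V),
          act.smul l y = (l.1 • y.1, fun i => (T i ^ (l.2.1 i).toAdd) (y.2.1 i),
            l.2.2 • y.2.2)) ∧
        ∀ l (y : U × (∀ i, W i) × V) (z : Fin k → Cz) (Q : Fin k → Fin k → ℤ → Prop),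
          (∀ p q d, Q p q d → |d| ≤ (s : ℤ)) →
          ∀ x, x = f l y.1 (fun i => a l i (y.2.1 i)) (b l y.2.2) (fun j => c l j (z j)) Q →
            F l () (bb y) (fun j => cc j (z j), Q) =
              ((), (x.1, fun i => Multiplicative.ofAdd (x.2.1 i), x.2.2.1), x.2.2.2) := by
  classical
  haveI : Finite K := hK
  let X₁ : Type := Fin MM × Bool → (Fin k₀ → Fin m) → Fin m → (Fin k → Fin m) →
    (Fin k → Fin k → Fin (2 * s + 1) → Prop) → K
  haveI F0 : Finite (Fin k → Fin k → Fin (2 * s + 1) → Prop) := inferInstance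
  haveI F1 : Finite ((Fin k → Fin k → Fin (2 * s + 1) → Prop) → K) := inferInstance
  haveI F2 : Finite ((Fin k → Fin m) → (Fin k → Fin k → Fin (2 * s + 1) → Prop) → K) :=
    @Pi.finite _ _ _ fun _ => F1
  haveI F3 : Finite (Fin m → (Fin k → Fin m) → (Fin k → Fin k → Fin (2 * s + 1) → Prop) → K) :=
    @Pi.finite _ _ _ fun _ => F2
  haveI F4 : Finite ((Fin k₀ → Fin m) → Fin m → (Fin k → Fin m) →
    (Fin k → Fin k → Fin (2 * s + 1) → Prop) → K) := @Pi.finite _ _ _ fun _ => F3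
  haveI F5 : Finite X₁ := @Pi.finite _ _ _ fun _ => F4
  let X₂ : Type := Fin MM × Bool → Fin m
  let m' : ℕ := Nat.card X₁ + Nat.card X₂
  let ε₁ : X₁ → Fin m' := fun x => Fin.castLE (Nat.le_add_right _ _) (Finite.equivFin X₁ x)
  let ε₂ : X₂ → Fin m' := fun x => Fin.castLE (Nat.le_add_left _ _) (Finite.equivFin X₂ x)
  have hε₁ : Function.Injective ε₁ := (Fin.castLE_injective _).comp (Finite.equivFin X₁).injective
  have hε₂ : Function.Injective ε₂ := (Fin.castLE_injective _).comp (Finite.equivFin X₂).injective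
  let τ : L × (Fin k₀ → ℤ) × M × (Fin k → ℤ) → L × (Fin k₀ → Multiplicative ℤ) × M := fun x =>
    (x.1, fun i => Multiplicative.ofAdd (x.2.1 i), x.2.2.1)
  refine ⟨m', ?_⟩
  intro U V Cz _ _ W T hU hV a b c f hf
  let act : MulAction (L × (Fin k₀ → Multiplicative ℤ) × M) (U × (∀ i, W i) × V) :=
    { smul := fun l y => (l.1 • y.1, fun i => (T i ^ (l.2.1 i).toAdd) (y.2.1 i), l.2.2 • y.2.2)
      one_smul := by
        rintro ⟨u, w, v⟩
        show ((1 : L) • u, fun i => (T i ^ (0 : ℤ)) (w i), (1 : M) • v) = _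
        simp
      mul_smul := by
        rintro ⟨l, z, x⟩ ⟨l', z', x'⟩ ⟨u, w, v⟩
        show ((l * l') • u, fun i => (T i ^ (z i * z' i).toAdd) (w i), (x * x') • v) =
          (l • l' • u, fun i => (T i ^ (z i).toAdd) ((T i ^ (z' i).toAdd) (w i)), x • x' • v)
        rw [mul_smul, mul_smul]
        refine Prod.ext rfl (Prod.ext (funext fun i => ?_) rfl)
        show (T i ^ (z i * z' i).toAdd) (w i) = _
        rw [toAdd_mul, zpow_add]; rfl }
  let Z : Type := U × (∀ i, W i) × V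
  let α₁ : U → Fin m' := fun u => ε₁ (fun l α β γ o => ⟨f l u α β γ (dpat s o), hf l u α β γ _⟩)
  let α₂ : ∀ i, W i → Fin m' := fun i w => ε₂ (fun l => a l i w)
  let α₃ : V → Fin m' := fun v => ε₂ (fun l => b l v)
  let α₄ : Fin k → Cz → Fin m' := fun j z => ε₂ (fun l => c l j z)
  let bb : Z → Fin m' × (Fin k₀ → Fin m') × Fin m' := fun z =>
    (α₁ z.1, fun i => α₂ i (z.2.1 i), α₃ z.2.2)
  let Qf : (Fin k → Fin k → ℤ → Prop) → Prop := fun Q => ∀ p q d, Q p q d → |d| ≤ (s : ℤ)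
  have hdp : ∀ Q, Qf Q → dpat s (fun p q e => Q p q (((e : ℕ) : ℤ) - s)) = Q := by
    intro Q hQ
    rw [dpat_of]
    funext p q d
    exact propext ⟨fun h => h.2, fun h => ⟨hQ p q d h, h⟩⟩
  let ff : Fin MM × Bool → Z → (Fin k → Cz) → (Fin k → Fin k → ℤ → Prop) →
      L × (Fin k₀ → ℤ) × M × (Fin k → ℤ) := fun l y z Q =>
    f l y.1 (fun i => a l i (y.2.1 i)) (b l y.2.2) (fun j => c l j (z j)) Q
  have hff : ∀ l y y' z z' Q, Qf Q → bb y = bb y' → (∀ j, α₄ j (z j) = α₄ j (z' j)) →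
      ff l y z Q = ff l y' z' Q := by
    intro l y y' z z' Q hQ h h'
    have g1 : ∀ α β γ, f l y.1 α β γ Q = f l y'.1 α β γ Q := by
      intro α β γ
      have := hε₁ (congrArg Prod.fst h)
      have g := congrArg Subtype.val (congrFun (congrFun (congrFun (congrFun
        (congrFun this l) α) β) γ) (fun p q e => Q p q (((e : ℕ) : ℤ) - s)))
      have g' : f l y.1 α β γ (dpat s (fun p q e => Q p q (((e : ℕ) : ℤ) - s))) =
        f l y'.1 α β γ (dpat s (fun p q e => Q p q (((e : ℕ) : ℤ) - s))) := g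
      rwa [hdp Q hQ] at g'
    have g2 : ∀ i, a l i (y.2.1 i) = a l i (y'.2.1 i) := by
      intro i
      have := hε₂ (congrFun (congrArg
        (fun q : Fin m' × (Fin k₀ → Fin m') × Fin m' => q.2.1) h) i)
      exact congrFun this l
    have g3 : b l y.2.2 = b l y'.2.2 := by
      have := hε₂ (congrArg (fun q : Fin m' × (Fin k₀ → Fin m') × Fin m' => q.2.2) h)
      exact congrFun this l
    have g4 : ∀ j, c l j (z j) = c l j (z' j) := fun j => congrFun (hε₂ (h' j)) l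
    show f l y.1 (fun i => a l i (y.2.1 i)) (b l y.2.2) (fun j => c l j (z j)) Q =
      f l y'.1 (fun i => a l i (y'.2.1 i)) (b l y'.2.2) (fun j => c l j (z' j)) Q
    rw [g1, g3, funext g2, funext g4]
  let F : Fin MM × Bool → Unit → Fin m' × (Fin k₀ → Fin m') × Fin m' →
      (Fin k → Fin m') × (Fin k → Fin k → ℤ → Prop) →
      Unit × (L × (Fin k₀ → Multiplicative ℤ) × M) × (Fin k → ℤ) := fun l i γ o =>
    if h : ∃ q : Z × (Fin k → Cz), bb q.1 = γ ∧ (fun j => α₄ j (q.2 j)) = o.1 then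
      ((), τ (ff l h.choose.1 h.choose.2 o.2), (ff l h.choose.1 h.choose.2 o.2).2.2.2)
    else ((), 1, 0)
  refine ⟨act, bb, α₄, F, ?_, ?_, ?_, fun _ _ => rfl, ?_⟩
  · exact ⟨U, V, _, _, W, T, Equiv.refl _, α₁, α₂, α₃, hU, hV, fun _ _ => rfl, fun _ => rfl⟩
  · intro l i γ o
    show (if h : ∃ q : Z × (Fin k → Cz), bb q.1 = γ ∧ (fun j => α₄ j (q.2 j)) = o.1 then
      (((), τ (ff l h.choose.1 h.choose.2 o.2), (ff l h.choose.1 h.choose.2 o.2).2.2.2) :
        Unit × (L × (Fin k₀ → Multiplicative ℤ) × M) × (Fin k → ℤ))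
      else ((), 1, 0)).2.1 ∈ _
    split_ifs with h
    · exact Or.inr ⟨_, hf _ _ _ _ _ _, rfl⟩
    · exact Or.inl rfl
  · intro D hD l i γ o j
    show |(if h : ∃ q : Z × (Fin k → Cz), bb q.1 = γ ∧ (fun j => α₄ j (q.2 j)) = o.1 then
      (((), τ (ff l h.choose.1 h.choose.2 o.2), (ff l h.choose.1 h.choose.2 o.2).2.2.2) :
        Unit × (L × (Fin k₀ → Multiplicative ℤ) × M) × (Fin k → ℤ))
      else ((), 1, 0)).2.2 j| ≤ _
    split_ifs with h
    · exact hD _ (hf _ _ _ _ _ _) _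
    · simp
  · intro l y z Q hQ x hx
    have h6 : ∃ q : Z × (Fin k → Cz), bb q.1 = bb y ∧
      (fun j => α₄ j (q.2 j)) = fun j => α₄ j (z j) := ⟨(y, z), rfl, rfl⟩
    have h7 : ff l h6.choose.1 h6.choose.2 Q = ff l y z Q :=
      hff l _ _ _ _ Q hQ h6.choose_spec.1 (fun j => congrFun h6.choose_spec.2 j)
    show (if h : ∃ q : Z × (Fin k → Cz), bb q.1 = bb y ∧ (fun j => α₄ j (q.2 j)) =
        (fun j => α₄ j (z j)) then
      (((), τ (ff l h.choose.1 h.choose.2 Q), (ff l h.choose.1 h.choose.2 Q).2.2.2) :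
        Unit × (L × (Fin k₀ → Multiplicative ℤ) × M) × (Fin k → ℤ))
      else ((), 1, 0)) = _
    rw [dif_pos h6, h7, hx]

/-- `k` heads on a set with a permutation, an action of asymptotic dimension at most one, a free action and `k₀` counters, uniform form -/
theorem mh_wtQ (G : Type) [Group G] [Group.IsFinitelyPresented G] (hG : IsMulTorsion G)
    (S : Set G) (hS : Subgroup.closure S = ⊤) (L M : Type) [Group L] [Group M]
    (δ : Set L → ℕ)
    (Γ : Subgroup M) [Γ.FiniteIndex] (kf : ℕ) (e : Γ ≃* FreeGroup (Fin kf))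
    (k₀ k m s : ℕ) (K : Set (L × (Fin k₀ → ℤ) × M × (Fin k → ℤ))) (hK : K.Finite) :
    ∃ N : Subgroup G, N.Normal ∧ N.FiniteIndex ∧
      ∀ (U V Z : Type) [MulAction L U] [MulAction M V] (W : Fin k₀ → Type)
        (T : ∀ i, Equiv.Perm (W i)) (τ : Equiv.Perm Z),
      QC L U δ → (∀ (x : M) (v : V), x • v = v → x = 1) →
      ∀ ρ : G →* Equiv.Perm ((U × (∀ i, W i) × V) × (Fin k → Z)),
      (∀ g, (g ∈ S ∨ g⁻¹ ∈ S) → ∃ (a : ∀ i, W i → Fin m) (b : V → Fin m) (c : Fin k → Z → Fin m)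
        (f : U → (Fin k₀ → Fin m) → Fin m → (Fin k → Fin m) → (Fin k → Fin k → ℤ → Prop) →
          L × (Fin k₀ → ℤ) × M × (Fin k → ℤ)), (∀ u α β γ o, f u α β γ o ∈ K) ∧
          ∀ u w v z x, x = f u (fun i => a i (w i)) (b v) (fun j => c j (z j)) (patW s τ z) →
            ρ g ((u, w, v), z) = ((x.1 • u, (fun i => (T i ^ x.2.1 i) (w i)), x.2.2.1 • v),
              fun j => (τ ^ x.2.2.2 j) (z j))) →
      ∀ g ∈ N, ρ g = 1 := by
  classical
  obtain ⟨MM, σ, hσS, hσ, -⟩ := exists_tuple G S hS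
  obtain ⟨m', hm'⟩ := codingQ MM k₀ k m s L M δ K hK
  obtain ⟨D, hD⟩ := exists_bound K hK (fun x => x.2.2.2)
  obtain ⟨N, h1, h2, h3⟩ := wt_uniform (clsQ L M δ k₀) (uf_allQ L M δ Γ kf e k₀) k G hG σ hσ 1 m'
    m' s D (insert 1 ((fun x : L × (Fin k₀ → ℤ) × M × (Fin k → ℤ) =>
          ((x.1, fun i => Multiplicative.ofAdd (x.2.1 i), x.2.2.1) :
            L × (Fin k₀ → Multiplicative ℤ) × M)) '' K)) ((hK.image _).insert _)
  refine ⟨N, h1, h2, ?_⟩
  intro U V Z _ _ W T τ hU hV ρ hρ g hg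
  choose a b c f hf hact using fun l => hρ (gen σ l) (gen_mem σ S hσS l)
  obtain ⟨act, bb, cc, F, hP, hF1, hF2, hact', hF3⟩ := hm' U V Z W T hU hV a b c f hf
  let E : ((U × (∀ i, W i) × V) × (Fin k → Z)) ≃ Unit × (U × (∀ i, W i) × V) × (Fin k → Z) :=
    (Equiv.punitProd _).symm
  obtain ⟨ρ', h4, h5⟩ := exists_conj E ρ
  apply h5
  refine h3 Unit (by simp) (U × (∀ i, W i) × V) bb hP Z τ cc F hF1 (hF2 D hD) ρ' ?_ g hg
  intro l i y w x hx
  obtain ⟨u, w', v⟩ := y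
  show ρ' (gen σ l) (E ((u, w', v), w)) = _
  rw [h4, hact l u w' v w _ rfl]
  have h6 := hF3 l (u, w', v) w (patW s τ w) (fun p q d h => h.1) _ rfl
  rw [hx]
  show _ = ((F l () (bb (u, w', v)) (fun j => cc j (w j), patW s τ w)).1,
    act.smul (F l () (bb (u, w', v)) (fun j => cc j (w j), patW s τ w)).2.1 (u, w', v),
    fun j => (τ ^ (F l () (bb (u, w', v)) (fun j => cc j (w j), patW s τ w)).2.2 j) (w j))
  rw [h6, hact']
  rfl

/-- local form -/
theorem mh_localQ (G : Type) [Group G] [Group.IsFinitelyPresented G] (hG : IsMulTorsion G)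
    (S : Set G) (hS : Subgroup.closure S = ⊤) (L M : Type) [Group L] [Group M]
    (δ : Set L → ℕ)
    (Γ : Subgroup M) [Γ.FiniteIndex] (kf : ℕ) (e : Γ ≃* FreeGroup (Fin kf))
    (k₀ k m s : ℕ) (K : Set (L × (Fin k₀ → ℤ) × M × (Fin k → ℤ))) (hK : K.Finite) :
    ∃ (R : ℕ) (N : Subgroup G), N.Normal ∧ N.FiniteIndex ∧
      ∀ (X : Type) (ρ : G →* Equiv.Perm X) (x₀ : X),
      (∃ (U V : Type) (_ : MulAction L U) (_ : MulAction M V) (W : Fin k₀ → Type)
        (T : ∀ i, Equiv.Perm (W i)) (ι : (U × (∀ i, W i) × V) × (Fin k → ℤ) → X)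
        (y₀ : U × (∀ i, W i) × V) (z₀ : Fin k → ℤ) (P : Setoid (Fin k)), ι (y₀, z₀) = x₀ ∧
        QC L U δ ∧ (∀ (x : M) (v : V), x • v = v → x = 1) ∧
        (∀ x x', (∀ j, |x.2 j - z₀ j| ≤ (R : ℤ)) → (∀ j, |x'.2 j - z₀ j| ≤ (R : ℤ)) →
          ι x = ι x' → x = x') ∧
        (∀ g, (g ∈ S ∨ g⁻¹ ∈ S) → ∃ (a : ∀ i, W i → Fin m) (b : V → Fin m)
          (c : Fin k → ℤ → Fin m)
          (f : U → (Fin k₀ → Fin m) → Fin m → (Fin k → Fin m) → (Fin k → Fin k → ℤ → Prop) →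
            L × (Fin k₀ → ℤ) × M × (Fin k → ℤ)), (∀ u α β γ o, f u α β γ o ∈ K) ∧
          ∀ u w v z, (∀ j, |z j - z₀ j| ≤ (R : ℤ)) → ∀ x, x = f u (fun i => a i (w i)) (b v)
              (fun j => c j (z j)) (fun p q d => P p q ∧ |d| ≤ (s : ℤ) ∧ z p + d = z q) →
            ρ g (ι ((u, w, v), z)) = ι ((x.1 • u, (fun i => (T i ^ x.2.1 i) (w i)),
              x.2.2.1 • v), z + x.2.2.2))) →
      ∀ g ∈ N, ρ g x₀ = x₀ := by
  classical
  obtain ⟨MM, σ, hσS, hσ, -⟩ := exists_tuple G S hS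
  obtain ⟨m', hm'⟩ := codingQ MM k₀ k m s L M δ K hK
  obtain ⟨D, hD⟩ := exists_bound K hK (fun x => x.2.2.2)
  obtain ⟨R, N, h1, h2, h3⟩ := charts_uniform (clsQ L M δ k₀) (uf_allQ L M δ Γ kf e k₀) k G hG σ hσ
    1 m' m' s D (insert 1 ((fun x : L × (Fin k₀ → ℤ) × M × (Fin k → ℤ) =>
          ((x.1, fun i => Multiplicative.ofAdd (x.2.1 i), x.2.2.1) :
            L × (Fin k₀ → Multiplicative ℤ) × M)) '' K)) ((hK.image _).insert _)
  refine ⟨R, N, h1, h2, ?_⟩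
  rintro X ρ x₀ ⟨U, V, _, _, W, T, ι, y₀, z₀, P, hx₀, hU, hV, hinj, hρ⟩ g hg
  choose a b c f hf hact using fun l => hρ (gen σ l) (gen_mem σ S hσS l)
  obtain ⟨act, bb, cc, F, hP, hF1, hF2, hact', hF3⟩ := hm' U V ℤ W T hU hV a b c f hf
  let ι' : Unit × (U × (∀ i, W i) × V) × (Fin k → ℤ) → X := fun x => ι x.2
  have hc : Cht σ ρ F bb (obs s cc P) z₀ R ι' := by
    refine ⟨?_, ?_⟩
    · rintro l ⟨i, ⟨u, w, v⟩, z⟩ hz
      show ρ (gen σ l) (ι ((u, w, v), z)) = _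
      rw [hact l u w v z hz _ rfl]
      have h6 := hF3 l (u, w, v) z (fun p q d => P p q ∧ |d| ≤ (s : ℤ) ∧ z p + d = z q)
        (fun p q d h => h.2.1) _ rfl
      show _ = ι (act.smul (F l () (bb (u, w, v)) (fun j => cc j (z j),
          fun p q d => P p q ∧ |d| ≤ (s : ℤ) ∧ z p + d = z q)).2.1 (u, w, v),
        z + (F l () (bb (u, w, v)) (fun j => cc j (z j),
          fun p q d => P p q ∧ |d| ≤ (s : ℤ) ∧ z p + d = z q)).2.2)
      rw [h6, hact']
      rfl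
    · rintro ⟨i, y, z⟩ ⟨i', y', z'⟩ hz hz' h
      exact Prod.ext rfl (hinj (y, z) (y', z') hz hz' h)
  have h7 := h3 P Unit (by simp) (U × (∀ i, W i) × V) bb hP cc F hF1 (hF2 D hD) X ρ z₀ ι' hc ()
    y₀ g hg
  rw [← hx₀]
  exact h7

end Vale.Agent.P192.H291
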