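import Vale.Agent.P192.H291.Thin
import Vale.Agent.P192.H291.StmtDefs
import Vale.Agent.P192.H291.Unif4
import Vale.Agent.P192.R2.H577.Gro

set_option linter.all false

/-! Thin sets of exceptional points: the final forms. -/

namespace Vale.Agent.P192.H291

open Vale.Agent.P192 Vale.Agent.P192.H593 Vale.Agent.P192.H437 Vale.Agent.P192.H567

/-- exceptional points of small growth -/
theorem growth_abs (G : Type) [Group G] [Group.IsFinitelyPresented G] (hG : IsMulTorsion G)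
    (S : Set G) (hS : Subgroup.closure S = ⊤) :
    ∃ A : ℕ, ∀ t b : ℕ, A * b < t ^ 2 → ∃ N₂ : Subgroup G, N₂.Normal ∧ N₂.FiniteIndex ∧
      ∀ (X : Type) (ρ : G →* Equiv.Perm X) (N₁ : Subgroup G), N₁.Normal → ∀ H : Set X,
      (∀ x ∈ H, ∀ g ∈ N₁, ρ g x = x) →
      (∀ x ∉ H, {y | y ∉ H ∧ ∃ w : List G, (∀ s ∈ w, s ∈ S ∨ s⁻¹ ∈ S) ∧ w.length ≤ t ∧
        ρ w.prod x = y}.encard ≤ b) →
      ∀ g ∈ N₁ ⊓ N₂, ρ g = 1 := by
  classical
  obtain ⟨c, hc, h⟩ := R2.H577.growth_uniform.{0, 0} G hG S hS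
  obtain ⟨A, hA⟩ := exists_nat_gt (1 / c)
  refine ⟨A, fun t b htb => ?_⟩
  have hAc : 1 < c * A := by
    rw [div_lt_iff₀ hc] at hA; linarith
  have hbt : (b : ℝ) < c * (t : ℝ) ^ 2 := by
    have h1 : (A : ℝ) * b < (t : ℝ) ^ 2 := by exact_mod_cast htb
    have h0 : (0 : ℝ) ≤ b := Nat.cast_nonneg b
    have h2 : (b : ℝ) ≤ c * A * b := by nlinarith
    have h3 : c * (A * b) < c * (t : ℝ) ^ 2 := mul_lt_mul_of_pos_left h1 hc
    linarith
  obtain ⟨N₂, h1, h2, h3⟩ := h t b hbt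
  refine ⟨N₂, h1, h2, ?_⟩
  intro X ρ N₁ hN₁ H hH hC g hg
  let F : Set X := {x | ∀ g ∈ N₁, ρ g x = x}
  have hFinv : ∀ (g : G) (x : X), x ∉ F → ρ g x ∉ F := by
    intro g x hx hgx
    exact hx (fix_back N₁ ρ g x hgx)
  letI : MulAction G {x : X // x ∉ F} :=
    { smul := fun g x => ⟨ρ g x.1, hFinv g x.1 x.2⟩
      one_smul := fun x => Subtype.ext (by show ρ 1 x.1 = x.1; rw [map_one]; rfl)
      mul_smul := fun g h x => Subtype.ext (by
        show ρ (g * h) x.1 = ρ g (ρ h x.1)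
        rw [map_mul]; rfl) }
  have hHF : ∀ x, x ∉ F → x ∉ H := fun x hx hxH => hx (hH x hxH)
  have h4 : ∀ g ∈ N₂, ∀ x : {x : X // x ∉ F}, g • x = x := by
    refine h3 {x : X // x ∉ F} ?_
    intro x
    rw [← (Subtype.val_injective.encard_image {z | hop S t x z})]
    refine (Set.encard_le_encard ?_).trans (hC x.1 (hHF x.1 x.2))
    rintro _ ⟨z, ⟨w, hw1, hw2, hw3⟩, rfl⟩
    refine ⟨hHF z.1 z.2, w, hw1, hw2, ?_⟩
    rw [← hw3]; rfl
  ext1 x
  by_cases hx : x ∈ F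
  · exact hx g hg.1
  · have h5 := h4 g hg.2 ⟨x, hx⟩
    exact congrArg Subtype.val h5

/-- charts outside a thin set -/
theorem charts_thin (G : Type) [Group G] [Group.IsFinitelyPresented G] (hG : IsMulTorsion G)
    (S : Set G) (hS : Subgroup.closure S = ⊤) (L M : Type) [Group L] [Group M]
    (δ : Set L → ℕ)
    (Γ : Subgroup M) [Γ.FiniteIndex] (kf : ℕ) (e : Γ ≃* FreeGroup (Fin kf))
    (k₀ k m s : ℕ) (K : Set (L × (Fin k₀ → ℤ) × M × (Fin k → ℤ))) (hK : K.Finite) :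
    ∃ (R A : ℕ) (N₁ : Subgroup G), N₁.Normal ∧ N₁.FiniteIndex ∧
      (∀ (X : Type) (ρ : G →* Equiv.Perm X) (p : X), Chart S δ k₀ k m s R K ρ p →
        ∀ g ∈ N₁, ρ g p = p) ∧
      ∀ B t b : ℕ, A * b < t ^ 2 → ∃ N : Subgroup G, N.Normal ∧ N.FiniteIndex ∧
        ∀ (X : Type) (ρ : G →* Equiv.Perm X) (D C : Set X),
        (∀ p ∉ D, Chart S δ k₀ k m s R K ρ p) →
        ((∀ p ∈ D, {q | Relation.ReflTransGen (fun x y => y ∈ D ∧ (x ∈ C ↔ y ∈ C) ∧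
          ∃ w : List G, (∀ s ∈ w, s ∈ S ∨ s⁻¹ ∈ S) ∧ w.length ≤ R ∧ ρ w.prod x = y) p q}.encard
            ≤ B) ∨
        (∀ p ∈ D, {q | q ∈ D ∧ ∃ w : List G, (∀ s ∈ w, s ∈ S ∨ s⁻¹ ∈ S) ∧ w.length ≤ t ∧
          ρ w.prod p = q}.encard ≤ b)) →
        ∀ g ∈ N, ρ g = 1 := by
  classical
  obtain ⟨R₁, N₁, hN₁1, hN₁2, hN₁3⟩ := mh_localQ G hG S hS L M δ Γ kf e k₀ k m s K hK
  obtain ⟨R₂, hR₂⟩ := thin_abs G hG S hS
  obtain ⟨A, hA⟩ := growth_abs G hG S hS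
  have hmono : ∀ (X : Type) (ρ : G →* Equiv.Perm X) (p : X),
      Chart S δ k₀ k m s (R₁ + R₂) K ρ p → ∀ g ∈ N₁, ρ g p = p := by
    rintro X ρ p ⟨U, V, i1, i2, W, T, ι, y₀, z₀, P, h1, h2, h3, h4, h5⟩
    have hle : ∀ z : Fin k → ℤ, (∀ j, |z j - z₀ j| ≤ (R₁ : ℤ)) →
        ∀ j, |z j - z₀ j| ≤ ((R₁ + R₂ : ℕ) : ℤ) := fun z hz j =>
      (hz j).trans (by push_cast; omega)
    refine hN₁3 X ρ p ⟨U, V, i1, i2, W, T, ι, y₀, z₀, P, h1, h2, h3, ?_, ?_⟩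
    · intro x x' hx hx'
      exact h4 x x' (hle _ hx) (hle _ hx')
    · intro g hg
      obtain ⟨a, b, c, f, hf, hact⟩ := h5 g hg
      exact ⟨a, b, c, f, hf, fun u w v z hz => hact u w v z (hle z hz)⟩
  refine ⟨R₁ + R₂, A, N₁, hN₁1, hN₁2, hmono, ?_⟩
  intro B t b htb
  obtain ⟨N₂, h1, h2, h3⟩ := hR₂ B
  obtain ⟨N₃, h4, h5, h6⟩ := hA t b htb
  refine ⟨N₁ ⊓ (N₂ ⊓ N₃), inferInstance, inferInstance, ?_⟩
  rintro X ρ D C hD (hC | hC) g ⟨hg1, hg2, hg3⟩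
  · refine h3 X ρ N₁ hN₁1 Dᶜ C (fun x hx => hmono X ρ x (hD x hx)) ?_ g ⟨hg1, hg2⟩
    intro x hx
    refine (Set.encard_le_encard ?_).trans (hC x (not_not.1 hx))
    intro y hy
    refine Relation.ReflTransGen.mono ?_ _ _ hy
    rintro a b ⟨h7, h8, w, hw1, hw2, hw3⟩
    exact ⟨not_not.1 h7, h8, w, hw1, by omega, hw3⟩
  · refine h6 X ρ N₁ hN₁1 Dᶜ (fun x hx => hmono X ρ x (hD x hx)) ?_ g ⟨hg1, hg3⟩
    intro x hx
    refine (Set.encard_le_encard ?_).trans (hC x (not_not.1 hx))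
    rintro y ⟨h7, h8⟩
    exact ⟨not_not.1 h7, h8⟩

theorem reg_const {k : ℕ} {I : Type} (reg : (Fin k → ℤ) → I) (D : Set (Fin k → ℤ))
    (hreg : ∀ z ∉ D, ∀ z' ∉ D, (∀ j, |z j - z' j| ≤ 1) → reg z = reg z') (z₀ : Fin k → ℤ) (R : ℕ)
    (hD : ∀ z, (∀ j, |z j - z₀ j| ≤ (R : ℤ)) → z ∉ D) :
    ∀ z, (∀ j, |z j - z₀ j| ≤ (R : ℤ)) → reg z = reg z₀ := by
  have key : ∀ d : ℕ, d ≤ R → ∀ z : Fin k → ℤ, (∀ j, |z j - z₀ j| ≤ (d : ℤ)) →
      reg z = reg z₀ := by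
    intro d
    induction d with
    | zero =>
      intro _ z hz
      have h1 : z = z₀ := funext fun j => by
        have h2 := hz j
        rw [abs_le] at h2
        push_cast at h2
        omega
      rw [h1]
    | succ d ih =>
      intro hd z hz
      have hz' : ∀ j, z j - z₀ j ≤ d + 1 ∧ z₀ j - z j ≤ d + 1 := by
        intro j
        have h2 := hz j
        rw [abs_le] at h2
        push_cast at h2
        omega
      have h1 : ∀ j, |(if z₀ j < z j then z j - 1 else if z j < z₀ j then z j + 1 else z j) - z₀ j|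
          ≤ (d : ℤ) := by
        intro j
        have := hz' j
        rw [abs_le]
        split_ifs <;> constructor <;> omega
      have h2 : ∀ j, |z j - (if z₀ j < z j then z j - 1 else if z j < z₀ j then z j + 1 else z j)|
          ≤ 1 := by
        intro j
        rw [abs_le]
        split_ifs <;> constructor <;> omega
      rw [← ih (by omega) (fun j => if z₀ j < z j then z j - 1 else if z j < z₀ j then z j + 1
        else z j) h1]
      refine hreg z (hD z (fun j => (hz j).trans (by exact_mod_cast hd))) _ (hD _ (fun j =>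
        (h1 j).trans (by exact_mod_cast (by omega : d ≤ R)))) h2
  exact key R le_rfl

end Vale.Agent.P192.H291
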