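import Vale.Agent.P192.H291.Thin2

set_option linter.all false

/-! Regions which are cut out by a thin set. -/

namespace Vale.Agent.P192.H291

open Vale.Agent.P192 Vale.Agent.P192.H593 Vale.Agent.P192.H437 Vale.Agent.P192.H567

theorem num_t {A₀ c β R t b : ℕ} (hb : 0 < b)
    (h : (4 * (c + 1) ^ 2 * A₀ * β + (4 * R + 4 * c + 4) ^ 2) * b < t ^ 2) :
    4 * R + 4 * c + 4 ≤ t := by
  by_contra hlt
  push Not at hlt
  have h1 : t ^ 2 ≤ (4 * R + 4 * c + 4) ^ 2 := Nat.pow_le_pow_left hlt.le 2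
  have h2 : (4 * R + 4 * c + 4) ^ 2 ≤
      (4 * (c + 1) ^ 2 * A₀ * β + (4 * R + 4 * c + 4) ^ 2) * b :=
    (Nat.le_add_left _ _).trans (Nat.le_mul_of_pos_right _ hb)
  omega

theorem num_t' {A₀ c β R t b : ℕ} (hb : 0 < b)
    (h : (4 * (c + 1) ^ 2 * A₀ * β + (4 * R + 4 * c + 4) ^ 2) * b < t ^ 2) :
    A₀ * (b * β) < ((t - 2 * R) / (c + 1)) ^ 2 := by
  have h1 := num_t hb h
  set t' := (t - 2 * R) / (c + 1) with ht'
  have h2 : t - 2 * R < (c + 1) * (t' + 1) := by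
    rw [ht']
    exact Nat.lt_mul_div_succ _ (Nat.succ_pos c)
  have h3 : t ≤ 2 * (c + 1) * t' := by
    have h4 : (c + 1) * (t' + 1) = (c + 1) * t' + (c + 1) := by ring
    have h5 : 2 * (c + 1) * t' = (c + 1) * t' + (c + 1) * t' := by ring
    omega
  have h4 : t ^ 2 ≤ 4 * (c + 1) ^ 2 * t' ^ 2 := by
    calc t ^ 2 ≤ (2 * (c + 1) * t') ^ 2 := Nat.pow_le_pow_left h3 2
      _ = 4 * (c + 1) ^ 2 * t' ^ 2 := by ring
  have h5 : 4 * (c + 1) ^ 2 * (A₀ * (b * β)) ≤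
      (4 * (c + 1) ^ 2 * A₀ * β + (4 * R + 4 * c + 4) ^ 2) * b := by
    rw [add_mul]
    refine (Nat.le_of_eq ?_).trans (Nat.le_add_right _ _)
    ring
  have h6 : 4 * (c + 1) ^ 2 * (A₀ * (b * β)) < 4 * (c + 1) ^ 2 * t' ^ 2 := by omega
  exact Nat.lt_of_mul_lt_mul_left h6

/-- `k` heads on a common line in each of the regions which are cut out by a thin set -/
theorem regions (G : Type) [Group G] [Group.IsFinitelyPresented G] (hG : IsMulTorsion G)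
    (S : Set G) (hS : Subgroup.closure S = ⊤) (n k m c s : ℕ) :
    ∃ A : ℕ, ∀ (μ : ℕ → ℕ) (t b : ℕ), A * b < t ^ 2 →
    ∃ N : Subgroup G, N.Normal ∧ N.FiniteIndex ∧ ∀ (Q : Type) [Finite Q], Nat.card Q ≤ n →
      ∀ D : Set (Fin k → ℤ), ((∀ r : ℕ, ∃ C : Set (Fin k → ℤ), ∀ z,
        {z' | Relation.ReflTransGen (fun x y => x ∈ D ∧ y ∈ D ∧ (x ∈ C ↔ y ∈ C) ∧
          ∀ j, |x j - y j| ≤ (r : ℤ)) z z'}.encard ≤ μ r) ∨
        ∀ z ∈ D, {z' | z' ∈ D ∧ ∀ j, |z j - z' j| ≤ (t : ℤ)}.encard ≤ b) →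
      ∀ (I : Type) (reg : (Fin k → ℤ) → I),
      (∀ z ∉ D, ∀ z' ∉ D, (∀ j, |z j - z' j| ≤ 1) → reg z = reg z') →
      ∀ ρ : G →* Equiv.Perm (Q × (Fin k → ℤ)),
      (∀ g, (g ∈ S ∨ g⁻¹ ∈ S) → (∀ q z j, |(ρ g (q, z)).2 j - z j| ≤ (c : ℤ)) ∧
        ∀ i : I, ∃ (a : Fin k → ℤ → Fin m)
          (f : Q → (Fin k → Fin m) → (Fin k → Fin k → ℤ → Prop) → Q × (Fin k → ℤ)),
          ∀ q z, z ∉ D → reg z = i → ∀ x, x = f q (fun j => a j (z j)) (pat s z) →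
            ρ g (q, z) = (x.1, z + x.2)) →
      ∀ g ∈ N, ρ g = 1 := by
  classical
  obtain ⟨MM, σ, hσS, hσ, -⟩ := exists_tuple G S hS
  let Λ : Type := Fin MM × Bool
  let ε : (Λ → Fin m) ≃ Fin (Nat.card (Λ → Fin m)) := Finite.equivFin _
  obtain ⟨R, N₁, hN₁1, hN₁2, hN₁3⟩ := charts_uniform (cls Unit Unit 0) uf_triv k G hG σ hσ n 1
    (Nat.card (Λ → Fin m)) s c {1} (Set.finite_singleton _)
  obtain ⟨R₂, hR₂⟩ := thin_abs G hG (Set.range σ) hσ
  obtain ⟨A₀, hA₀⟩ := growth_abs G hG (Set.range σ) hσ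
  refine ⟨4 * (c + 1) ^ 2 * A₀ * (n * (2 * R + 1) ^ k) + (4 * R + 4 * c + 4) ^ 2, ?_⟩
  intro μ t b htb
  obtain ⟨N₂, hN₂1, hN₂2, hN₂3⟩ := hR₂ (μ (c * R₂ + 2 * R) * (n * (2 * R + 1) ^ k))
  obtain ⟨t', ht'1, ht'2⟩ : ∃ t' : ℕ, (0 < b → c * t' + 2 * R ≤ t) ∧
      (0 < b → A₀ * (b * (n * (2 * R + 1) ^ k)) < t' ^ 2) := by
    refine ⟨(t - 2 * R) / (c + 1), fun hb => ?_, fun hb => ?_⟩
    · have h1 := num_t hb htb
      have h2 : (t - 2 * R) / (c + 1) * (c + 1) ≤ t - 2 * R := Nat.div_mul_le_self _ _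
      have h3 : (t - 2 * R) / (c + 1) * (c + 1) =
        c * ((t - 2 * R) / (c + 1)) + (t - 2 * R) / (c + 1) := by ring
      have h4 : c * ((t - 2 * R) / (c + 1)) ≤ t - 2 * R := by
        rw [h3] at h2; exact (Nat.le_add_right _ _).trans h2
      omega
    · exact num_t' hb htb
  obtain ⟨N₃, hN₃1, hN₃2, hN₃3⟩ : ∃ N₃ : Subgroup G, N₃.Normal ∧ N₃.FiniteIndex ∧ (0 < b →
      ∀ (X : Type) (ρ : G →* Equiv.Perm X) (N₁ : Subgroup G), N₁.Normal → ∀ H : Set X,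
      (∀ x ∈ H, ∀ g ∈ N₁, ρ g x = x) →
      (∀ x ∉ H, {y | y ∉ H ∧ ∃ w : List G, (∀ s ∈ w, s ∈ Set.range σ ∨ s⁻¹ ∈ Set.range σ) ∧
        w.length ≤ t' ∧ ρ w.prod x = y}.encard ≤ ((b * (n * (2 * R + 1) ^ k) : ℕ) : ℕ∞)) →
      ∀ g ∈ N₁ ⊓ N₃, ρ g = 1) := by
    by_cases hb : 0 < b
    · obtain ⟨N₃, h1, h2, h3⟩ := hA₀ t' (b * (n * (2 * R + 1) ^ k)) (ht'2 hb)
      exact ⟨N₃, h1, h2, fun _ => h3⟩
    · exact ⟨⊤, inferInstance, inferInstance, fun h => absurd h hb⟩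
  refine ⟨N₁ ⊓ (N₂ ⊓ N₃), inferInstance, inferInstance, ?_⟩
  intro Q _ hQ D hD I reg hreg ρ hρ g hg
  have hρ1 : ∀ l x j, |(ρ (gen σ l) x).2 j - x.2 j| ≤ (c : ℤ) := fun l x j =>
    (hρ (gen σ l) (gen_mem σ S hσS l)).1 x.1 x.2 j
  let H : Set (Q × (Fin k → ℤ)) := {x | ∀ z' ∈ D, ¬ ∀ j, |z' j - x.2 j| ≤ (R : ℤ)}
  -- the points far from `D` are fixed by `N₁`
  have hH : ∀ x ∈ H, ∀ g ∈ N₁, ρ g x = x := by
    intro x₀ hx₀ g hg
    have hboxD : ∀ z, (∀ j, |z j - x₀.2 j| ≤ (R : ℤ)) → z ∉ D := fun z hz h => hx₀ z h hz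
    have hregc := reg_const reg D hreg x₀.2 R hboxD
    choose a f hf using fun l => (hρ (gen σ l) (gen_mem σ S hσS l)).2 (reg x₀.2)
    let Y : Type := Unit × (∀ i : Fin 0, Unit) × Unit
    letI act : MulAction (Unit × (Fin 0 → Multiplicative ℤ) × Unit) Y :=
      { smul := fun l y => y
        one_smul := fun y => rfl
        mul_smul := fun l l' y => rfl }
    letI actu : MulAction Unit Unit :=
      { smul := fun l y => y
        one_smul := fun y => rfl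
        mul_smul := fun l l' y => rfl }
    let bb : Y → Fin 1 × (Fin 0 → Fin 1) × Fin 1 := fun _ => (0, fun i => i.elim0, 0)
    have hY : ∀ y y' : Y, y = y' := by
      rintro ⟨u, w, v⟩ ⟨u', w', v'⟩
      exact Prod.ext rfl (Prod.ext (funext fun i => i.elim0) rfl)
    let α : Fin k → ℤ → Fin (Nat.card (Λ → Fin m)) := fun j x => ε (fun l => a l j x)
    let v : Λ → Q → (Fin k → Fin (Nat.card (Λ → Fin m))) × (Fin k → Fin k → ℤ → Prop) →
      Q × (Fin k → ℤ) := fun l q o => f l q (fun j => ε.symm (o.1 j) l) o.2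
    let F : Fin MM × Bool → Q → Fin 1 × (Fin 0 → Fin 1) × Fin 1 →
        (Fin k → Fin (Nat.card (Λ → Fin m))) × (Fin k → Fin k → ℤ → Prop) →
        Q × (Unit × (Fin 0 → Multiplicative ℤ) × Unit) × (Fin k → ℤ) := fun l q _ o =>
      if ∀ j, |(v l q o).2 j| ≤ (c : ℤ) then ((v l q o).1, 1, (v l q o).2) else (q, 1, 0)
    have hobs : ∀ z : Fin k → ℤ, (obs s α ⊤ z).2 = pat s z := by
      intro z
      funext p q d
      exact propext ⟨fun h => h.2, fun h => ⟨trivial, h⟩⟩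
    have hv : ∀ l q z, v l q (obs s α ⊤ z) = f l q (fun j => a l j (z j)) (pat s z) := by
      intro l q z
      have e1 : (fun j => ε.symm ((obs s α ⊤ z).1 j) l) = fun j => a l j (z j) := by
        funext j
        show ε.symm (ε (fun l => a l j (z j))) l = a l j (z j)
        rw [Equiv.symm_apply_apply]
      show f l q (fun j => ε.symm ((obs s α ⊤ z).1 j) l) (obs s α ⊤ z).2 = _
      rw [e1, hobs]
    let ι : Q × Y × (Fin k → ℤ) → Q × (Fin k → ℤ) := fun x => (x.1, x.2.2)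
    have hc : Cht σ ρ F bb (obs s α ⊤) x₀.2 R ι := by
      refine ⟨?_, ?_⟩
      · rintro l ⟨q, y, z⟩ hz
        have hz' : ∀ j, |z j - x₀.2 j| ≤ (R : ℤ) := hz
        have hzD : z ∉ D := hboxD z hz'
        have e1 := hf l q z hzD (hregc z hz') _ rfl
        have e2 : ∀ j, |(v l q (obs s α ⊤ z)).2 j| ≤ (c : ℤ) := by
          intro j
          have h1 := hρ1 l (q, z) j
          rw [e1] at h1
          rw [hv]
          have h2 : (z + (f l q (fun j => a l j (z j)) (pat s z)).2) j - z j =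
            (f l q (fun j => a l j (z j)) (pat s z)).2 j := by
            show (z j + _) - z j = _
            ring
          rw [← h2]
          exact h1
        have e3 : F l q (bb y) (obs s α ⊤ z) = ((v l q (obs s α ⊤ z)).1, 1,
            (v l q (obs s α ⊤ z)).2) := if_pos e2
        show ρ (gen σ l) (q, z) = ((F l q (bb y) (obs s α ⊤ z)).1,
          z + (F l q (bb y) (obs s α ⊤ z)).2.2)
        rw [e3, e1, hv]
      · rintro ⟨q, y, z⟩ ⟨q', y', z'⟩ - - h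
        have h1 : q = q' := congrArg Prod.fst h
        have h2 : z = z' := congrArg Prod.snd h
        rw [h1, h2, hY y y']
    exact hN₁3 ⊤ Q hQ Y bb ⟨Unit, Unit, actu, actu, fun _ => Unit, fun _ => 1, Equiv.refl _,
      fun _ => 0, fun i => i.elim0, fun _ => 0, fun _ _ _ => rfl, fun _ _ _ => rfl,
      fun l y => hY _ _, fun y => Prod.ext rfl (Prod.ext (funext fun i => i.elim0) rfl)⟩ α F
      (fun l q β o => by
        show (if ∀ j, |(v l q o).2 j| ≤ (c : ℤ) then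
          (((v l q o).1, 1, (v l q o).2) : Q × (Unit × (Fin 0 → Multiplicative ℤ) × Unit) ×
            (Fin k → ℤ)) else (q, 1, 0)).2.1 = 1
        split_ifs <;> rfl) (fun l q β o j => by
        show |(if ∀ j, |(v l q o).2 j| ≤ (c : ℤ) then
          (((v l q o).1, 1, (v l q o).2) : Q × (Unit × (Fin 0 → Multiplicative ℤ) × Unit) ×
            (Fin k → ℤ)) else (q, 1, 0)).2.2 j| ≤ (c : ℤ)
        split_ifs with h
        · exact h j
        · simp) (Q × (Fin k → ℤ)) ρ x₀.2 ι hc x₀.1 ((), (fun i => i.elim0), ()) g hg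
  -- the points near `D`
  have hnear : ∀ x : Q × (Fin k → ℤ), ∃ z' : Fin k → ℤ, x ∉ H → z' ∈ D ∧
      ∀ j, |z' j - x.2 j| ≤ (R : ℤ) := by
    intro x
    by_cases hx : x ∈ H
    · exact ⟨x.2, fun h => absurd hx h⟩
    · have hx' : ∃ z' ∈ D, ∀ j, |z' j - x.2 j| ≤ (R : ℤ) := by
        by_contra hno
        push Not at hno
        apply hx
        intro z' hz' hall
        obtain ⟨j, hj⟩ := hno z' hz'
        exact absurd (hall j) (not_le.2 hj)
      obtain ⟨z', h1, h2⟩ := hx'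
      exact ⟨z', fun _ => ⟨h1, h2⟩⟩
  choose π hπ using hnear
  rcases hD with hD | hD
  · obtain ⟨C, hC⟩ := hD (c * R₂ + 2 * R)
    refine hN₂3 (Q × (Fin k → ℤ)) ρ N₁ hN₁1 H {x | π x ∈ C} hH ?_ g ⟨hg.1, hg.2.1⟩
    intro x hx
    have key : ∀ y, Relation.ReflTransGen (fun a b => b ∉ H ∧ (a ∈ {x | π x ∈ C} ↔
        b ∈ {x | π x ∈ C}) ∧ ∃ w : List G, (∀ s ∈ w, s ∈ Set.range σ ∨ s⁻¹ ∈ Set.range σ) ∧
          w.length ≤ R₂ ∧ ρ w.prod a = b) x y → y ∉ H ∧ Relation.ReflTransGen (fun x y => x ∈ D ∧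
            y ∈ D ∧ (x ∈ C ↔ y ∈ C) ∧ ∀ j, |x j - y j| ≤ ((c * R₂ + 2 * R : ℕ) : ℤ)) (π x)
              (π y) := by
      intro y hy
      induction hy with
      | refl => exact ⟨hx, Relation.ReflTransGen.refl⟩
      | @tail a b _ hab ih =>
        obtain ⟨h1, h2, w, hw1, hw2, hw3⟩ := hab
        refine ⟨h1, ih.2.tail ⟨(hπ a ih.1).1, (hπ b h1).1, h2, fun j => ?_⟩⟩
        have h3 := (hπ a ih.1).2 j
        have h4 := (hπ b h1).2 j
        have h5 := word_disp σ ρ hρ1 w hw1 a j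
        rw [hw3] at h5
        have h6 : ((c * w.length : ℕ) : ℤ) ≤ c * R₂ := by
          exact_mod_cast Nat.mul_le_mul_left c hw2
        push_cast
        rw [abs_le] at h3 h4 h5 ⊢
        constructor <;> linarith
    have hsub : {y | Relation.ReflTransGen (fun a b => b ∉ H ∧ (a ∈ {x | π x ∈ C} ↔
        b ∈ {x | π x ∈ C}) ∧ ∃ w : List G, (∀ s ∈ w, s ∈ Set.range σ ∨ s⁻¹ ∈ Set.range σ) ∧
          w.length ≤ R₂ ∧ ρ w.prod a = b) x y} ⊆ ⋃ d ∈ {z' | Relation.ReflTransGen (fun x y =>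
            x ∈ D ∧ y ∈ D ∧ (x ∈ C ↔ y ∈ C) ∧ ∀ j, |x j - y j| ≤ ((c * R₂ + 2 * R : ℕ) : ℤ))
              (π x) z'}, {y : Q × (Fin k → ℤ) | ∀ j, |d j - y.2 j| ≤ (R : ℤ)} := by
      intro y hy
      obtain ⟨h1, h2⟩ := key y hy
      exact Set.mem_biUnion h2 (hπ y h1).2
    refine (Set.encard_le_encard hsub).trans ?_
    exact H630.biUnion_le _ _ _ _ (hC (π x)) (fun d _ => box_card Q n R hQ d)
  · by_cases hb : 0 < b
    · refine hN₃3 hb (Q × (Fin k → ℤ)) ρ N₁ hN₁1 H hH ?_ g ⟨hg.1, hg.2.2⟩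
      intro x hx
      have hsub : {y | y ∉ H ∧ ∃ w : List G, (∀ s ∈ w, s ∈ Set.range σ ∨ s⁻¹ ∈ Set.range σ) ∧
          w.length ≤ t' ∧ ρ w.prod x = y} ⊆ ⋃ d ∈ {z' | z' ∈ D ∧ ∀ j, |π x j - z' j| ≤ (t : ℤ)},
            {y : Q × (Fin k → ℤ) | ∀ j, |d j - y.2 j| ≤ (R : ℤ)} := by
        rintro y ⟨hy, w, hw1, hw2, hw3⟩
        refine Set.mem_biUnion (show π y ∈ {z' | z' ∈ D ∧ ∀ j, |π x j - z' j| ≤ (t : ℤ)} from
          ⟨(hπ y hy).1, fun j => ?_⟩) (hπ y hy).2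
        have h3 := (hπ x hx).2 j
        have h4 := (hπ y hy).2 j
        have h5 := word_disp σ ρ hρ1 w hw1 x j
        rw [hw3] at h5
        have h6 : ((c * w.length : ℕ) : ℤ) ≤ c * t' := by
          exact_mod_cast Nat.mul_le_mul_left c hw2
        have h7 : (c : ℤ) * t' + 2 * R ≤ t := by exact_mod_cast ht'1 hb
        rw [abs_le] at h3 h4 h5 ⊢
        constructor <;> linarith
      refine (Set.encard_le_encard hsub).trans ?_
      exact H630.biUnion_le _ _ _ _ (hD (π x) (hπ x hx).1) (fun d _ => box_card Q n R hQ d)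
    · have hDe : ∀ z, z ∉ D := by
        intro z hz
        have h1 := hD z hz
        have h2 : b = 0 := by omega
        rw [h2] at h1
        have h3 : z ∈ {z' | z' ∈ D ∧ ∀ j, |z j - z' j| ≤ (t : ℤ)} := ⟨hz, fun j => by simp⟩
        have h4 : {z' | z' ∈ D ∧ ∀ j, |z j - z' j| ≤ (t : ℤ)} = ∅ := by
          rw [← Set.encard_eq_zero]
          exact le_antisymm (by exact_mod_cast h1) bot_le
        rw [h4] at h3
        exact h3
      ext1 x
      exact hH x (fun z' hz' => absurd hz' (hDe z')) g hg.1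

end Vale.Agent.P192.H291
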