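import Vale.Agent.P192.H291.TrLoc

set_option linter.all false

/-! Extension of a coloured ball of a free group to a coloured free group with the same local
patterns. -/

namespace Vale.Agent.P192.H291

open Vale.Agent.P192 Vale.Agent.P192.H593 Vale.Agent.P192.H437 Vale.Agent.P192.H567

theorem norm_ball_finite (q n : ℕ) : Finite {g : FreeGroup (Fin q) // g.norm ≤ n} := by
  have h : Set.Finite {L : List (Fin q × Bool) | L.length ≤ n} := List.finite_length_le _ _
  have h2 : Set.Finite {g : FreeGroup (Fin q) | g.norm ≤ n} := by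
    refine (h.image FreeGroup.mk).subset ?_
    intro g hg
    exact ⟨g.toWord, hg, FreeGroup.mk_toWord⟩
  exact h2

/-- a chain of subsets of a finite set stops growing -/
theorem chain_stops {A : Type} [Finite A] (S : ℕ → Set A) (hS : ∀ n, S n ⊆ S (n + 1)) (d₀ : ℕ) :
    ∃ d, d₀ ≤ d ∧ d ≤ d₀ + Nat.card A ∧ S (d + 1) ⊆ S d := by
  by_contra hno
  push Not at hno
  have key : ∀ j : ℕ, j ≤ Nat.card A + 1 → j ≤ (S (d₀ + j)).ncard := by
    intro j
    induction j with
    | zero => intro _; exact Nat.zero_le _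
    | succ j ih =>
      intro hj
      have h1 := ih (by omega)
      have h2 : S (d₀ + j) ⊂ S (d₀ + j + 1) :=
        ⟨hS _, hno (d₀ + j) (by omega) (by omega)⟩
      have h3 := Set.ncard_lt_ncard h2 (Set.toFinite _)
      have h4 : d₀ + (j + 1) = d₀ + j + 1 := by ring
      rw [h4]
      omega
  have h1 := key (Nat.card A + 1) le_rfl
  have h2 : (S (d₀ + (Nat.card A + 1))).ncard ≤ Nat.card A := by
    rw [← Set.ncard_univ]
    exact Set.ncard_le_ncard (Set.subset_univ _) (Set.toFinite _)
  omega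

/-- the folding of the free group to a ball, along words -/
def fold {q : ℕ} (rep : FreeGroup (Fin q) → FreeGroup (Fin q)) :
    List (Fin q × Bool) → FreeGroup (Fin q)
  | [] => 1
  | s :: W => rep (FreeGroup.mk [s] * fold rep W)

theorem mk_cons_mul {q : ℕ} (s : Fin q × Bool) (W : List (Fin q × Bool)) :
    (FreeGroup.mk (s :: W) : FreeGroup (Fin q)) = FreeGroup.mk [s] * FreeGroup.mk W := by
  rw [FreeGroup.mul_mk]; rfl

theorem norm_single {q : ℕ} (s : Fin q × Bool) (y : FreeGroup (Fin q)) :
    (FreeGroup.mk [s] * y).norm ≤ y.norm + 1 := by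
  refine (FreeGroup.norm_mul_le _ _).trans ?_
  have h1 : (FreeGroup.mk [s] : FreeGroup (Fin q)).norm ≤ 1 := FreeGroup.norm_mk_le
  omega

theorem tree_ext (q t : ℕ) (A : Type) [Finite A] : ∃ T : ℕ, ∀ (d₀ : ℕ) (α : FreeGroup (Fin q) → A),
    ∃ α' : FreeGroup (Fin q) → A, (∀ x, x.norm ≤ d₀ → α' x = α x) ∧
      ∀ x, ∃ y, y.norm ≤ d₀ + T ∧ ∀ w : FreeGroup (Fin q), w.norm ≤ t → α' (w * x) = α (w * y) := by
  classical
  haveI : Finite {g : FreeGroup (Fin q) // g.norm ≤ t + 1} := norm_ball_finite q (t + 1)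
  let P : Type := {g : FreeGroup (Fin q) // g.norm ≤ t + 1} → A
  refine ⟨Nat.card P, fun d₀ α => ?_⟩
  let pt : FreeGroup (Fin q) → P := fun y w => α (w.1 * y)
  obtain ⟨d, hd1, hd2, hd3⟩ := chain_stops (fun d => pt '' {y | y.norm ≤ d})
    (fun n => Set.image_mono fun y (hy : y.norm ≤ n) => (show y.norm ≤ n + 1 by omega)) d₀
  have hrep : ∀ y : FreeGroup (Fin q), ∃ y' : FreeGroup (Fin q),
      (y.norm ≤ d + 1 → y'.norm ≤ d ∧ pt y' = pt y) ∧ (y.norm ≤ d → y' = y) := by
    intro y
    by_cases h1 : y.norm ≤ d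
    · exact ⟨y, fun _ => ⟨h1, rfl⟩, fun _ => rfl⟩
    · by_cases h2 : y.norm ≤ d + 1
      · obtain ⟨y', h3, h4⟩ := hd3 ⟨y, h2, rfl⟩
        exact ⟨y', fun _ => ⟨h3, h4⟩, fun h => absurd h h1⟩
      · exact ⟨y, fun h => absurd h h2, fun h => absurd h h1⟩
  choose rep hrep1 hrep2 using hrep
  have hφ : ∀ W : List (Fin q × Bool), (fold rep W).norm ≤ d := by
    intro W
    induction W with
    | nil => simp [fold]
    | cons s W ih =>
      exact (hrep1 _ ((norm_single s _).trans (Nat.succ_le_succ ih))).1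
  have hstep : ∀ (s : Fin q × Bool) (W : List (Fin q × Bool)),
      pt (fold rep (s :: W)) = pt (FreeGroup.mk [s] * fold rep W) := fun s W =>
    (hrep1 _ ((norm_single s _).trans (Nat.succ_le_succ (hφ W)))).2
  have hid : ∀ W : List (Fin q × Bool), W.length ≤ d → fold rep W = FreeGroup.mk W := by
    intro W
    induction W with
    | nil => intro _; rfl
    | cons s W ih =>
      intro hW
      have h1 := ih (by rw [List.length_cons] at hW; omega)
      show rep (FreeGroup.mk [s] * fold rep W) = _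
      rw [h1, ← mk_cons_mul]
      exact hrep2 _ (FreeGroup.norm_mk_le.trans hW)
  let φ : FreeGroup (Fin q) → FreeGroup (Fin q) := fun x => fold rep x.toWord
  -- the edges
  have hedge : ∀ (s : Fin q × Bool) (x v : FreeGroup (Fin q)), v.norm ≤ t →
      α (v * φ (FreeGroup.mk [s] * x)) = α (v * (FreeGroup.mk [s] * φ x)) := by
    intro s x v hv
    have hcase : (FreeGroup.mk [s] * x).toWord = s :: x.toWord ∨
        x.toWord = (s.1, !s.2) :: (FreeGroup.mk [s] * x).toWord := by
      have h1 : FreeGroup.mk [s] * x = FreeGroup.mk (s :: x.toWord) := by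
        rw [mk_cons_mul s x.toWord, FreeGroup.mk_toWord]
      rw [h1, FreeGroup.toWord_mk, FreeGroup.reduce.cons, FreeGroup.reduce_toWord]
      cases hx : x.toWord with
      | nil => left; rfl
      | cons s' W =>
        show (if s.1 = s'.1 ∧ s.2 = !s'.2 then W else s :: s' :: W) = _ ∨ _
        by_cases hc : s.1 = s'.1 ∧ s.2 = !s'.2
        · right
          show s' :: W = (s.1, !s.2) :: (if s.1 = s'.1 ∧ s.2 = !s'.2 then W else s :: s' :: W)
          rw [if_pos hc]
          have : s' = (s.1, !s.2) := by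
            rw [hc.1, hc.2, Bool.not_not]
          rw [← this]
        · left
          rw [if_neg hc]
    rcases hcase with h1 | h1
    · have h2 := hstep s x.toWord
      rw [← h1] at h2
      exact congrFun h2 ⟨v, by omega⟩
    · have h2 := hstep (s.1, !s.2) (FreeGroup.mk [s] * x).toWord
      rw [← h1] at h2
      have h3 := congrFun h2 ⟨v * FreeGroup.mk [s], by
        have h4 : (FreeGroup.mk [s] : FreeGroup (Fin q)).norm ≤ 1 := FreeGroup.norm_mk_le
        have h5 := FreeGroup.norm_mul_le v (FreeGroup.mk [s])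
        omega⟩
      have h4 : α (v * FreeGroup.mk [s] * φ x) = α (v * FreeGroup.mk [s] *
        (FreeGroup.mk [(s.1, !s.2)] * φ (FreeGroup.mk [s] * x))) := h3
      have h5 : (FreeGroup.mk [s] * FreeGroup.mk [(s.1, !s.2)] : FreeGroup (Fin q)) = 1 := by
        have h6 : (FreeGroup.mk [(s.1, !s.2)] : FreeGroup (Fin q)) = (FreeGroup.mk [s])⁻¹ := by
          rw [FreeGroup.inv_mk]; rfl
        rw [h6, mul_inv_cancel]
      have h7 : v * FreeGroup.mk [s] * (FreeGroup.mk [(s.1, !s.2)] *
          φ (FreeGroup.mk [s] * x)) = v * φ (FreeGroup.mk [s] * x) := by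
        rw [mul_assoc, ← mul_assoc (FreeGroup.mk [s]), h5, one_mul]
      rw [h7] at h4
      rw [← h4, mul_assoc]
  have hword : ∀ (W : List (Fin q × Bool)) (x v : FreeGroup (Fin q)), v.norm + W.length ≤ t →
      α (v * φ (FreeGroup.mk W * x)) = α (v * (FreeGroup.mk W * φ x)) := by
    intro W
    induction W with
    | nil =>
      intro x v _
      rw [← FreeGroup.one_eq_mk, one_mul, one_mul]
    | cons s W ih =>
      intro x v hv
      rw [List.length_cons] at hv
      have h1 : FreeGroup.mk (s :: W) * x = FreeGroup.mk [s] * (FreeGroup.mk W * x) := by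
        rw [mk_cons_mul s W, mul_assoc]
      rw [h1, hedge s _ v (by omega), ← mul_assoc, ih x (v * FreeGroup.mk [s]) (by
        have h4 : (FreeGroup.mk [s] : FreeGroup (Fin q)).norm ≤ 1 := FreeGroup.norm_mk_le
        have h5 := FreeGroup.norm_mul_le v (FreeGroup.mk [s])
        omega), mk_cons_mul s W, mul_assoc, mul_assoc]
  refine ⟨fun x => α (φ x), ?_, ?_⟩
  · intro x hx
    have h1 : φ x = x := by
      show fold rep x.toWord = x
      rw [hid x.toWord (show x.norm ≤ d by omega), FreeGroup.mk_toWord]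
    show α (φ x) = α x
    rw [h1]
  · intro x
    refine ⟨φ x, (hφ _).trans (by omega), fun w hw => ?_⟩
    have h1 := hword w.toWord x 1 (by simpa [FreeGroup.norm] using hw)
    rw [FreeGroup.mk_toWord, one_mul, one_mul] at h1
    exact h1

end Vale.Agent.P192.H291
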