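import Vale.Agent.P192.H291.Virt

set_option linter.all false

/-! The local criterion from extensions of the local patterns. -/

namespace Vale.Agent.P192.H291

open Vale.Agent.P192 Vale.Agent.P192.H593 Vale.Agent.P192.H437 Vale.Agent.P192.H567

section

variable {G L : Type} [Group G] [Group L] {M : ℕ} {I Y Y' B X : Type} [MulAction L Y]
  [MulAction L Y']

/-- one step -/
def tst (f : Fin M × Bool → I → B → I × L) (b : Y → B) (l : Fin M × Bool) (x : I × Y) : I × Y :=
  ((f l x.1 (b x.2)).1, (f l x.1 (b x.2)).2 • x.2)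

theorem t_transfer {K : Set L} {f : Fin M × Bool → I → B → I × L}
    (hf : ∀ l i β, (f l i β).2 ∈ K) (b : Y → B) (b' : Y' → B) (W : List (Fin M × Bool)) (i : I)
    (y : Y) (y' : Y') (hy : ∀ t ∈ PP K W.length, b (t • y) = b' (t • y')) :
    ∃ (i' : I) (t : L), t ∈ PP K W.length ∧ runS (tst f b) W (i, y) = (i', t • y) ∧
      runS (tst f b') W (i, y') = (i', t • y') := by
  induction W with
  | nil => exact ⟨i, 1, rfl, by simp [runS], by simp [runS]⟩
  | cons l W ih =>
    obtain ⟨i', t, ht, h1, h2⟩ := ih (fun t ht => hy t (Or.inl ht))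
    have hb : b (t • y) = b' (t • y') := hy t (Or.inl ht)
    refine ⟨(f l i' (b (t • y))).1, (f l i' (b (t • y))).2 * t,
      Or.inr ⟨_, hf _ _ _, t, ht, rfl⟩, ?_, ?_⟩
    · rw [runS_cons, h1]
      unfold tst
      simp only [mul_smul]
    · rw [runS_cons, h2]
      unfold tst
      simp only [mul_smul, hb]

theorem PP_mono {K : Set L} {n n' : ℕ} (h : n ≤ n') : PP K n ⊆ PP K n' := by
  induction n', h using Nat.le_induction with
  | base => exact subset_rfl
  | succ n' _ ih => exact fun x hx => Or.inl (ih hx)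

/-- a chart with steps read off `b` on the set `Bl` -/
theorem c_run {σ : Fin M → G} {ρ : G →* Equiv.Perm X} {K : Set L}
    {f : Fin M × Bool → I → B → I × L} (hf : ∀ l i β, (f l i β).2 ∈ K) {b : Y → B}
    {Bl : Set Y} {ι : I × Y → X}
    (hstep : ∀ l x, x.2 ∈ Bl → ρ (gen σ l) (ι x) = ι (tst f b l x)) (W : List (Fin M × Bool))
    (i : I) (y : Y) (hy : ∀ t ∈ PP K W.length, t • y ∈ Bl) :
    ρ ((FreeGroup.lift σ : FreeGroup (Fin M) →* G) (FreeGroup.mk W)) (ι (i, y)) =
      ι (runS (tst f b) W (i, y)) := by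
  rw [lift_gen]
  induction W with
  | nil => simp [runS]
  | cons l W ih =>
    obtain ⟨i', t, ht, h1, -⟩ := t_transfer hf b b W i y y (fun _ _ => rfl)
    rw [List.map_cons, List.prod_cons, map_mul, Equiv.Perm.mul_apply,
      ih (fun t ht => hy t (Or.inl ht)), runS_cons]
    apply hstep
    rw [h1]
    exact hy t (Or.inl ht)

/-- the relators hold in the virtual system -/
theorem t_good {σ : Fin M → G} {Rl : Set (FreeGroup (Fin M))} {r : ℕ}
    (hr : 2 ≤ r) (hR : ∀ w ∈ Rl, w.norm ≤ r)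
    (hRk : Subgroup.normalClosure Rl = (FreeGroup.lift σ : FreeGroup (Fin M) →* G).ker)
    {ρ : G →* Equiv.Perm X} {K : Set L}
    {f : Fin M × Bool → I → B → I × L} (hf : ∀ l i β, (f l i β).2 ∈ K) {b : Y → B} {b' : Y' → B}
    {Bl : Set Y} {ι : I × Y → X}
    (hstep : ∀ l x, x.2 ∈ Bl → ρ (gen σ l) (ι x) = ι (tst f b l x))
    (hinj : ∀ x x', x.2 ∈ Bl → x'.2 ∈ Bl → ι x = ι x' → x = x')
    (hext : ∀ y' : Y', ∃ y : Y, (∀ t ∈ PP K r, b (t • y) = b' (t • y')) ∧
      (∀ t ∈ PP K r, t • y ∈ Bl) ∧ ∀ t t' : L, t • y = t' • y → t • y' = t' • y') :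
    SGood Rl (tst f b') := by
  have key : ∀ W : List (Fin M × Bool), W.length ≤ r →
      (FreeGroup.lift σ : FreeGroup (Fin M) →* G) (FreeGroup.mk W) = 1 →
      ∀ p, runS (tst f b') W p = p := by
    rintro W hW hW1 ⟨i, y'⟩
    obtain ⟨y, h1, h2, h3⟩ := hext y'
    obtain ⟨i', t, ht, h4, h5⟩ := t_transfer hf b b' W i y y'
      (fun t ht => h1 t (PP_mono hW ht))
    have h6 := c_run hf hstep W i y (fun t ht => h2 t (PP_mono hW ht))
    rw [hW1, map_one, h4] at h6
    have h0 : (1 : L) ∈ PP K r := PP_mono (Nat.zero_le r) rfl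
    have h7 : (i, y) = (i', t • y) := by
      refine hinj _ _ ?_ (h2 t (PP_mono hW ht)) h6
      have := h2 1 h0
      rwa [one_smul] at this
    have e1 : i = i' := congrArg Prod.fst h7
    have e2 : y = t • y := congrArg Prod.snd h7
    have e3 : t • y' = (1 : L) • y' := h3 t 1 (by rw [one_smul]; exact e2.symm)
    rw [h5, ← e1, e3, one_smul]
  refine ⟨fun i ε p => ?_, fun v hv p => ?_⟩
  · refine key [(i, ε), (i, !ε)] (by simpa using hr) ?_ p
    rw [lift_gen]
    simp only [List.map_cons, List.map_nil, List.prod_cons, List.prod_nil, mul_one]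
    exact gen_inv σ i ε
  · refine key v.toWord (hR v hv) ?_ p
    rw [FreeGroup.mk_toWord]
    have h1 : v ∈ (FreeGroup.lift σ : FreeGroup (Fin M) →* G).ker := by
      rw [← hRk]; exact Subgroup.subset_normalClosure hv
    exact h1

/-- if `N` acts trivially on the virtual system, then it fixes the centre of the chart -/
theorem t_fix {σ : Fin M → G} (hσ : Subgroup.closure (Set.range σ) = ⊤) {N : Subgroup G}
    [N.Normal] {w : G ⧸ N → List (Fin M × Bool)} {ℓ : ℕ} (hw1 : w 1 = [])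
    (hw2 : ∀ x, (QuotientGroup.mk ((FreeGroup.lift σ : FreeGroup (Fin M) →* G)
        (FreeGroup.mk (w x))) : G ⧸ N) = x) (hw3 : ∀ x, (w x).length ≤ ℓ)
    {ρ : G →* Equiv.Perm X} {K : Set L}
    {f : Fin M × Bool → I → B → I × L} (hf : ∀ l i β, (f l i β).2 ∈ K) {b : Y → B} {b' : Y' → B}
    {Bl : Set Y} {ι : I × Y → X}
    (hstep : ∀ l x, x.2 ∈ Bl → ρ (gen σ l) (ι x) = ι (tst f b l x))
    (ρ' : G →* Equiv.Perm (I × Y')) (hρ' : ∀ l q, ρ' (gen σ l) q = tst f b' l q)
    (htriv : ∀ g ∈ N, ρ' g = 1) (i₀ : I) (y₀ : Y) (y₀' : Y')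
    (h₀ : ∀ t ∈ PP K (ℓ + 1), b (t • y₀) = b' (t • y₀')) (hB : ∀ t ∈ PP K (ℓ + 1), t • y₀ ∈ Bl)
    (hs : ∀ t t' : L, t • y₀' = t' • y₀' → t • y₀ = t' • y₀) :
    ∀ g ∈ N, ρ g (ι (i₀, y₀)) = ι (i₀, y₀) := by
  have hsurj : Function.Surjective (FreeGroup.lift σ : FreeGroup (Fin M) →* G) :=
    FreeGroup.lift_surjective_iff_closure_range_eq_top.2 hσ
  -- words of length at most `ℓ + 1` with the same class act in the same way on the centre
  have hsame : ∀ W W' : List (Fin M × Bool), W.length ≤ ℓ + 1 → W'.length ≤ ℓ + 1 →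
      (QuotientGroup.mk ((FreeGroup.lift σ : FreeGroup (Fin M) →* G) (FreeGroup.mk W)) : G ⧸ N) =
        QuotientGroup.mk ((FreeGroup.lift σ : FreeGroup (Fin M) →* G) (FreeGroup.mk W')) →
      ρ ((FreeGroup.lift σ : FreeGroup (Fin M) →* G) (FreeGroup.mk W)) (ι (i₀, y₀)) =
        ρ ((FreeGroup.lift σ : FreeGroup (Fin M) →* G) (FreeGroup.mk W')) (ι (i₀, y₀)) := by
    intro W W' hW hW' hWW
    rw [c_run hf hstep W i₀ y₀ (fun t ht => hB t (PP_mono hW ht)),
      c_run hf hstep W' i₀ y₀ (fun t ht => hB t (PP_mono hW' ht))]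
    obtain ⟨i₁, t₁, ht₁, h1, h2⟩ := t_transfer hf b b' W i₀ y₀ y₀'
      (fun t ht => h₀ t (PP_mono hW ht))
    obtain ⟨i₂, t₂, ht₂, h3, h4⟩ := t_transfer hf b b' W' i₀ y₀ y₀'
      (fun t ht => h₀ t (PP_mono hW' ht))
    have h5 := hom_run σ ρ' hρ' W (i₀, y₀')
    have h6 := hom_run σ ρ' hρ' W' (i₀, y₀')
    have h7 : ρ' ((FreeGroup.lift σ : FreeGroup (Fin M) →* G) (FreeGroup.mk W')) =
        ρ' ((FreeGroup.lift σ : FreeGroup (Fin M) →* G) (FreeGroup.mk W)) := by
      have h8 := QuotientGroup.eq.1 hWW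
      have h9 := htriv _ h8
      rw [map_mul, map_inv] at h9
      have h10 := eq_of_inv_mul_eq_one h9
      exact h10.symm
    rw [h7, h5] at h6
    rw [h2, h4] at h6
    have e1 : i₁ = i₂ := congrArg Prod.fst h6
    have e2 : t₁ • y₀' = t₂ • y₀' := congrArg Prod.snd h6
    rw [h1, h3, e1, hs _ _ e2]
  have key : ∀ W : List (Fin M × Bool),
      ρ ((FreeGroup.lift σ : FreeGroup (Fin M) →* G) (FreeGroup.mk W)) (ι (i₀, y₀)) =
      ρ ((FreeGroup.lift σ : FreeGroup (Fin M) →* G) (FreeGroup.mk (w (QuotientGroup.mk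
      ((FreeGroup.lift σ : FreeGroup (Fin M) →* G) (FreeGroup.mk W)))))) (ι (i₀, y₀)) := by
    intro W
    induction W with
    | nil =>
      have e : (QuotientGroup.mk ((FreeGroup.lift σ : FreeGroup (Fin M) →* G)
          (FreeGroup.mk [])) : G ⧸ N) = 1 := by
        rw [← FreeGroup.one_eq_mk, map_one]; rfl
      rw [e, hw1]
    | cons l W ih =>
      have e1 : (FreeGroup.lift σ : FreeGroup (Fin M) →* G) (FreeGroup.mk (l :: W)) =
          gen σ l * (FreeGroup.lift σ : FreeGroup (Fin M) →* G) (FreeGroup.mk W) := by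
        rw [lift_gen, lift_gen, List.map_cons, List.prod_cons]
      have e2 : ∀ W' : List (Fin M × Bool),
          (FreeGroup.lift σ : FreeGroup (Fin M) →* G) (FreeGroup.mk (l :: W')) =
          gen σ l * (FreeGroup.lift σ : FreeGroup (Fin M) →* G) (FreeGroup.mk W') := by
        intro W'
        rw [lift_gen, lift_gen, List.map_cons, List.prod_cons]
      set x := (QuotientGroup.mk ((FreeGroup.lift σ : FreeGroup (Fin M) →* G)
        (FreeGroup.mk W)) : G ⧸ N) with hx
      have e3 : ρ ((FreeGroup.lift σ : FreeGroup (Fin M) →* G) (FreeGroup.mk (l :: W)))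
          (ι (i₀, y₀)) = ρ ((FreeGroup.lift σ : FreeGroup (Fin M) →* G)
            (FreeGroup.mk (l :: w x))) (ι (i₀, y₀)) := by
        rw [e1, e2, map_mul, map_mul, Equiv.Perm.mul_apply, Equiv.Perm.mul_apply, ih]
      rw [e3]
      refine hsame _ _ (by rw [List.length_cons]; exact Nat.succ_le_succ (hw3 x))
        ((hw3 _).trans (Nat.le_succ ℓ)) ?_
      rw [hw2, e2, e1]
      show (QuotientGroup.mk (gen σ l * _) : G ⧸ N) = QuotientGroup.mk (gen σ l * _)
      rw [QuotientGroup.mk_mul, QuotientGroup.mk_mul, hw2]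
  intro g hg
  obtain ⟨v, rfl⟩ := hsurj g
  have h1 := key v.toWord
  rw [FreeGroup.mk_toWord] at h1
  have e : (QuotientGroup.mk ((FreeGroup.lift σ : FreeGroup (Fin M) →* G) v) : G ⧸ N) = 1 :=
    (QuotientGroup.eq_one_iff _).2 hg
  rw [e, hw1, ← FreeGroup.one_eq_mk, map_one, map_one] at h1
  exact h1

end

end Vale.Agent.P192.H291
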