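import Vale.Agent.P192.H291.TrExt
import Vale.Agent.P192.H291.Thin
import Vale.Agent.P192.H567.AD

set_option linter.all false

/-! The local criterion for products of two trees. -/

namespace Vale.Agent.P192.H291

open Vale.Agent.P192 Vale.Agent.P192.H593 Vale.Agent.P192.H437 Vale.Agent.P192.H567

theorem ad_fin (q : ℕ) (E : Set (FreeGroup (Fin q))) (hE : E.Finite) :
    ∃ m : ℕ, ∃ C : Set (FreeGroup (Fin q)), ∀ x : FreeGroup (Fin q),
      {y | Relation.ReflTransGen (fun a b => (a ∈ C ↔ b ∈ C) ∧ ∃ e ∈ E, b = e * a) x y}.encard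
        ≤ m := by
  classical
  obtain ⟨c, hc⟩ : ∃ c : ℕ, ∀ e ∈ E, e.norm ≤ c := by
    obtain ⟨c, hc⟩ := (hE.image FreeGroup.norm).bddAbove
    exact ⟨c, fun e he => hc ⟨e, he, rfl⟩⟩
  obtain ⟨m, C, hC⟩ := ad_free (Fin q) c
  refine ⟨m, C, fun x => (Set.encard_le_encard ?_).trans (hC x)⟩
  intro y hy
  refine Relation.ReflTransGen.mono ?_ _ _ hy
  rintro a b ⟨h1, e, he, h2⟩
  exact ⟨h1, e, hc e he, h2⟩

theorem PP_norm {q c : ℕ} {K : Set (FreeGroup (Fin q) × FreeGroup (Fin q))}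
    (hK : ∀ x ∈ K, x.1.norm ≤ c ∧ x.2.norm ≤ c) (n : ℕ) :
    ∀ x ∈ PP K n, x.1.norm ≤ c * n ∧ x.2.norm ≤ c * n := by
  induction n with
  | zero =>
    intro x hx
    have h1 : x = 1 := hx
    rw [h1]
    simp
  | succ n ih =>
    rintro x (hx | ⟨a, ha, b, hb, rfl⟩)
    · have h1 := ih x hx
      rw [mul_add, mul_one]
      omega
    · have h1 := ih b hb
      have h2 := hK a ha
      have h3 := FreeGroup.norm_mul_le a.1 b.1
      have h4 := FreeGroup.norm_mul_le a.2 b.2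
      rw [mul_add, mul_one]
      exact ⟨by show (a.1 * b.1).norm ≤ _; omega, by show (a.2 * b.2).norm ≤ _; omega⟩

theorem tree_loc (G : Type) [Group G] [Group.IsFinitelyPresented G] (hG : IsMulTorsion G)
    {M : ℕ} (σ : Fin M → G) (hσ : Subgroup.closure (Set.range σ) = ⊤) (q nJ m c : ℕ) :
    ∃ (R : ℕ) (N : Subgroup G), N.Normal ∧ N.FiniteIndex ∧
      ∀ (J : Type) [Finite J], Nat.card J ≤ nJ → ∀ (b₁ b₂ : FreeGroup (Fin q) → Fin m)
      (f : Fin M × Bool → J → Fin m → Fin m → J × FreeGroup (Fin q) × FreeGroup (Fin q)),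
      (∀ l i α β, (f l i α β).2.1.norm ≤ c ∧ (f l i α β).2.2.norm ≤ c) →
      ∀ (X : Type) (ρ : G →* Equiv.Perm X)
      (ι : J × FreeGroup (Fin q) × FreeGroup (Fin q) → X),
      (∀ l i x y, x.norm ≤ R → y.norm ≤ R → ρ (gen σ l) (ι (i, x, y)) =
        ι ((f l i (b₁ x) (b₂ y)).1, (f l i (b₁ x) (b₂ y)).2.1 * x,
          (f l i (b₁ x) (b₂ y)).2.2 * y)) →
      (∀ p p', (p.2.1.norm ≤ R ∧ p.2.2.norm ≤ R) → (p'.2.1.norm ≤ R ∧ p'.2.2.norm ≤ R) →
        ι p = ι p' → p = p') →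
      ∀ i₀ : J, ∀ g ∈ N, ρ g (ι (i₀, 1, 1)) = ι (i₀, 1, 1) := by
  classical
  obtain ⟨Rl, r, hr, hR, hRk⟩ := exists_pres G σ hσ
  let K : Set (FreeGroup (Fin q) × FreeGroup (Fin q)) := {x | x.1.norm ≤ c ∧ x.2.norm ≤ c}
  have hK : K.Finite := by
    haveI : Finite {g : FreeGroup (Fin q) // g.norm ≤ c} := norm_ball_finite q c
    have h1 : Set.Finite {g : FreeGroup (Fin q) | g.norm ≤ c} := this
    exact h1.prod h1
  have e : (⊤ : Subgroup (FreeGroup (Fin q))) ≃* FreeGroup (Fin q) := Subgroup.topEquiv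
  obtain ⟨N, hN1, hN2, hN3⟩ := vf_uniform2 G hG σ hσ (FreeGroup (Fin q)) (FreeGroup (Fin q))
    (ad_fin q) ⊤ q e nJ m K hK
  obtain ⟨w, ℓ, hw1, hw2, hw3⟩ := coset_words σ hσ N
  obtain ⟨T₁, hT₁⟩ := tree_ext q (c * (r + (ℓ + 1))) (Fin m)
  refine ⟨c * (r + (ℓ + 1)) + T₁ + c * (r + (ℓ + 1)), N, hN1, hN2, ?_⟩
  intro J _ hJ b₁ b₂ f hf X ρ ι hstep hinj i₀
  set t := c * (r + (ℓ + 1)) with ht
  obtain ⟨b₁', h1, h2⟩ := hT₁ t b₁
  obtain ⟨b₂', h3, h4⟩ := hT₁ t b₂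
  let L : Type := FreeGroup (Fin q) × FreeGroup (Fin q)
  let f' : Fin M × Bool → J → Fin m × Fin m → J × L := fun l i β => f l i β.1 β.2
  have hf' : ∀ l i β, (f' l i β).2 ∈ K := fun l i β => hf l i β.1 β.2
  let b : L → Fin m × Fin m := fun y => (b₁ y.1, b₂ y.2)
  let b' : L → Fin m × Fin m := fun y => (b₁' y.1, b₂' y.2)
  let Bl : Set L := {y | y.1.norm ≤ t + T₁ + t ∧ y.2.norm ≤ t + T₁ + t}
  have hPP : ∀ n, n ≤ r + (ℓ + 1) → ∀ x ∈ PP K n, x.1.norm ≤ t ∧ x.2.norm ≤ t := by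
    intro n hn x hx
    have h5 := PP_norm (K := K) (c := c) (fun x hx => hx) n x hx
    have h6 : c * n ≤ t := Nat.mul_le_mul_left c hn
    omega
  have hstep' : ∀ l (x : J × L), x.2 ∈ Bl → ρ (gen σ l) (ι x) = ι (tst f' b l x) := by
    rintro l ⟨i, x, y⟩ ⟨hx, hy⟩
    exact hstep l i x y hx hy
  have hinj' : ∀ x x' : J × L, x.2 ∈ Bl → x'.2 ∈ Bl → ι x = ι x' → x = x' :=
    fun x x' hx hx' h => hinj x x' hx hx' h
  have hext : ∀ y' : L, ∃ y : L, (∀ t ∈ PP K r, b (t • y) = b' (t • y')) ∧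
      (∀ t ∈ PP K r, t • y ∈ Bl) ∧ ∀ t t' : L, t • y = t' • y → t • y' = t' • y' := by
    rintro ⟨x', y'⟩
    obtain ⟨x, hx1, hx2⟩ := h2 x'
    obtain ⟨y, hy1, hy2⟩ := h4 y'
    refine ⟨(x, y), fun s hs => ?_, fun s hs => ?_, fun s s' hss => ?_⟩
    · have h5 := hPP r (by omega) s hs
      exact Prod.ext (hx2 s.1 h5.1).symm (hy2 s.2 h5.2).symm
    · have h5 := hPP r (by omega) s hs
      have h6 := FreeGroup.norm_mul_le s.1 x
      have h7 := FreeGroup.norm_mul_le s.2 y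
      exact ⟨show (s.1 * x).norm ≤ _ by omega, show (s.2 * y).norm ≤ _ by omega⟩
    · have h5 : s = s' := mul_right_cancel (show s * (x, y) = s' * (x, y) from hss)
      rw [h5]
  obtain ⟨ρ', hρ'⟩ := hom_of_steps σ hσ hRk (t_good hr hR hRk hf' hstep' hinj' hext)
  have htriv : ∀ g ∈ N, ρ' g = 1 := by
    refine hN3 J hJ (FreeGroup (Fin q)) (FreeGroup (Fin q)) ?_ ?_ ρ' ?_
    · intro l u h
      exact mul_eq_right.1 (show l * u = u from h)
    · intro l u h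
      exact mul_eq_right.1 (show l * u = u from h)
    · intro l
      refine ⟨b₂', fun i u β => f l i (b₁' u) β, fun i u β => hf l i _ β, fun i u v => ?_⟩
      rw [hρ']
      rfl
  refine t_fix hσ hw1 hw2 hw3 hf' hstep' ρ' hρ' htriv i₀ (1 : L) (1 : L) ?_ ?_
    (fun s s' h => h)
  · intro s hs
    have h5 := hPP (ℓ + 1) (by omega) s hs
    rw [smul_eq_mul, mul_one]
    exact Prod.ext (h1 s.1 h5.1).symm (h3 s.2 h5.2).symm
  · intro s hs
    have h5 := hPP (ℓ + 1) (by omega) s hs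
    rw [smul_eq_mul, mul_one]
    exact ⟨by omega, by omega⟩

end Vale.Agent.P192.H291
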