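import Vale.Agent.P192.H291.TrMain

set_option linter.all false

/-! Products of two trees with arbitrary rules on a thin set. -/

namespace Vale.Agent.P192.H291

open Vale.Agent.P192 Vale.Agent.P192.H593 Vale.Agent.P192.H437 Vale.Agent.P192.H567

/-- nearby points of a product of two sets with actions of a free group -/
def TNr (q : ℕ) {U V : Type} [MulAction (FreeGroup (Fin q)) U] [MulAction (FreeGroup (Fin q)) V]
    (t : ℕ) (p p' : U × V) : Prop :=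
  ∃ x y : FreeGroup (Fin q), x.norm ≤ t ∧ y.norm ≤ t ∧ x • p.1 = p'.1 ∧ y • p.2 = p'.2

section

variable {q : ℕ} {U V : Type} [MulAction (FreeGroup (Fin q)) U] [MulAction (FreeGroup (Fin q)) V]

theorem TNr.trans {t t' : ℕ} {p p' p'' : U × V} (h : TNr q t p p') (h' : TNr q t' p' p'') :
    TNr q (t + t') p p'' := by
  obtain ⟨x, y, h1, h2, h3, h4⟩ := h
  obtain ⟨x', y', h5, h6, h7, h8⟩ := h'
  refine ⟨x' * x, y' * y, ?_, ?_, ?_, ?_⟩
  · have := FreeGroup.norm_mul_le x' x; omega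
  · have := FreeGroup.norm_mul_le y' y; omega
  · rw [mul_smul, h3, h7]
  · rw [mul_smul, h4, h8]

theorem TNr.symm {t : ℕ} {p p' : U × V} (h : TNr q t p p') : TNr q t p' p := by
  obtain ⟨x, y, h1, h2, h3, h4⟩ := h
  refine ⟨x⁻¹, y⁻¹, ?_, ?_, ?_, ?_⟩
  · rw [FreeGroup.norm_inv_eq]; exact h1
  · rw [FreeGroup.norm_inv_eq]; exact h2
  · rw [← h3, inv_smul_smul]
  · rw [← h4, inv_smul_smul]

theorem TNr.mono {t t' : ℕ} {p p' : U × V} (h : TNr q t p p') (ht : t ≤ t') : TNr q t' p p' := by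
  obtain ⟨x, y, h1, h2, h3, h4⟩ := h
  exact ⟨x, y, h1.trans ht, h2.trans ht, h3, h4⟩

theorem TNr.refl (t : ℕ) (p : U × V) : TNr q t p p :=
  ⟨1, 1, by simp, by simp, one_smul _ _, one_smul _ _⟩

theorem t_word_disp {G : Type} [Group G] {M : ℕ} (σ : Fin M → G) {Q : Type} {c : ℕ}
    (ρ : G →* Equiv.Perm (Q × U × V)) (h : ∀ l x, TNr q c x.2 (ρ (gen σ l) x).2) (w : List G)
    (hw : ∀ s ∈ w, s ∈ Set.range σ ∨ s⁻¹ ∈ Set.range σ) (x : Q × U × V) :
    TNr q (c * w.length) x.2 (ρ w.prod x).2 := by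
  induction w with
  | nil =>
    rw [List.prod_nil, map_one]
    exact TNr.refl _ _
  | cons s w ih =>
    have h1 := ih (fun t ht => hw t (by simp [ht]))
    obtain ⟨l, hl⟩ : ∃ l, s = gen σ l := by
      rcases hw s (by simp) with ⟨i, hi⟩ | ⟨i, hi⟩
      · exact ⟨(i, true), hi.symm⟩
      · refine ⟨(i, false), ?_⟩
        show s = (σ i)⁻¹
        rw [hi, inv_inv]
    rw [List.prod_cons, map_mul, Equiv.Perm.mul_apply, hl]
    refine (h1.trans (h l (ρ w.prod x))).mono ?_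
    rw [List.length_cons, mul_add, mul_one]

theorem t_box_card (Q : Type) [Finite Q] (n R : ℕ) (hQ : Nat.card Q ≤ n) (p : U × V) :
    {x : Q × U × V | TNr q R p x.2}.encard ≤
      ((n * (Nat.card {g : FreeGroup (Fin q) // g.norm ≤ R} *
        Nat.card {g : FreeGroup (Fin q) // g.norm ≤ R}) : ℕ) : ℕ∞) := by
  classical
  haveI : Finite {g : FreeGroup (Fin q) // g.norm ≤ R} := norm_ball_finite q R
  have h1 : {x : Q × U × V | TNr q R p x.2} ⊆
      Set.range (fun y : Q × {g : FreeGroup (Fin q) // g.norm ≤ R} ×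
        {g : FreeGroup (Fin q) // g.norm ≤ R} => ((y.1, y.2.1.1 • p.1, y.2.2.1 • p.2) :
          Q × U × V)) := by
    rintro ⟨i, u, v⟩ ⟨x, y, h1, h2, h3, h4⟩
    exact ⟨(i, ⟨x, h1⟩, ⟨y, h2⟩), Prod.ext rfl (Prod.ext h3 h4)⟩
  refine (Set.encard_le_encard h1).trans ?_
  rw [← Set.image_univ]
  refine (Set.encard_image_le _ _).trans ?_
  rw [Set.encard_univ, ENat.card_eq_coe_natCard, Nat.card_prod, Nat.card_prod]
  exact_mod_cast Nat.mul_le_mul_right _ hQ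

end

/-- products of two trees with arbitrary rules on a thin set -/
theorem tree_defects (G : Type) [Group G] [Group.IsFinitelyPresented G] (hG : IsMulTorsion G)
    (S : Set G) (hS : Subgroup.closure S = ⊤) (q n m c : ℕ) (μ : ℕ → ℕ) :
    ∃ N : Subgroup G, N.Normal ∧ N.FiniteIndex ∧ ∀ (Q U V : Type) [Finite Q]
      [MulAction (FreeGroup (Fin q)) U] [MulAction (FreeGroup (Fin q)) V], Nat.card Q ≤ n →
      (∀ (x : FreeGroup (Fin q)) (u : U), x • u = u → x = 1) →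
      (∀ (x : FreeGroup (Fin q)) (v : V), x • v = v → x = 1) →
      ∀ D : Set (U × V), (∀ t : ℕ, ∃ C : Set (U × V), ∀ p, {p' | Relation.ReflTransGen
        (fun x y => x ∈ D ∧ y ∈ D ∧ (x ∈ C ↔ y ∈ C) ∧ TNr q t x y) p p'}.encard ≤ μ t) →
      ∀ ρ : G →* Equiv.Perm (Q × U × V),
      (∀ g, (g ∈ S ∨ g⁻¹ ∈ S) → (∀ x, TNr q c x.2 (ρ g x).2) ∧
        ∃ (b₁ : U → Fin m) (b₂ : V → Fin m)
          (f : Q → Fin m → Fin m → Q × FreeGroup (Fin q) × FreeGroup (Fin q)),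
          (∀ i α β, (f i α β).2.1.norm ≤ c ∧ (f i α β).2.2.norm ≤ c) ∧
          ∀ i u v, (u, v) ∉ D → ρ g (i, u, v) = ((f i (b₁ u) (b₂ v)).1,
            (f i (b₁ u) (b₂ v)).2.1 • u, (f i (b₁ u) (b₂ v)).2.2 • v)) →
      ∀ g ∈ N, ρ g = 1 := by
  classical
  obtain ⟨MM, σ, hσS, hσ, -⟩ := exists_tuple G S hS
  let Λ : Type := Fin MM × Bool
  let ε : (Λ → Fin m) ≃ Fin (Nat.card (Λ → Fin m)) := Finite.equivFin _
  obtain ⟨R, N₁, hN₁1, hN₁2, hN₁3⟩ := tree_loc G hG σ hσ q n (Nat.card (Λ → Fin m)) c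
  obtain ⟨R₂, hR₂⟩ := thin_abs G hG (Set.range σ) hσ
  obtain ⟨N₂, hN₂1, hN₂2, hN₂3⟩ := hR₂ (μ (R + c * R₂ + R) *
    (n * (Nat.card {g : FreeGroup (Fin q) // g.norm ≤ R} *
        Nat.card {g : FreeGroup (Fin q) // g.norm ≤ R})))
  refine ⟨N₁ ⊓ N₂, inferInstance, inferInstance, ?_⟩
  intro Q U V _ _ _ hQ hU hV D hD ρ hρ g hg
  have hρ1 : ∀ l x, TNr q c x.2 (ρ (gen σ l) x).2 := fun l x =>
    (hρ (gen σ l) (gen_mem σ S hσS l)).1 x
  choose b₁ b₂ f hf hact using fun l => (hρ (gen σ l) (gen_mem σ S hσS l)).2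
  let H : Set (Q × U × V) := {x | ∀ p ∈ D, ¬ TNr q R x.2 p}
  have hH : ∀ x ∈ H, ∀ g ∈ N₁, ρ g x = x := by
    rintro ⟨i₀, u₀, v₀⟩ hx₀ g hg
    have h1 := hN₁3 Q hQ (fun x => ε (fun l => b₁ l (x • u₀))) (fun y => ε (fun l => b₂ l (y • v₀)))
      (fun l i α β => f l i (ε.symm α l) (ε.symm β l)) (fun l i α β => hf l i _ _)
      (Q × U × V) ρ (fun p => (p.1, p.2.1 • u₀, p.2.2 • v₀)) ?_ ?_ i₀ g hg
    · have h2 : ρ g (i₀, (1 : FreeGroup (Fin q)) • u₀, (1 : FreeGroup (Fin q)) • v₀) =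
        (i₀, (1 : FreeGroup (Fin q)) • u₀, (1 : FreeGroup (Fin q)) • v₀) := h1
      rwa [one_smul, one_smul] at h2
    · intro l i x y hx hy
      have h3 : (x • u₀, y • v₀) ∉ D := fun h => hx₀ _ h ⟨x, y, hx, hy, rfl, rfl⟩
      show ρ (gen σ l) (i, x • u₀, y • v₀) = _
      rw [hact l i _ _ h3]
      simp only [Equiv.symm_apply_apply, mul_smul]
    · rintro ⟨i, x, y⟩ ⟨i', x', y'⟩ - - h
      have h3 : i = i' := congrArg Prod.fst h
      have h4 : x • u₀ = x' • u₀ := congrArg (fun p : Q × U × V => p.2.1) h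
      have h5 : y • v₀ = y' • v₀ := congrArg (fun p : Q × U × V => p.2.2) h
      have h6 : x = x' := by
        have := hU (x'⁻¹ * x) u₀ (by rw [mul_smul, h4, inv_smul_smul])
        exact (inv_mul_eq_one.1 this).symm
      have h7 : y = y' := by
        have := hV (y'⁻¹ * y) v₀ (by rw [mul_smul, h5, inv_smul_smul])
        exact (inv_mul_eq_one.1 this).symm
      rw [h3, h6, h7]
  obtain ⟨C, hC⟩ := hD (R + c * R₂ + R)
  have hnear : ∀ x : Q × U × V, ∃ p : U × V, x ∉ H → p ∈ D ∧ TNr q R x.2 p := by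
    intro x
    by_cases hx : x ∈ H
    · exact ⟨x.2, fun h => absurd hx h⟩
    · have hx' : ∃ p ∈ D, TNr q R x.2 p := by
        by_contra hno
        push Not at hno
        exact hx hno
      obtain ⟨p, h1, h2⟩ := hx'
      exact ⟨p, fun _ => ⟨h1, h2⟩⟩
  choose π hπ using hnear
  refine hN₂3 (Q × U × V) ρ N₁ hN₁1 H {x | π x ∈ C} hH ?_ g hg
  intro x hx
  have key : ∀ y, Relation.ReflTransGen (fun a b => b ∉ H ∧ (a ∈ {x | π x ∈ C} ↔
      b ∈ {x | π x ∈ C}) ∧ ∃ w : List G, (∀ s ∈ w, s ∈ Set.range σ ∨ s⁻¹ ∈ Set.range σ) ∧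
        w.length ≤ R₂ ∧ ρ w.prod a = b) x y → y ∉ H ∧ Relation.ReflTransGen (fun x y => x ∈ D ∧
          y ∈ D ∧ (x ∈ C ↔ y ∈ C) ∧ TNr q (R + c * R₂ + R) x y) (π x) (π y) := by
    intro y hy
    induction hy with
    | refl => exact ⟨hx, Relation.ReflTransGen.refl⟩
    | @tail a b _ hab ih =>
      obtain ⟨h1, h2, w, hw1, hw2, hw3⟩ := hab
      refine ⟨h1, ih.2.tail ⟨(hπ a ih.1).1, (hπ b h1).1, h2, ?_⟩⟩
      have h5 := t_word_disp σ ρ hρ1 w hw1 a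
      rw [hw3] at h5
      exact ((hπ a ih.1).2.symm.trans (h5.mono (Nat.mul_le_mul_left c hw2))).trans (hπ b h1).2
  have hsub : {y | Relation.ReflTransGen (fun a b => b ∉ H ∧ (a ∈ {x | π x ∈ C} ↔
      b ∈ {x | π x ∈ C}) ∧ ∃ w : List G, (∀ s ∈ w, s ∈ Set.range σ ∨ s⁻¹ ∈ Set.range σ) ∧
        w.length ≤ R₂ ∧ ρ w.prod a = b) x y} ⊆ ⋃ d ∈ {p' | Relation.ReflTransGen (fun x y =>
          x ∈ D ∧ y ∈ D ∧ (x ∈ C ↔ y ∈ C) ∧ TNr q (R + c * R₂ + R) x y)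
            (π x) p'}, {y : Q × U × V | TNr q R d y.2} := by
    intro y hy
    obtain ⟨h1, h2⟩ := key y hy
    exact Set.mem_biUnion h2 (hπ y h1).2.symm
  refine (Set.encard_le_encard hsub).trans ?_
  exact H630.biUnion_le _ _ _ _ (hC (π x)) (fun d _ => t_box_card Q n R hQ d)

end Vale.Agent.P192.H291
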