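import Vale.Agent.P192.H291.TrThin

set_option linter.all false

/-! Two heads on a common tree. -/

namespace Vale.Agent.P192.H291

open Vale.Agent.P192 Vale.Agent.P192.H593 Vale.Agent.P192.H437 Vale.Agent.P192.H567

/-- coordinates on a free set -/
theorem free_coord {F V : Type} [Group F] [MulAction F V] (hV : ∀ (x : F) (v : V), x • v = v → x = 1) :
    ∃ (κ : V → F) (rep : V → V), (∀ v, κ v • rep v = v) ∧ (∀ (x : F) v, rep (x • v) = rep v) ∧
      ∀ (x : F) v, κ (x • v) = x * κ v := by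
  classical
  let rep : V → V := fun v => Quotient.out (s := MulAction.orbitRel F V) (Quotient.mk _ v)
  have h1 : ∀ v, ∃ x : F, x • rep v = v := by
    intro v
    have h2 : (MulAction.orbitRel F V).r (rep v) v := Quotient.exact (Quotient.out_eq _)
    obtain ⟨y, hy⟩ : rep v ∈ MulAction.orbit F v := h2
    have hy' : y • v = rep v := hy
    exact ⟨y⁻¹, by rw [← hy', inv_smul_smul]⟩
  have h3 : ∀ (x : F) v, rep (x • v) = rep v := by
    intro x v
    have h4 : (Quotient.mk (MulAction.orbitRel F V) (x • v)) = Quotient.mk _ v :=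
      Quotient.sound ⟨x, rfl⟩
    show Quotient.out (s := MulAction.orbitRel F V) (Quotient.mk _ (x • v)) = _
    rw [h4]
  choose κ hκ using h1
  refine ⟨κ, rep, hκ, h3, fun x v => ?_⟩
  have h5 : κ (x • v) • rep v = (x * κ v) • rep v := by
    rw [mul_smul, hκ, ← h3 x v, hκ]
  have h6 := hV ((x * κ v)⁻¹ * κ (x • v)) (rep v) (by rw [mul_smul, h5, inv_smul_smul])
  exact (inv_mul_eq_one.1 h6).symm

theorem diag_thin (q r : ℕ) : ∃ μ : ℕ → ℕ, ∀ (V : Type) [MulAction (FreeGroup (Fin q)) V],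
    (∀ (x : FreeGroup (Fin q)) (v : V), x • v = v → x = 1) → ∀ t : ℕ, ∃ C : Set (V × V), ∀ p,
      {p' | Relation.ReflTransGen (fun x y =>
        x ∈ {p : V × V | ∃ x : FreeGroup (Fin q), x.norm ≤ r ∧ x • p.1 = p.2} ∧
        y ∈ {p : V × V | ∃ x : FreeGroup (Fin q), x.norm ≤ r ∧ x • p.1 = p.2} ∧
        (x ∈ C ↔ y ∈ C) ∧ TNr q t x y) p p'}.encard ≤ μ t := by
  classical
  choose mt Ct hCt using ad_free (Fin q)
  haveI : Finite {g : FreeGroup (Fin q) // g.norm ≤ r} := norm_ball_finite q r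
  refine ⟨fun t => 1 + mt t * Nat.card {g : FreeGroup (Fin q) // g.norm ≤ r}, ?_⟩
  intro V _ hV t
  obtain ⟨κ, rep, hκ, hrep, hκx⟩ := free_coord hV
  refine ⟨{p | κ p.1 ∈ Ct t}, fun p => ?_⟩
  have key : ∀ p', Relation.ReflTransGen (fun x y =>
        x ∈ {p : V × V | ∃ x : FreeGroup (Fin q), x.norm ≤ r ∧ x • p.1 = p.2} ∧
        y ∈ {p : V × V | ∃ x : FreeGroup (Fin q), x.norm ≤ r ∧ x • p.1 = p.2} ∧
        (x ∈ {p | κ p.1 ∈ Ct t} ↔ y ∈ {p | κ p.1 ∈ Ct t}) ∧ TNr q t x y) p p' →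
      rep p'.1 = rep p.1 ∧ Relation.ReflTransGen (fun a b => (a ∈ Ct t ↔ b ∈ Ct t) ∧
        ∃ e : FreeGroup (Fin q), e.norm ≤ t ∧ b = e * a) (κ p.1) (κ p'.1) ∧
        (p' = p ∨ ∃ x : FreeGroup (Fin q), x.norm ≤ r ∧ x • p'.1 = p'.2) := by
    intro p' h
    induction h with
    | refl => exact ⟨rfl, Relation.ReflTransGen.refl, Or.inl rfl⟩
    | @tail a b _ hab ih =>
      obtain ⟨h1, h2, h3, x, y, h4, h5, h6, h7⟩ := hab
      refine ⟨?_, ih.2.1.tail ⟨h3, x, h4, ?_⟩, Or.inr h2⟩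
      · rw [← h6, hrep]; exact ih.1
      · rw [← h6, hκx]
  have hsub : {p' | Relation.ReflTransGen (fun x y =>
        x ∈ {p : V × V | ∃ x : FreeGroup (Fin q), x.norm ≤ r ∧ x • p.1 = p.2} ∧
        y ∈ {p : V × V | ∃ x : FreeGroup (Fin q), x.norm ≤ r ∧ x • p.1 = p.2} ∧
        (x ∈ {p | κ p.1 ∈ Ct t} ↔ y ∈ {p | κ p.1 ∈ Ct t}) ∧ TNr q t x y) p p'} ⊆
      {p} ∪ ⋃ y ∈ {y | Relation.ReflTransGen (fun a b => (a ∈ Ct t ↔ b ∈ Ct t) ∧
        ∃ e : FreeGroup (Fin q), e.norm ≤ t ∧ b = e * a) (κ p.1) y},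
        (Set.range fun z : {g : FreeGroup (Fin q) // g.norm ≤ r} =>
          ((y • rep p.1, z.1 • y • rep p.1) : V × V)) := by
    intro p' hp'
    obtain ⟨h1, h2, h3⟩ := key p' hp'
    rcases h3 with rfl | ⟨x, h4, h5⟩
    · exact Or.inl rfl
    · right
      refine Set.mem_biUnion h2 ⟨⟨x, h4⟩, ?_⟩
      have h6 : κ p'.1 • rep p.1 = p'.1 := by rw [← h1, hκ]
      show (κ p'.1 • rep p.1, x • κ p'.1 • rep p.1) = p'
      rw [h6, h5]
  refine (Set.encard_le_encard hsub).trans ((Set.encard_union_le _ _).trans ?_)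
  rw [Set.encard_singleton]
  have h8 := H630.biUnion_le _ (fun y => Set.range fun z : {g : FreeGroup (Fin q) // g.norm ≤ r} =>
    ((y • rep p.1, z.1 • y • rep p.1) : V × V)) (mt t)
    (Nat.card {g : FreeGroup (Fin q) // g.norm ≤ r}) (hCt t (κ p.1)) (fun y _ => by
      rw [← Set.image_univ]
      refine (Set.encard_image_le _ _).trans ?_
      rw [Set.encard_univ, ENat.card_eq_coe_natCard])
  refine (add_le_add le_rfl h8).trans ?_
  exact_mod_cast le_rfl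

/-- two heads on a common tree with arbitrary rules if they are close to each other -/
theorem two_heads (G : Type) [Group G] [Group.IsFinitelyPresented G] (hG : IsMulTorsion G)
    (S : Set G) (hS : Subgroup.closure S = ⊤) (q n m c r : ℕ) :
    ∃ N : Subgroup G, N.Normal ∧ N.FiniteIndex ∧ ∀ (Q V : Type) [Finite Q]
      [MulAction (FreeGroup (Fin q)) V], Nat.card Q ≤ n →
      (∀ (x : FreeGroup (Fin q)) (v : V), x • v = v → x = 1) →
      ∀ ρ : G →* Equiv.Perm (Q × V × V),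
      (∀ g, (g ∈ S ∨ g⁻¹ ∈ S) → ∃ (b₁ b₂ : V → Fin m)
          (f : Q → Fin m → Fin m → Q × FreeGroup (Fin q) × FreeGroup (Fin q)),
          (∀ i α β, (f i α β).2.1.norm ≤ c ∧ (f i α β).2.2.norm ≤ c) ∧
          ∀ i u v, ((∃ x : FreeGroup (Fin q), x.norm ≤ r ∧ x • u = v) →
            ∃ x y : FreeGroup (Fin q), x.norm ≤ c ∧ y.norm ≤ c ∧
              (ρ g (i, u, v)).2 = (x • u, y • v)) ∧
          ((∀ x : FreeGroup (Fin q), x.norm ≤ r → x • u ≠ v) →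
            ρ g (i, u, v) = ((f i (b₁ u) (b₂ v)).1,
            (f i (b₁ u) (b₂ v)).2.1 • u, (f i (b₁ u) (b₂ v)).2.2 • v))) →
      ∀ g ∈ N, ρ g = 1 := by
  obtain ⟨μ, hμ⟩ := diag_thin q r
  obtain ⟨N, h1, h2, h3⟩ := tree_defects G hG S hS q n m c μ
  refine ⟨N, h1, h2, ?_⟩
  intro Q V _ _ hQ hV ρ hρ
  refine h3 Q V V hQ hV hV {p : V × V | ∃ x : FreeGroup (Fin q), x.norm ≤ r ∧ x • p.1 = p.2}
    (hμ V hV) ρ ?_
  intro g hg
  obtain ⟨b₁, b₂, f, hf, hact⟩ := hρ g hg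
  have hfar : ∀ u v : V, ¬ (∃ x : FreeGroup (Fin q), x.norm ≤ r ∧ x • u = v) →
      ∀ x : FreeGroup (Fin q), x.norm ≤ r → x • u ≠ v := fun u v h x hx hxv => h ⟨x, hx, hxv⟩
  refine ⟨?_, b₁, b₂, f, hf, fun i u v h => (hact i u v).2 (hfar u v h)⟩
  rintro ⟨i, u, v⟩
  by_cases h : ∃ x : FreeGroup (Fin q), x.norm ≤ r ∧ x • u = v
  · obtain ⟨x, y, h4, h5, h6⟩ := (hact i u v).1 h
    exact ⟨x, y, h4, h5, (congrArg Prod.fst h6).symm, (congrArg Prod.snd h6).symm⟩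
  · have h4 := (hact i u v).2 (hfar u v h)
    rw [h4]
    exact ⟨_, _, (hf i (b₁ u) (b₂ v)).1, (hf i (b₁ u) (b₂ v)).2, rfl, rfl⟩

end Vale.Agent.P192.H291
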