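import Vale.Agent.P192.H291.TrTwo

set_option linter.all false

/-! Products of two trees and two heads on a common tree: virtually free groups. -/

namespace Vale.Agent.P192.H291

open Vale.Agent.P192 Vale.Agent.P192.H593 Vale.Agent.P192.H437 Vale.Agent.P192.H567

section

variable {M : Type} [Group M] (Γ : Subgroup M)

theorem out_mem (x : M) : ((QuotientGroup.mk x : M ⧸ Γ).out)⁻¹ * x ∈ Γ := by
  have h1 : (QuotientGroup.mk ((QuotientGroup.mk x : M ⧸ Γ).out) : M ⧸ Γ) = QuotientGroup.mk x :=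
    Quotient.out_eq _
  exact QuotientGroup.eq.1 h1

/-- the part in the subgroup of a step -/
noncomputable def gam {k : ℕ} (e : Γ ≃* FreeGroup (Fin k)) (x : M) (i : M ⧸ Γ) :
    FreeGroup (Fin k) :=
  e ⟨((QuotientGroup.mk (x * i.out) : M ⧸ Γ).out)⁻¹ * (x * i.out), out_mem Γ _⟩

/-- a free set over a group with a free subgroup, as a free set over the subgroup with states -/
theorem split_free {k : ℕ} (e : Γ ≃* FreeGroup (Fin k)) (V : Type) [MulAction M V]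
    (hV : ∀ (x : M) (v : V), x • v = v → x = 1) :
    ∃ (V₀ : Type) (_ : MulAction (FreeGroup (Fin k)) V₀) (base : V₀ → V)
      (β : (M ⧸ Γ) × V₀ ≃ V), (∀ (x : FreeGroup (Fin k)) (v : V₀), x • v = v → x = 1) ∧
      (∀ i v, β (i, v) = i.out • base v) ∧
      (∀ (z : FreeGroup (Fin k)) v, base (z • v) = ((e.symm z : Γ) : M) • base v) ∧
      ∀ (x : M) i v, x • β (i, v) = β (QuotientGroup.mk (x * i.out), gam Γ e x i • v) := by
  classical
  obtain ⟨κ, rep, hκ, hrep, hκx⟩ := free_coord hV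
  let V₀ : Type := {v : V // κ v ∈ Γ}
  letI act : MulAction (FreeGroup (Fin k)) V₀ :=
    { smul := fun z v => ⟨((e.symm z : Γ) : M) • v.1, by
        rw [hκx]; exact Γ.mul_mem (e.symm z).2 v.2⟩
      one_smul := fun v => Subtype.ext (by
        show ((e.symm 1 : Γ) : M) • v.1 = v.1
        rw [map_one]; exact one_smul _ _)
      mul_smul := fun z z' v => Subtype.ext (by
        show ((e.symm (z * z') : Γ) : M) • v.1 = ((e.symm z : Γ) : M) • ((e.symm z' : Γ) : M) • v.1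
        rw [map_mul, Subgroup.coe_mul, mul_smul]) }
  have hval : ∀ (z : FreeGroup (Fin k)) (v : V₀), (z • v).1 = ((e.symm z : Γ) : M) • v.1 :=
    fun _ _ => rfl
  have hbij : Function.Bijective (fun p : (M ⧸ Γ) × V₀ => p.1.out • p.2.1) := by
    constructor
    · rintro ⟨i, v⟩ ⟨j, w⟩ h
      have h1 : i.out • v.1 = j.out • w.1 := h
      have h2 : i.out * κ v.1 = j.out * κ w.1 := by rw [← hκx, ← hκx, h1]
      have h3 : (i.out)⁻¹ * j.out ∈ Γ := by
        have h4 : (i.out)⁻¹ * j.out = κ v.1 * (κ w.1)⁻¹ := by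
          rw [eq_mul_inv_iff_mul_eq, mul_assoc, ← h2, inv_mul_cancel_left]
        rw [h4]
        exact Γ.mul_mem v.2 (Γ.inv_mem w.2)
      have h5 : i = j := by
        have h6 : (QuotientGroup.mk (i.out) : M ⧸ Γ) = QuotientGroup.mk (j.out) :=
          QuotientGroup.eq.2 h3
        have h7 : (QuotientGroup.mk (i.out) : M ⧸ Γ) = i := Quotient.out_eq _
        have h8 : (QuotientGroup.mk (j.out) : M ⧸ Γ) = j := Quotient.out_eq _
        rw [← h7, ← h8, h6]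
      subst h5
      have h9 : v.1 = w.1 := by
        have := congrArg (fun y => (i.out)⁻¹ • y) h1
        simpa [inv_smul_smul] using this
      exact Prod.ext rfl (Subtype.ext h9)
    · intro v
      refine ⟨(QuotientGroup.mk (κ v), ⟨((QuotientGroup.mk (κ v) : M ⧸ Γ).out)⁻¹ • v, ?_⟩), ?_⟩
      · rw [hκx]; exact out_mem Γ _
      · exact smul_inv_smul _ _
  refine ⟨V₀, act, Subtype.val, Equiv.ofBijective _ hbij, ?_, fun i v => rfl,
    fun z v => rfl, ?_⟩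
  · intro x v h
    have h1 : ((e.symm x : Γ) : M) • v.1 = v.1 := congrArg Subtype.val h
    have h2 := hV _ _ h1
    have h3 : e.symm x = 1 := Subtype.ext h2
    have h4 := congrArg e h3
    rwa [MulEquiv.apply_symm_apply, map_one] at h4
  · intro x i v
    show x • i.out • v.1 = (QuotientGroup.mk (x * i.out) : M ⧸ Γ).out •
      ((e.symm (gam Γ e x i) : Γ) : M) • v.1
    unfold gam
    rw [MulEquiv.symm_apply_apply, ← mul_smul, ← mul_smul]
    show _ = ((QuotientGroup.mk (x * i.out) : M ⧸ Γ).out *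
      (((QuotientGroup.mk (x * i.out) : M ⧸ Γ).out)⁻¹ * (x * i.out))) • v.1
    rw [mul_inv_cancel_left]

end

/-- products of two free sets over a virtually free group with arbitrary rules on a thin set -/
theorem tree_defectsM (G : Type) [Group G] [Group.IsFinitelyPresented G] (hG : IsMulTorsion G)
    (S : Set G) (hS : Subgroup.closure S = ⊤) (M : Type) [Group M] (Γ : Subgroup M)
    [Γ.FiniteIndex] (k : ℕ) (e : Γ ≃* FreeGroup (Fin k)) (n m : ℕ) (K : Set M) (hK : K.Finite)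
    (μ : Set M → ℕ) :
    ∃ N : Subgroup G, N.Normal ∧ N.FiniteIndex ∧ ∀ (Q V W : Type) [Finite Q]
      [MulAction M V] [MulAction M W], Nat.card Q ≤ n →
      (∀ (x : M) (v : V), x • v = v → x = 1) → (∀ (x : M) (w : W), x • w = w → x = 1) →
      ∀ D : Set (V × W), (∀ E : Set M, E.Finite → ∃ C : Set (V × W), ∀ p,
        {p' | Relation.ReflTransGen (fun a b => a ∈ D ∧ b ∈ D ∧ (a ∈ C ↔ b ∈ C) ∧
          ∃ x ∈ E, ∃ y ∈ E, x • a.1 = b.1 ∧ y • a.2 = b.2) p p'}.encard ≤ μ E) →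
      ∀ ρ : G →* Equiv.Perm (Q × V × W),
      (∀ g, (g ∈ S ∨ g⁻¹ ∈ S) →
        (∀ a, ∃ x ∈ K, ∃ y ∈ K, x • a.2.1 = (ρ g a).2.1 ∧ y • a.2.2 = (ρ g a).2.2) ∧
        ∃ (b₁ : V → Fin m) (b₂ : W → Fin m) (f : Q → Fin m → Fin m → Q × M × M),
          (∀ i α β, (f i α β).2.1 ∈ K ∧ (f i α β).2.2 ∈ K) ∧
          ∀ i v w, (v, w) ∉ D → ρ g (i, v, w) = ((f i (b₁ v) (b₂ w)).1,
            (f i (b₁ v) (b₂ w)).2.1 • v, (f i (b₁ v) (b₂ w)).2.2 • w)) →
      ∀ g ∈ N, ρ g = 1 := by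
  classical
  let I : Type := M ⧸ Γ
  haveI hI : Finite I := inferInstance
  obtain ⟨c, hc⟩ : ∃ c : ℕ, ∀ x ∈ K, ∀ i : I, (gam Γ e x i).norm ≤ c := by
    have hfin : (Set.image2 (fun (x : M) (i : I) => (gam Γ e x i).norm) K Set.univ).Finite :=
      hK.image2 _ Set.finite_univ
    obtain ⟨c, hc⟩ := hfin.bddAbove
    exact ⟨c, fun x hx i => hc ⟨x, hx, i, trivial, rfl⟩⟩
  let Et : ℕ → Set M := fun t => Set.image2 (fun (ij : I × I) (z : FreeGroup (Fin k)) =>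
    ij.2.out * ((e.symm z : Γ) : M) * (ij.1.out)⁻¹) Set.univ {z | z.norm ≤ t}
  have hEt : ∀ t, (Et t).Finite := by
    intro t
    haveI : Finite {z : FreeGroup (Fin k) // z.norm ≤ t} := norm_ball_finite k t
    have h1 : Set.Finite {z : FreeGroup (Fin k) | z.norm ≤ t} := this
    exact Set.finite_univ.image2 _ h1
  let X : Type := I → Fin m
  let ε : X ≃ Fin (Nat.card X) := Finite.equivFin X
  obtain ⟨N, h1, h2, h3⟩ := tree_defects G hG S hS k (n * (Nat.card I * Nat.card I))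
    (Nat.card X) c (fun t => 1 + μ (Et t))
  refine ⟨N, h1, h2, ?_⟩
  intro Q V W _ _ _ hQ hV hW D hD ρ hρ g hg
  obtain ⟨V₀, _, baseV, βV, fV, bV, eV, sV⟩ := split_free Γ e V hV
  obtain ⟨W₀, _, baseW, βW, fW, bW, eW, sW⟩ := split_free Γ e W hW
  let EE : Q × V × W ≃ (Q × I × I) × V₀ × W₀ :=
    { toFun := fun a => ((a.1, (βV.symm a.2.1).1, (βW.symm a.2.2).1),
        (βV.symm a.2.1).2, (βW.symm a.2.2).2)
      invFun := fun a => (a.1.1, βV (a.1.2.1, a.2.1), βW (a.1.2.2, a.2.2))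
      left_inv := by
        rintro ⟨i, v, w⟩
        show (i, βV (βV.symm v), βW (βW.symm w)) = _
        rw [Equiv.apply_symm_apply, Equiv.apply_symm_apply]
      right_inv := by
        rintro ⟨⟨i, j, j'⟩, v, w⟩
        simp }
  obtain ⟨ρ', h4, h5⟩ := exists_conj EE ρ
  apply h5
  have hEE : ∀ i j j' v w, EE (i, βV (j, v), βW (j', w)) = ((i, j, j'), v, w) := by
    intro i j j' v w
    show ((i, (βV.symm (βV (j, v))).1, (βW.symm (βW (j', w))).1),
      (βV.symm (βV (j, v))).2, (βW.symm (βW (j', w))).2) = _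
    rw [Equiv.symm_apply_apply, Equiv.symm_apply_apply]
  refine h3 (Q × I × I) V₀ W₀ ?_ fV fW
    {p | ∃ i j, (βV (i, p.1), βW (j, p.2)) ∈ D} ?_ ρ' ?_ g hg
  · rw [Nat.card_prod, Nat.card_prod]
    exact Nat.mul_le_mul_right _ hQ
  · -- the set is thin
    intro t
    obtain ⟨C, hC⟩ := hD (Et t) (hEt t)
    have hπ : ∀ p : V₀ × W₀, ∃ d : V × W, (∃ i j, (βV (i, p.1), βW (j, p.2)) ∈ D) →
        d ∈ D ∧ ∃ i j, d = (βV (i, p.1), βW (j, p.2)) := by
      intro p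
      by_cases h : ∃ i j, (βV (i, p.1), βW (j, p.2)) ∈ D
      · obtain ⟨i, j, hij⟩ := h
        exact ⟨_, fun _ => ⟨hij, i, j, rfl⟩⟩
      · exact ⟨(βV (QuotientGroup.mk 1, p.1), βW (QuotientGroup.mk 1, p.2)),
          fun h' => absurd h' h⟩
    choose π hπ using hπ
    refine ⟨{p | π p ∈ C}, fun p => ?_⟩
    have key : ∀ p', Relation.ReflTransGen (fun a b =>
        a ∈ {p : V₀ × W₀ | ∃ i j, (βV (i, p.1), βW (j, p.2)) ∈ D} ∧
        b ∈ {p : V₀ × W₀ | ∃ i j, (βV (i, p.1), βW (j, p.2)) ∈ D} ∧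
        (a ∈ {p | π p ∈ C} ↔ b ∈ {p | π p ∈ C}) ∧ TNr k t a b) p p' → p' = p ∨
        ((∃ i j, (βV (i, p'.1), βW (j, p'.2)) ∈ D) ∧ Relation.ReflTransGen (fun a b =>
          a ∈ D ∧ b ∈ D ∧ (a ∈ C ↔ b ∈ C) ∧ ∃ x ∈ Et t, ∃ y ∈ Et t,
            x • a.1 = b.1 ∧ y • a.2 = b.2) (π p) (π p')) := by
      intro p' h
      induction h with
      | refl => exact Or.inl rfl
      | @tail a b _ hab ih =>
        obtain ⟨ha, hb, hab2, x, y, hx, hy, hxa, hya⟩ := hab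
        right
        refine ⟨hb, ?_⟩
        have hstep : π a ∈ D ∧ π b ∈ D ∧ (π a ∈ C ↔ π b ∈ C) ∧ ∃ x ∈ Et t, ∃ y ∈ Et t,
            x • (π a).1 = (π b).1 ∧ y • (π a).2 = (π b).2 := by
          obtain ⟨h6, i, j, h7⟩ := hπ a ha
          obtain ⟨h8, i', j', h9⟩ := hπ b hb
          refine ⟨h6, h8, hab2, i'.out * ((e.symm x : Γ) : M) * (i.out)⁻¹,
            ⟨(i, i'), trivial, x, hx, rfl⟩, j'.out * ((e.symm y : Γ) : M) * (j.out)⁻¹,
            ⟨(j, j'), trivial, y, hy, rfl⟩, ?_, ?_⟩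
          · rw [h7, h9]
            show _ • βV (i, a.1) = βV (i', b.1)
            rw [bV, bV, ← hxa, eV, mul_smul, mul_smul, inv_smul_smul]
          · rw [h7, h9]
            show _ • βW (j, a.2) = βW (j', b.2)
            rw [bW, bW, ← hya, eW, mul_smul, mul_smul, inv_smul_smul]
        rcases ih with rfl | ih
        · exact Relation.ReflTransGen.single hstep
        · exact ih.2.tail hstep
    have hsub : {p' | Relation.ReflTransGen (fun a b =>
        a ∈ {p : V₀ × W₀ | ∃ i j, (βV (i, p.1), βW (j, p.2)) ∈ D} ∧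
        b ∈ {p : V₀ × W₀ | ∃ i j, (βV (i, p.1), βW (j, p.2)) ∈ D} ∧
        (a ∈ {p | π p ∈ C} ↔ b ∈ {p | π p ∈ C}) ∧ TNr k t a b) p p'} ⊆ {p} ∪
        (fun d : V × W => ((βV.symm d.1).2, (βW.symm d.2).2)) ''
          {d | Relation.ReflTransGen (fun a b =>
            a ∈ D ∧ b ∈ D ∧ (a ∈ C ↔ b ∈ C) ∧ ∃ x ∈ Et t, ∃ y ∈ Et t,
            x • a.1 = b.1 ∧ y • a.2 = b.2) (π p) d} := by
      intro p' hp'
      rcases key p' hp' with rfl | ⟨h6, h7⟩
      · exact Or.inl rfl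
      · right
        obtain ⟨-, i, j, h9⟩ := hπ p' h6
        refine ⟨π p', h7, ?_⟩
        show ((βV.symm (π p').1).2, (βW.symm (π p').2).2) = p'
        rw [h9]
        show ((βV.symm (βV (i, p'.1))).2, (βW.symm (βW (j, p'.2))).2) = p'
        rw [Equiv.symm_apply_apply, Equiv.symm_apply_apply]
    refine (Set.encard_le_encard hsub).trans ((Set.encard_union_le _ _).trans ?_)
    rw [Set.encard_singleton]
    refine (add_le_add le_rfl ((Set.encard_image_le _ _).trans (hC (π p)))).trans ?_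
    exact_mod_cast le_rfl
  · -- the rules
    intro g hg
    obtain ⟨hdis, b₁, b₂, f, hf, hact⟩ := hρ g hg
    refine ⟨?_, fun v => ε (fun i => b₁ (βV (i, v))), fun w => ε (fun i => b₂ (βW (i, w))),
      fun s α β => (((f s.1 (ε.symm α s.2.1) (ε.symm β s.2.2)).1,
        QuotientGroup.mk ((f s.1 (ε.symm α s.2.1) (ε.symm β s.2.2)).2.1 * s.2.1.out),
        QuotientGroup.mk ((f s.1 (ε.symm α s.2.1) (ε.symm β s.2.2)).2.2 * s.2.2.out)),
        gam Γ e (f s.1 (ε.symm α s.2.1) (ε.symm β s.2.2)).2.1 s.2.1,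
        gam Γ e (f s.1 (ε.symm α s.2.1) (ε.symm β s.2.2)).2.2 s.2.2), ?_, ?_⟩
    · rintro ⟨⟨i, j, j'⟩, v, w⟩
      obtain ⟨x, hx, y, hy, h6, h7⟩ := hdis (i, βV (j, v), βW (j', w))
      refine ⟨gam Γ e x j, gam Γ e y j', hc x hx j, hc y hy j', ?_, ?_⟩
      · rw [← hEE, h4, hEE]
        show gam Γ e x j • v = (βV.symm (ρ g (i, βV (j, v), βW (j', w))).2.1).2
        rw [← h6]
        show _ = (βV.symm (x • βV (j, v))).2
        rw [sV, Equiv.symm_apply_apply]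
      · rw [← hEE, h4, hEE]
        show gam Γ e y j' • w = (βW.symm (ρ g (i, βV (j, v), βW (j', w))).2.2).2
        rw [← h7]
        show _ = (βW.symm (y • βW (j', w))).2
        rw [sW, Equiv.symm_apply_apply]
    · rintro ⟨i, j, j'⟩ α β
      exact ⟨hc _ (hf _ _ _).1 _, hc _ (hf _ _ _).2 _⟩
    · rintro ⟨i, j, j'⟩ v w hvw
      have h6 : (βV (j, v), βW (j', w)) ∉ D := fun h => hvw ⟨j, j', h⟩
      rw [← hEE, h4, hact i _ _ h6, sV, sW, hEE]
      simp only [Equiv.symm_apply_apply]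

/-- two heads on a common free set over a virtually free group -/
theorem two_headsM (G : Type) [Group G] [Group.IsFinitelyPresented G] (hG : IsMulTorsion G)
    (S : Set G) (hS : Subgroup.closure S = ⊤) (M : Type) [Group M] (Γ : Subgroup M)
    [Γ.FiniteIndex] (k : ℕ) (e : Γ ≃* FreeGroup (Fin k)) (n m : ℕ) (K B : Set M) (hK : K.Finite)
    (hB : B.Finite) :
    ∃ N : Subgroup G, N.Normal ∧ N.FiniteIndex ∧ ∀ (Q V : Type) [Finite Q]
      [MulAction M V], Nat.card Q ≤ n → (∀ (x : M) (v : V), x • v = v → x = 1) →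
      ∀ ρ : G →* Equiv.Perm (Q × V × V),
      (∀ g, (g ∈ S ∨ g⁻¹ ∈ S) → ∃ (b₁ b₂ : V → Fin m) (f : Q → Fin m → Fin m → Q × M × M),
        (∀ i α β, (f i α β).2.1 ∈ K ∧ (f i α β).2.2 ∈ K) ∧
        ∀ i v w, ((∃ x ∈ B, x • v = w) →
            ∃ x ∈ K, ∃ y ∈ K, (ρ g (i, v, w)).2 = (x • v, y • w)) ∧
          ((∀ x ∈ B, x • v ≠ w) → ρ g (i, v, w) = ((f i (b₁ v) (b₂ w)).1,
            (f i (b₁ v) (b₂ w)).2.1 • v, (f i (b₁ v) (b₂ w)).2.2 • w))) →
      ∀ g ∈ N, ρ g = 1 := by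
  classical
  have had : ∀ E : Set M, ∃ mt : ℕ, ∃ C : Set M, E.Finite → ∀ x : M,
      {y | Relation.ReflTransGen (fun a b => (a ∈ C ↔ b ∈ C) ∧ ∃ e ∈ E, b = e * a) x y}.encard
        ≤ mt := by
    intro E
    by_cases hE : E.Finite
    · obtain ⟨mt, C, h⟩ := ad_vfree M Γ k e E hE
      exact ⟨mt, C, fun _ => h⟩
    · exact ⟨0, ∅, fun h => absurd h hE⟩
  choose mt Ct hCt using had
  haveI : Finite B := hB
  obtain ⟨N, h1, h2, h3⟩ := tree_defectsM G hG S hS M Γ k e n m K hK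
    (fun E => 1 + mt E * Nat.card B)
  refine ⟨N, h1, h2, ?_⟩
  intro Q V _ _ hQ hV ρ hρ
  obtain ⟨κ, rep, hκ, hrep, hκx⟩ := free_coord hV
  refine h3 Q V V hQ hV hV {p : V × V | ∃ x ∈ B, x • p.1 = p.2} ?_ ρ ?_
  · intro E hE
    refine ⟨{p | κ p.1 ∈ Ct E}, fun p => ?_⟩
    have key : ∀ p', Relation.ReflTransGen (fun a b =>
        a ∈ {p : V × V | ∃ x ∈ B, x • p.1 = p.2} ∧ b ∈ {p : V × V | ∃ x ∈ B, x • p.1 = p.2} ∧
        (a ∈ {p | κ p.1 ∈ Ct E} ↔ b ∈ {p | κ p.1 ∈ Ct E}) ∧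
          ∃ x ∈ E, ∃ y ∈ E, x • a.1 = b.1 ∧ y • a.2 = b.2) p p' →
        rep p'.1 = rep p.1 ∧ Relation.ReflTransGen (fun a b => (a ∈ Ct E ↔ b ∈ Ct E) ∧
          ∃ e ∈ E, b = e * a) (κ p.1) (κ p'.1) ∧ (p' = p ∨ ∃ x ∈ B, x • p'.1 = p'.2) := by
      intro p' h
      induction h with
      | refl => exact ⟨rfl, Relation.ReflTransGen.refl, Or.inl rfl⟩
      | @tail a b _ hab ih =>
        obtain ⟨h1, h2, h3, x, hx, y, hy, h6, h7⟩ := hab
        refine ⟨?_, ih.2.1.tail ⟨h3, x, hx, ?_⟩, Or.inr h2⟩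
        · rw [← h6, hrep]; exact ih.1
        · rw [← h6, hκx]
    have hsub : {p' | Relation.ReflTransGen (fun a b =>
        a ∈ {p : V × V | ∃ x ∈ B, x • p.1 = p.2} ∧ b ∈ {p : V × V | ∃ x ∈ B, x • p.1 = p.2} ∧
        (a ∈ {p | κ p.1 ∈ Ct E} ↔ b ∈ {p | κ p.1 ∈ Ct E}) ∧
          ∃ x ∈ E, ∃ y ∈ E, x • a.1 = b.1 ∧ y • a.2 = b.2) p p'} ⊆
        {p} ∪ ⋃ y ∈ {y | Relation.ReflTransGen (fun a b => (a ∈ Ct E ↔ b ∈ Ct E) ∧
          ∃ e ∈ E, b = e * a) (κ p.1) y},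
          (Set.range fun z : B => ((y • rep p.1, z.1 • y • rep p.1) : V × V)) := by
      intro p' hp'
      obtain ⟨h1, h2, h3⟩ := key p' hp'
      rcases h3 with rfl | ⟨x, h4, h5⟩
      · exact Or.inl rfl
      · right
        refine Set.mem_biUnion h2 ⟨⟨x, h4⟩, ?_⟩
        have h6 : κ p'.1 • rep p.1 = p'.1 := by rw [← h1, hκ]
        show (κ p'.1 • rep p.1, x • κ p'.1 • rep p.1) = p'
        rw [h6, h5]
    refine (Set.encard_le_encard hsub).trans ((Set.encard_union_le _ _).trans ?_)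
    rw [Set.encard_singleton]
    have h8 := H630.biUnion_le _ (fun y => Set.range fun z : B =>
      ((y • rep p.1, z.1 • y • rep p.1) : V × V)) (mt E) (Nat.card B) (hCt E hE (κ p.1))
      (fun y _ => by
        rw [← Set.image_univ]
        refine (Set.encard_image_le _ _).trans ?_
        rw [Set.encard_univ, ENat.card_eq_coe_natCard])
    refine (add_le_add le_rfl h8).trans ?_
    exact_mod_cast le_rfl
  · intro g hg
    obtain ⟨b₁, b₂, f, hf, hact⟩ := hρ g hg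
    have hfar : ∀ u v : V, ¬ (∃ x ∈ B, x • u = v) → ∀ x ∈ B, x • u ≠ v :=
      fun u v h x hx hxv => h ⟨x, hx, hxv⟩
    refine ⟨?_, b₁, b₂, f, hf, fun i u v h => (hact i u v).2 (hfar u v h)⟩
    rintro ⟨i, u, v⟩
    by_cases h : ∃ x ∈ B, x • u = v
    · obtain ⟨x, h4, y, h5, h6⟩ := (hact i u v).1 h
      exact ⟨x, h4, y, h5, (congrArg Prod.fst h6).symm, (congrArg Prod.snd h6).symm⟩
    · have h4 := (hact i u v).2 (hfar u v h)
      rw [h4]
      exact ⟨_, (hf i (b₁ u) (b₂ v)).1, _, (hf i (b₁ u) (b₂ v)).2, rfl, rfl⟩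

end Vale.Agent.P192.H291
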