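import Vale.Agent.P192.H291.Main

set_option linter.all false

/-! `k` heads on a common coloured line, two stacks and counters: uniform form. -/

namespace Vale.Agent.P192.H291

open Vale.Agent.P192 Vale.Agent.P192.H593 Vale.Agent.P192.H437 Vale.Agent.P192.H567

/-- the truncated differences of the positions -/
def pat {k : ℕ} (s : ℕ) (z : Fin k → ℤ) : Fin k → Fin k → ℤ → Prop :=
  fun p q d => |d| ≤ (s : ℤ) ∧ z p + d = z q

def fpat {k : ℕ} (s : ℕ) (z : Fin k → ℤ) : Fin k → Fin k → Fin (2 * s + 1) → Prop :=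
  fun p q e => z p + (((e : ℕ) : ℤ) - s) = z q

def dpat {k : ℕ} (s : ℕ) (o : Fin k → Fin k → Fin (2 * s + 1) → Prop) :
    Fin k → Fin k → ℤ → Prop :=
  fun p q d => ∃ e : Fin (2 * s + 1), ((e : ℕ) : ℤ) - s = d ∧ o p q e

theorem dpat_fpat {k : ℕ} (s : ℕ) (z : Fin k → ℤ) : dpat s (fpat s z) = pat s z := by
  funext p q d
  apply propext
  constructor
  · rintro ⟨e, h1, h2⟩
    have h3 := e.2
    refine ⟨?_, ?_⟩
    · rw [abs_le]; constructor <;> omega
    · rw [← h1]; exact h2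
  · rintro ⟨h1, h2⟩
    rw [abs_le] at h1
    have h3 : (((d + s).toNat : ℕ) : ℤ) = d + s := Int.toNat_of_nonneg (by omega)
    refine ⟨⟨(d + s).toNat, by omega⟩, ?_, ?_⟩
    · show (((d + s).toNat : ℕ) : ℤ) - s = d
      rw [h3]; ring
    · show z p + ((((d + s).toNat : ℕ) : ℤ) - s) = z q
      rw [h3, show d + (s : ℤ) - s = d by ring]
      exact h2

/-- `k` heads on a common line, two free actions and `k₀` counters, uniform form -/
theorem mh_uniform (G : Type) [Group G] [Group.IsFinitelyPresented G] (hG : IsMulTorsion G)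
    (S : Set G) (hS : Subgroup.closure S = ⊤) (L M : Type) [Group L] [Group M]
    (hL : ∀ E : Set L, E.Finite → ∃ m : ℕ, ∃ C : Set L, ∀ x : L,
      {y | Relation.ReflTransGen (fun a b => (a ∈ C ↔ b ∈ C) ∧ ∃ e ∈ E, b = e * a) x y}.encard ≤ m)
    (Γ : Subgroup M) [Γ.FiniteIndex] (kf : ℕ) (e : Γ ≃* FreeGroup (Fin kf))
    (k₀ k m s : ℕ) (K : Set (L × (Fin k₀ → ℤ) × M × (Fin k → ℤ))) (hK : K.Finite) :
    ∃ N : Subgroup G, N.Normal ∧ N.FiniteIndex ∧
      ∀ (U V : Type) [MulAction L U] [MulAction M V] (W : Fin k₀ → Type)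
        (T : ∀ i, Equiv.Perm (W i)),
      (∀ (l : L) (u : U), l • u = u → l = 1) → (∀ (x : M) (v : V), x • v = v → x = 1) →
      ∀ ρ : G →* Equiv.Perm ((U × (∀ i, W i) × V) × (Fin k → ℤ)),
      (∀ g, (g ∈ S ∨ g⁻¹ ∈ S) → ∃ (a : ∀ i, W i → Fin m) (b : V → Fin m) (c : Fin k → ℤ → Fin m)
        (f : U → (Fin k₀ → Fin m) → Fin m → (Fin k → Fin m) → (Fin k → Fin k → ℤ → Prop) →
          L × (Fin k₀ → ℤ) × M × (Fin k → ℤ)), (∀ u α β γ o, f u α β γ o ∈ K) ∧
          ∀ u w v z x, x = f u (fun i => a i (w i)) (b v) (fun j => c j (z j)) (pat s z) →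
            ρ g ((u, w, v), z) = ((x.1 • u, (fun i => (T i ^ x.2.1 i) (w i)), x.2.2.1 • v),
              z + x.2.2.2)) →
      ∀ g ∈ N, ρ g = 1 := by
  classical
  obtain ⟨MM, σ, hσS, hσ, -⟩ := exists_tuple G S hS
  haveI : Finite K := hK
  let X₁ : Type := Fin MM × Bool → (Fin k₀ → Fin m) → Fin m → (Fin k → Fin m) →
    (Fin k → Fin k → Fin (2 * s + 1) → Prop) → K
  haveI F0 : Finite (Fin k → Fin k → Fin (2 * s + 1) → Prop) := inferInstance
  haveI F1 : Finite ((Fin k → Fin k → Fin (2 * s + 1) → Prop) → K) := inferInstance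
  haveI F2 : Finite ((Fin k → Fin m) → (Fin k → Fin k → Fin (2 * s + 1) → Prop) → K) :=
    @Pi.finite _ _ _ fun _ => F1
  haveI F3 : Finite (Fin m → (Fin k → Fin m) → (Fin k → Fin k → Fin (2 * s + 1) → Prop) → K) :=
    @Pi.finite _ _ _ fun _ => F2
  haveI F4 : Finite ((Fin k₀ → Fin m) → Fin m → (Fin k → Fin m) →
    (Fin k → Fin k → Fin (2 * s + 1) → Prop) → K) := @Pi.finite _ _ _ fun _ => F3
  haveI F5 : Finite X₁ := @Pi.finite _ _ _ fun _ => F4
  let X₂ : Type := Fin MM × Bool → Fin m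
  let m' : ℕ := Nat.card X₁ + Nat.card X₂
  let ε₁ : X₁ → Fin m' := fun x => Fin.castLE (Nat.le_add_right _ _) (Finite.equivFin X₁ x)
  let ε₂ : X₂ → Fin m' := fun x => Fin.castLE (Nat.le_add_left _ _) (Finite.equivFin X₂ x)
  have hε₁ : Function.Injective ε₁ := (Fin.castLE_injective _).comp (Finite.equivFin X₁).injective
  have hε₂ : Function.Injective ε₂ := (Fin.castLE_injective _).comp (Finite.equivFin X₂).injective
  obtain ⟨D, hD⟩ : ∃ D : ℕ, ∀ x ∈ K, ∀ j, |x.2.2.2 j| ≤ (D : ℤ) := by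
    have h1 : ∀ j : Fin k, ∃ D : ℕ, ∀ x ∈ K, |x.2.2.2 j| ≤ (D : ℤ) := by
      intro j
      obtain ⟨c, hc⟩ := (hK.image fun x : L × (Fin k₀ → ℤ) × M × (Fin k → ℤ) =>
        (x.2.2.2 j).natAbs).bddAbove
      refine ⟨c, fun x hx => ?_⟩
      have := hc ⟨x, hx, rfl⟩
      rw [Int.abs_eq_natAbs]
      exact_mod_cast this
    choose Df hDf using h1
    obtain ⟨D, hD⟩ := (Set.finite_range Df).bddAbove
    exact ⟨D, fun x hx j => (hDf j x hx).trans (by exact_mod_cast hD ⟨j, rfl⟩)⟩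
  let τ : L × (Fin k₀ → ℤ) × M × (Fin k → ℤ) → L × (Fin k₀ → Multiplicative ℤ) × M := fun x =>
    (x.1, fun i => Multiplicative.ofAdd (x.2.1 i), x.2.2.1)
  obtain ⟨N, h1, h2, h3⟩ := heads_uniform (cls L M k₀) (uf_all L M hL Γ kf e k₀) k G hG σ hσ 1 m'
    m' s D (insert 1 (τ '' K)) ((hK.image _).insert _) ⊤
  refine ⟨N, h1, h2, ?_⟩
  intro U V _ _ W T hU hV ρ hρ g hg
  have hgen : ∀ l : Fin MM × Bool, gen σ l ∈ S ∨ (gen σ l)⁻¹ ∈ S := by
    rintro ⟨i, ε⟩
    cases ε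
    · right
      show ((σ i)⁻¹)⁻¹ ∈ S
      rw [inv_inv]; exact hσS ⟨i, rfl⟩
    · left; exact hσS ⟨i, rfl⟩
  choose a b c f hf hact using fun l => hρ (gen σ l) (hgen l)
  letI act : MulAction (L × (Fin k₀ → Multiplicative ℤ) × M) (U × (∀ i, W i) × V) :=
    { smul := fun l y => (l.1 • y.1, fun i => (T i ^ (l.2.1 i).toAdd) (y.2.1 i), l.2.2 • y.2.2)
      one_smul := by
        rintro ⟨u, w, v⟩
        show ((1 : L) • u, fun i => (T i ^ (0 : ℤ)) (w i), (1 : M) • v) = _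
        simp
      mul_smul := by
        rintro ⟨l, z, x⟩ ⟨l', z', x'⟩ ⟨u, w, v⟩
        show ((l * l') • u, fun i => (T i ^ (z i * z' i).toAdd) (w i), (x * x') • v) =
          (l • l' • u, fun i => (T i ^ (z i).toAdd) ((T i ^ (z' i).toAdd) (w i)), x • x' • v)
        rw [mul_smul, mul_smul]
        refine Prod.ext rfl (Prod.ext (funext fun i => ?_) rfl)
        show (T i ^ (z i * z' i).toAdd) (w i) = _
        rw [toAdd_mul, zpow_add]; rfl }
  let Z : Type := U × (∀ i, W i) × V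
  let α₁ : U → Fin m' := fun u => ε₁ (fun l α β γ o => ⟨f l u α β γ (dpat s o), hf l u α β γ _⟩)
  let α₂ : ∀ i, W i → Fin m' := fun i w => ε₂ (fun l => a l i w)
  let α₃ : V → Fin m' := fun v => ε₂ (fun l => b l v)
  let α₄ : Fin k → ℤ → Fin m' := fun j z => ε₂ (fun l => c l j z)
  let bb : Z → Fin m' × (Fin k₀ → Fin m') × Fin m' := fun z =>
    (α₁ z.1, fun i => α₂ i (z.2.1 i), α₃ z.2.2)
  let ff : Fin MM × Bool → Z → (Fin k → ℤ) → L × (Fin k₀ → ℤ) × M × (Fin k → ℤ) := fun l y z =>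
    f l y.1 (fun i => a l i (y.2.1 i)) (b l y.2.2) (fun j => c l j (z j)) (pat s z)
  have hpat : ∀ z z' : Fin k → ℤ, obs s α₄ ⊤ z = obs s α₄ ⊤ z' → pat s z = pat s z' := by
    intro z z' h
    funext p q d
    have h4 := congrFun (congrFun (congrFun (congrArg Prod.snd h) p) q) d
    have h5 : ((⊤ : Setoid (Fin k)) p q ∧ |d| ≤ (s : ℤ) ∧ z p + d = z q) ↔
      ((⊤ : Setoid (Fin k)) p q ∧ |d| ≤ (s : ℤ) ∧ z' p + d = z' q) := iff_of_eq h4
    apply propext
    constructor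
    · intro h6; exact (h5.1 ⟨trivial, h6⟩).2
    · intro h6; exact (h5.2 ⟨trivial, h6⟩).2
  have hff : ∀ l y y' z z', bb y = bb y' → obs s α₄ ⊤ z = obs s α₄ ⊤ z' →
      ff l y z = ff l y' z' := by
    intro l y y' z z' h h'
    have g1 : ∀ α β γ, f l y.1 α β γ (pat s z) = f l y'.1 α β γ (pat s z) := by
      intro α β γ
      have := hε₁ (congrArg Prod.fst h)
      have g := congrArg Subtype.val (congrFun (congrFun (congrFun (congrFun
        (congrFun this l) α) β) γ) (fpat s z))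
      rw [← dpat_fpat]
      exact g
    have g2 : ∀ i, a l i (y.2.1 i) = a l i (y'.2.1 i) := by
      intro i
      have := hε₂ (congrFun (congrArg
        (fun q : Fin m' × (Fin k₀ → Fin m') × Fin m' => q.2.1) h) i)
      exact congrFun this l
    have g3 : b l y.2.2 = b l y'.2.2 := by
      have := hε₂ (congrArg (fun q : Fin m' × (Fin k₀ → Fin m') × Fin m' => q.2.2) h)
      exact congrFun this l
    have g4 : ∀ j, c l j (z j) = c l j (z' j) := by
      intro j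
      have := hε₂ (congrFun (congrArg Prod.fst h') j)
      exact congrFun this l
    show f l y.1 (fun i => a l i (y.2.1 i)) (b l y.2.2) (fun j => c l j (z j)) (pat s z) =
      f l y'.1 (fun i => a l i (y'.2.1 i)) (b l y'.2.2) (fun j => c l j (z' j)) (pat s z')
    rw [← hpat z z' h', g1, g3, funext g2, funext g4]
  let E : (Z × (Fin k → ℤ)) ≃ Unit × Z × (Fin k → ℤ) := (Equiv.punitProd _).symm
  obtain ⟨ρ', h4, h5⟩ := exists_conj E ρ
  apply h5
  let F : Fin MM × Bool → Unit → Fin m' × (Fin k₀ → Fin m') × Fin m' →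
      (Fin k → Fin m') × (Fin k → Fin k → ℤ → Prop) →
      Unit × (L × (Fin k₀ → Multiplicative ℤ) × M) × (Fin k → ℤ) := fun l i γ o =>
    if h : ∃ q : Z × (Fin k → ℤ), bb q.1 = γ ∧ obs s α₄ ⊤ q.2 = o then
      ((), τ (ff l h.choose.1 h.choose.2), (ff l h.choose.1 h.choose.2).2.2.2)
    else ((), 1, 0)
  refine h3 Unit (by simp) Z bb ?_ α₄ F ?_ ?_ ρ' ?_ g hg
  · exact ⟨U, V, _, _, W, T, Equiv.refl _, α₁, α₂, α₃, hU, hV, fun _ _ => rfl, fun _ => rfl⟩
  · intro l i γ o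
    show (if h : ∃ q : Z × (Fin k → ℤ), bb q.1 = γ ∧ obs s α₄ ⊤ q.2 = o then
      (((), τ (ff l h.choose.1 h.choose.2), (ff l h.choose.1 h.choose.2).2.2.2) :
        Unit × (L × (Fin k₀ → Multiplicative ℤ) × M) × (Fin k → ℤ))
      else ((), 1, 0)).2.1 ∈ _
    split_ifs with h
    · exact Or.inr ⟨_, hf _ _ _ _ _ _, rfl⟩
    · exact Or.inl rfl
  · intro l i γ o j
    show |(if h : ∃ q : Z × (Fin k → ℤ), bb q.1 = γ ∧ obs s α₄ ⊤ q.2 = o then
      (((), τ (ff l h.choose.1 h.choose.2), (ff l h.choose.1 h.choose.2).2.2.2) :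
        Unit × (L × (Fin k₀ → Multiplicative ℤ) × M) × (Fin k → ℤ))
      else ((), 1, 0)).2.2 j| ≤ _
    split_ifs with h
    · exact hD _ (hf _ _ _ _ _ _) _
    · simp
  · rintro l ⟨i, y, z⟩
    have h6 : ∃ q : Z × (Fin k → ℤ), bb q.1 = bb y ∧ obs s α₄ ⊤ q.2 = obs s α₄ ⊤ z :=
      ⟨(y, z), rfl, rfl⟩
    have h7 : ff l h6.choose.1 h6.choose.2 = ff l y z :=
      hff l _ _ _ _ h6.choose_spec.1 h6.choose_spec.2
    have h8 : F l i (bb y) (obs s α₄ ⊤ z) = ((), τ (ff l y z), (ff l y z).2.2.2) := by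
      show (if h : ∃ q : Z × (Fin k → ℤ), bb q.1 = bb y ∧ obs s α₄ ⊤ q.2 = obs s α₄ ⊤ z then
        (((), τ (ff l h.choose.1 h.choose.2), (ff l h.choose.1 h.choose.2).2.2.2) :
          Unit × (L × (Fin k₀ → Multiplicative ℤ) × M) × (Fin k → ℤ))
        else ((), 1, 0)) = _
      rw [dif_pos h6, h7]
    show ρ' (gen σ l) (E (y, z)) = _
    rw [h4]
    obtain ⟨u, w, v⟩ := y
    rw [hact l u w v z _ rfl]
    show _ = ((F l i (bb (u, w, v)) (obs s α₄ ⊤ z)).1,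
      (F l i (bb (u, w, v)) (obs s α₄ ⊤ z)).2.1 • (u, w, v),
      z + (F l i (bb (u, w, v)) (obs s α₄ ⊤ z)).2.2)
    rw [h8]
    rfl

end Vale.Agent.P192.H291
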