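import Vale.Agent.P192.H291.WT
import Vale.Agent.P192.H291.Auto

set_option linter.all false

/-! Heads on a set with a permutation, two stacks and counters: uniform form and local form. -/

namespace Vale.Agent.P192.H291

open Vale.Agent.P192 Vale.Agent.P192.H593 Vale.Agent.P192.H437 Vale.Agent.P192.H567

def fpatW {k : ℕ} {Z : Type} (s : ℕ) (τ : Equiv.Perm Z) (z : Fin k → Z) :
    Fin k → Fin k → Fin (2 * s + 1) → Prop :=
  fun p q e => (τ ^ (((e : ℕ) : ℤ) - s)) (z p) = z q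

def patW {k : ℕ} {Z : Type} (s : ℕ) (τ : Equiv.Perm Z) (z : Fin k → Z) :
    Fin k → Fin k → ℤ → Prop :=
  fun p q d => |d| ≤ (s : ℤ) ∧ (τ ^ d) (z p) = z q

theorem dpat_of {k : ℕ} (s : ℕ) (Q : Fin k → Fin k → ℤ → Prop) :
    dpat s (fun p q e => Q p q (((e : ℕ) : ℤ) - s)) = fun p q d => |d| ≤ (s : ℤ) ∧ Q p q d := by
  funext p q d
  apply propext
  constructor
  · rintro ⟨e, h1, h2⟩
    have h3 := e.2
    refine ⟨?_, ?_⟩
    · rw [abs_le]; constructor <;> omega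
    · rw [← h1]; exact h2
  · rintro ⟨h1, h2⟩
    rw [abs_le] at h1
    have h3 : (((d + s).toNat : ℕ) : ℤ) = d + s := Int.toNat_of_nonneg (by omega)
    refine ⟨⟨(d + s).toNat, by omega⟩, ?_, ?_⟩
    · show (((d + s).toNat : ℕ) : ℤ) - s = d
      rw [h3]; ring
    · show Q p q ((((d + s).toNat : ℕ) : ℤ) - s)
      rw [h3, show d + (s : ℤ) - s = d by ring]
      exact h2

theorem exists_bound {k : ℕ} {A : Type} (K : Set A) (hK : K.Finite) (F : A → Fin k → ℤ) :
    ∃ D : ℕ, ∀ x ∈ K, ∀ j, |F x j| ≤ (D : ℤ) := by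
  have h1 : ∀ j : Fin k, ∃ D : ℕ, ∀ x ∈ K, |F x j| ≤ (D : ℤ) := by
    intro j
    obtain ⟨c, hc⟩ := (hK.image fun x => (F x j).natAbs).bddAbove
    refine ⟨c, fun x hx => ?_⟩
    have := hc ⟨x, hx, rfl⟩
    rw [Int.abs_eq_natAbs]
    exact_mod_cast this
  choose Df hDf using h1
  obtain ⟨D, hD⟩ := (Set.finite_range Df).bddAbove
  exact ⟨D, fun x hx j => (hDf j x hx).trans (by exact_mod_cast hD ⟨j, rfl⟩)⟩

/-- coding of the rules by colours, for any kind of positions `Ps` -/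
theorem coding (MM k₀ k m s : ℕ) (L M : Type) [Group L] [Group M]
    (K : Set (L × (Fin k₀ → ℤ) × M × (Fin k → ℤ))) (hK : K.Finite) :
    ∃ m' : ℕ, ∀ (U V Cz : Type) [MulAction L U] [MulAction M V] (W : Fin k₀ → Type)
      (T : ∀ i, Equiv.Perm (W i)),
      (∀ (l : L) (u : U), l • u = u → l = 1) → (∀ (x : M) (v : V), x • v = v → x = 1) →
      ∀ (a : Fin MM × Bool → ∀ i, W i → Fin m) (b : Fin MM × Bool → V → Fin m)
        (c : Fin MM × Bool → Fin k → Cz → Fin m)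
        (f : Fin MM × Bool → U → (Fin k₀ → Fin m) → Fin m → (Fin k → Fin m) →
          (Fin k → Fin k → ℤ → Prop) → L × (Fin k₀ → ℤ) × M × (Fin k → ℤ)),
        (∀ l u α β γ o, f l u α β γ o ∈ K) →
      ∃ (act : MulAction (L × (Fin k₀ → Multiplicative ℤ) × M) (U × (∀ i, W i) × V))
        (bb : U × (∀ i, W i) × V → (cls L M k₀).C m') (cc : Fin k → Cz → Fin m')
        (F : Fin MM × Bool → Unit → (cls L M k₀).C m' →
          (Fin k → Fin m') × (Fin k → Fin k → ℤ → Prop) →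
          Unit × (L × (Fin k₀ → Multiplicative ℤ) × M) × (Fin k → ℤ)),
        (cls L M k₀).P m' (U × (∀ i, W i) × V) bb ∧
        (∀ l i β o, (F l i β o).2.1 ∈ insert 1 ((fun x : L × (Fin k₀ → ℤ) × M × (Fin k → ℤ) =>
          ((x.1, fun i => Multiplicative.ofAdd (x.2.1 i), x.2.2.1) :
            L × (Fin k₀ → Multiplicative ℤ) × M)) '' K)) ∧
        (∀ D : ℕ, (∀ x ∈ K, ∀ j, |x.2.2.2 j| ≤ (D : ℤ)) →
          ∀ l i β o j, |(F l i β o).2.2 j| ≤ (D : ℤ)) ∧
        (∀ (l : L × (Fin k₀ → Multiplicative ℤ) × M) (y : U × (∀ i, W i) × V),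
          act.smul l y = (l.1 • y.1, fun i => (T i ^ (l.2.1 i).toAdd) (y.2.1 i),
            l.2.2 • y.2.2)) ∧
        ∀ l (y : U × (∀ i, W i) × V) (z : Fin k → Cz) (Q : Fin k → Fin k → ℤ → Prop),
          (∀ p q d, Q p q d → |d| ≤ (s : ℤ)) →
          ∀ x, x = f l y.1 (fun i => a l i (y.2.1 i)) (b l y.2.2) (fun j => c l j (z j)) Q →
            F l () (bb y) (fun j => cc j (z j), Q) =
              ((), (x.1, fun i => Multiplicative.ofAdd (x.2.1 i), x.2.2.1), x.2.2.2) := by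
  classical
  haveI : Finite K := hK
  let X₁ : Type := Fin MM × Bool → (Fin k₀ → Fin m) → Fin m → (Fin k → Fin m) →
    (Fin k → Fin k → Fin (2 * s + 1) → Prop) → K
  haveI F0 : Finite (Fin k → Fin k → Fin (2 * s + 1) → Prop) := inferInstance
  haveI F1 : Finite ((Fin k → Fin k → Fin (2 * s + 1) → Prop) → K) := inferInstance
  haveI F2 : Finite ((Fin k → Fin m) → (Fin k → Fin k → Fin (2 * s + 1) → Prop) → K) :=
    @Pi.finite _ _ _ fun _ => F1
  haveI F3 : Finite (Fin m → (Fin k → Fin m) → (Fin k → Fin k → Fin (2 * s + 1) → Prop) → K) :=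
    @Pi.finite _ _ _ fun _ => F2
  haveI F4 : Finite ((Fin k₀ → Fin m) → Fin m → (Fin k → Fin m) →
    (Fin k → Fin k → Fin (2 * s + 1) → Prop) → K) := @Pi.finite _ _ _ fun _ => F3
  haveI F5 : Finite X₁ := @Pi.finite _ _ _ fun _ => F4
  let X₂ : Type := Fin MM × Bool → Fin m
  let m' : ℕ := Nat.card X₁ + Nat.card X₂
  let ε₁ : X₁ → Fin m' := fun x => Fin.castLE (Nat.le_add_right _ _) (Finite.equivFin X₁ x)
  let ε₂ : X₂ → Fin m' := fun x => Fin.castLE (Nat.le_add_left _ _) (Finite.equivFin X₂ x)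
  have hε₁ : Function.Injective ε₁ := (Fin.castLE_injective _).comp (Finite.equivFin X₁).injective
  have hε₂ : Function.Injective ε₂ := (Fin.castLE_injective _).comp (Finite.equivFin X₂).injective
  let τ : L × (Fin k₀ → ℤ) × M × (Fin k → ℤ) → L × (Fin k₀ → Multiplicative ℤ) × M := fun x =>
    (x.1, fun i => Multiplicative.ofAdd (x.2.1 i), x.2.2.1)
  refine ⟨m', ?_⟩
  intro U V Cz _ _ W T hU hV a b c f hf
  let act : MulAction (L × (Fin k₀ → Multiplicative ℤ) × M) (U × (∀ i, W i) × V) :=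
    { smul := fun l y => (l.1 • y.1, fun i => (T i ^ (l.2.1 i).toAdd) (y.2.1 i), l.2.2 • y.2.2)
      one_smul := by
        rintro ⟨u, w, v⟩
        show ((1 : L) • u, fun i => (T i ^ (0 : ℤ)) (w i), (1 : M) • v) = _
        simp
      mul_smul := by
        rintro ⟨l, z, x⟩ ⟨l', z', x'⟩ ⟨u, w, v⟩
        show ((l * l') • u, fun i => (T i ^ (z i * z' i).toAdd) (w i), (x * x') • v) =
          (l • l' • u, fun i => (T i ^ (z i).toAdd) ((T i ^ (z' i).toAdd) (w i)), x • x' • v)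
        rw [mul_smul, mul_smul]
        refine Prod.ext rfl (Prod.ext (funext fun i => ?_) rfl)
        show (T i ^ (z i * z' i).toAdd) (w i) = _
        rw [toAdd_mul, zpow_add]; rfl }
  let Z : Type := U × (∀ i, W i) × V
  let α₁ : U → Fin m' := fun u => ε₁ (fun l α β γ o => ⟨f l u α β γ (dpat s o), hf l u α β γ _⟩)
  let α₂ : ∀ i, W i → Fin m' := fun i w => ε₂ (fun l => a l i w)
  let α₃ : V → Fin m' := fun v => ε₂ (fun l => b l v)
  let α₄ : Fin k → Cz → Fin m' := fun j z => ε₂ (fun l => c l j z)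
  let bb : Z → Fin m' × (Fin k₀ → Fin m') × Fin m' := fun z =>
    (α₁ z.1, fun i => α₂ i (z.2.1 i), α₃ z.2.2)
  let Qf : (Fin k → Fin k → ℤ → Prop) → Prop := fun Q => ∀ p q d, Q p q d → |d| ≤ (s : ℤ)
  have hdp : ∀ Q, Qf Q → dpat s (fun p q e => Q p q (((e : ℕ) : ℤ) - s)) = Q := by
    intro Q hQ
    rw [dpat_of]
    funext p q d
    exact propext ⟨fun h => h.2, fun h => ⟨hQ p q d h, h⟩⟩
  let ff : Fin MM × Bool → Z → (Fin k → Cz) → (Fin k → Fin k → ℤ → Prop) →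
      L × (Fin k₀ → ℤ) × M × (Fin k → ℤ) := fun l y z Q =>
    f l y.1 (fun i => a l i (y.2.1 i)) (b l y.2.2) (fun j => c l j (z j)) Q
  have hff : ∀ l y y' z z' Q, Qf Q → bb y = bb y' → (∀ j, α₄ j (z j) = α₄ j (z' j)) →
      ff l y z Q = ff l y' z' Q := by
    intro l y y' z z' Q hQ h h'
    have g1 : ∀ α β γ, f l y.1 α β γ Q = f l y'.1 α β γ Q := by
      intro α β γ
      have := hε₁ (congrArg Prod.fst h)
      have g := congrArg Subtype.val (congrFun (congrFun (congrFun (congrFun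
        (congrFun this l) α) β) γ) (fun p q e => Q p q (((e : ℕ) : ℤ) - s)))
      have g' : f l y.1 α β γ (dpat s (fun p q e => Q p q (((e : ℕ) : ℤ) - s))) =
        f l y'.1 α β γ (dpat s (fun p q e => Q p q (((e : ℕ) : ℤ) - s))) := g
      rwa [hdp Q hQ] at g'
    have g2 : ∀ i, a l i (y.2.1 i) = a l i (y'.2.1 i) := by
      intro i
      have := hε₂ (congrFun (congrArg
        (fun q : Fin m' × (Fin k₀ → Fin m') × Fin m' => q.2.1) h) i)
      exact congrFun this l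
    have g3 : b l y.2.2 = b l y'.2.2 := by
      have := hε₂ (congrArg (fun q : Fin m' × (Fin k₀ → Fin m') × Fin m' => q.2.2) h)
      exact congrFun this l
    have g4 : ∀ j, c l j (z j) = c l j (z' j) := fun j => congrFun (hε₂ (h' j)) l
    show f l y.1 (fun i => a l i (y.2.1 i)) (b l y.2.2) (fun j => c l j (z j)) Q =
      f l y'.1 (fun i => a l i (y'.2.1 i)) (b l y'.2.2) (fun j => c l j (z' j)) Q
    rw [g1, g3, funext g2, funext g4]
  let F : Fin MM × Bool → Unit → Fin m' × (Fin k₀ → Fin m') × Fin m' →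
      (Fin k → Fin m') × (Fin k → Fin k → ℤ → Prop) →
      Unit × (L × (Fin k₀ → Multiplicative ℤ) × M) × (Fin k → ℤ) := fun l i γ o =>
    if h : ∃ q : Z × (Fin k → Cz), bb q.1 = γ ∧ (fun j => α₄ j (q.2 j)) = o.1 then
      ((), τ (ff l h.choose.1 h.choose.2 o.2), (ff l h.choose.1 h.choose.2 o.2).2.2.2)
    else ((), 1, 0)
  refine ⟨act, bb, α₄, F, ?_, ?_, ?_, fun _ _ => rfl, ?_⟩
  · exact ⟨U, V, _, _, W, T, Equiv.refl _, α₁, α₂, α₃, hU, hV, fun _ _ => rfl, fun _ => rfl⟩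
  · intro l i γ o
    show (if h : ∃ q : Z × (Fin k → Cz), bb q.1 = γ ∧ (fun j => α₄ j (q.2 j)) = o.1 then
      (((), τ (ff l h.choose.1 h.choose.2 o.2), (ff l h.choose.1 h.choose.2 o.2).2.2.2) :
        Unit × (L × (Fin k₀ → Multiplicative ℤ) × M) × (Fin k → ℤ))
      else ((), 1, 0)).2.1 ∈ _
    split_ifs with h
    · exact Or.inr ⟨_, hf _ _ _ _ _ _, rfl⟩
    · exact Or.inl rfl
  · intro D hD l i γ o j
    show |(if h : ∃ q : Z × (Fin k → Cz), bb q.1 = γ ∧ (fun j => α₄ j (q.2 j)) = o.1 then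
      (((), τ (ff l h.choose.1 h.choose.2 o.2), (ff l h.choose.1 h.choose.2 o.2).2.2.2) :
        Unit × (L × (Fin k₀ → Multiplicative ℤ) × M) × (Fin k → ℤ))
      else ((), 1, 0)).2.2 j| ≤ _
    split_ifs with h
    · exact hD _ (hf _ _ _ _ _ _) _
    · simp
  · intro l y z Q hQ x hx
    have h6 : ∃ q : Z × (Fin k → Cz), bb q.1 = bb y ∧
      (fun j => α₄ j (q.2 j)) = fun j => α₄ j (z j) := ⟨(y, z), rfl, rfl⟩
    have h7 : ff l h6.choose.1 h6.choose.2 Q = ff l y z Q :=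
      hff l _ _ _ _ Q hQ h6.choose_spec.1 (fun j => congrFun h6.choose_spec.2 j)
    show (if h : ∃ q : Z × (Fin k → Cz), bb q.1 = bb y ∧ (fun j => α₄ j (q.2 j)) =
        (fun j => α₄ j (z j)) then
      (((), τ (ff l h.choose.1 h.choose.2 Q), (ff l h.choose.1 h.choose.2 Q).2.2.2) :
        Unit × (L × (Fin k₀ → Multiplicative ℤ) × M) × (Fin k → ℤ))
      else ((), 1, 0)) = _
    rw [dif_pos h6, h7, hx]

end Vale.Agent.P192.H291
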