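import Vale.Agent.P192.H291.Unif2

set_option linter.all false

/-! Heads on a set with a permutation, two stacks and counters: the final forms. -/

namespace Vale.Agent.P192.H291

open Vale.Agent.P192 Vale.Agent.P192.H593 Vale.Agent.P192.H437 Vale.Agent.P192.H567

theorem gen_mem {G : Type} [Group G] {M : ℕ} (σ : Fin M → G) (S : Set G)
    (hσS : Set.range σ ⊆ S) (l : Fin M × Bool) : gen σ l ∈ S ∨ (gen σ l)⁻¹ ∈ S := by
  obtain ⟨i, ε⟩ := l
  cases ε
  · right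
    show ((σ i)⁻¹)⁻¹ ∈ S
    rw [inv_inv]; exact hσS ⟨i, rfl⟩
  · left; exact hσS ⟨i, rfl⟩

/-- `k` heads on a set with a permutation, two free actions and `k₀` counters, uniform form -/
theorem mh_wt (G : Type) [Group G] [Group.IsFinitelyPresented G] (hG : IsMulTorsion G)
    (S : Set G) (hS : Subgroup.closure S = ⊤) (L M : Type) [Group L] [Group M]
    (hL : ∀ E : Set L, E.Finite → ∃ m : ℕ, ∃ C : Set L, ∀ x : L,
      {y | Relation.ReflTransGen (fun a b => (a ∈ C ↔ b ∈ C) ∧ ∃ e ∈ E, b = e * a) x y}.encard ≤ m)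
    (Γ : Subgroup M) [Γ.FiniteIndex] (kf : ℕ) (e : Γ ≃* FreeGroup (Fin kf))
    (k₀ k m s : ℕ) (K : Set (L × (Fin k₀ → ℤ) × M × (Fin k → ℤ))) (hK : K.Finite) :
    ∃ N : Subgroup G, N.Normal ∧ N.FiniteIndex ∧
      ∀ (U V Z : Type) [MulAction L U] [MulAction M V] (W : Fin k₀ → Type)
        (T : ∀ i, Equiv.Perm (W i)) (τ : Equiv.Perm Z),
      (∀ (l : L) (u : U), l • u = u → l = 1) → (∀ (x : M) (v : V), x • v = v → x = 1) →
      ∀ ρ : G →* Equiv.Perm ((U × (∀ i, W i) × V) × (Fin k → Z)),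
      (∀ g, (g ∈ S ∨ g⁻¹ ∈ S) → ∃ (a : ∀ i, W i → Fin m) (b : V → Fin m) (c : Fin k → Z → Fin m)
        (f : U → (Fin k₀ → Fin m) → Fin m → (Fin k → Fin m) → (Fin k → Fin k → ℤ → Prop) →
          L × (Fin k₀ → ℤ) × M × (Fin k → ℤ)), (∀ u α β γ o, f u α β γ o ∈ K) ∧
          ∀ u w v z x, x = f u (fun i => a i (w i)) (b v) (fun j => c j (z j)) (patW s τ z) →
            ρ g ((u, w, v), z) = ((x.1 • u, (fun i => (T i ^ x.2.1 i) (w i)), x.2.2.1 • v),
              fun j => (τ ^ x.2.2.2 j) (z j))) →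
      ∀ g ∈ N, ρ g = 1 := by
  classical
  obtain ⟨MM, σ, hσS, hσ, -⟩ := exists_tuple G S hS
  obtain ⟨m', hm'⟩ := coding MM k₀ k m s L M K hK
  obtain ⟨D, hD⟩ := exists_bound K hK (fun x => x.2.2.2)
  obtain ⟨N, h1, h2, h3⟩ := wt_uniform (cls L M k₀) (uf_all L M hL Γ kf e k₀) k G hG σ hσ 1 m'
    m' s D (insert 1 ((fun x : L × (Fin k₀ → ℤ) × M × (Fin k → ℤ) =>
          ((x.1, fun i => Multiplicative.ofAdd (x.2.1 i), x.2.2.1) :
            L × (Fin k₀ → Multiplicative ℤ) × M)) '' K)) ((hK.image _).insert _)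
  refine ⟨N, h1, h2, ?_⟩
  intro U V Z _ _ W T τ hU hV ρ hρ g hg
  choose a b c f hf hact using fun l => hρ (gen σ l) (gen_mem σ S hσS l)
  obtain ⟨act, bb, cc, F, hP, hF1, hF2, hact', hF3⟩ := hm' U V Z W T hU hV a b c f hf
  let E : ((U × (∀ i, W i) × V) × (Fin k → Z)) ≃ Unit × (U × (∀ i, W i) × V) × (Fin k → Z) :=
    (Equiv.punitProd _).symm
  obtain ⟨ρ', h4, h5⟩ := exists_conj E ρ
  apply h5
  refine h3 Unit (by simp) (U × (∀ i, W i) × V) bb hP Z τ cc F hF1 (hF2 D hD) ρ' ?_ g hg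
  intro l i y w x hx
  obtain ⟨u, w', v⟩ := y
  show ρ' (gen σ l) (E ((u, w', v), w)) = _
  rw [h4, hact l u w' v w _ rfl]
  have h6 := hF3 l (u, w', v) w (patW s τ w) (fun p q d h => h.1) _ rfl
  rw [hx]
  show _ = ((F l () (bb (u, w', v)) (fun j => cc j (w j), patW s τ w)).1,
    act.smul (F l () (bb (u, w', v)) (fun j => cc j (w j), patW s τ w)).2.1 (u, w', v),
    fun j => (τ ^ (F l () (bb (u, w', v)) (fun j => cc j (w j), patW s τ w)).2.2 j) (w j))
  rw [h6, hact']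
  rfl

/-- local form -/
theorem mh_local (G : Type) [Group G] [Group.IsFinitelyPresented G] (hG : IsMulTorsion G)
    (S : Set G) (hS : Subgroup.closure S = ⊤) (L M : Type) [Group L] [Group M]
    (hL : ∀ E : Set L, E.Finite → ∃ m : ℕ, ∃ C : Set L, ∀ x : L,
      {y | Relation.ReflTransGen (fun a b => (a ∈ C ↔ b ∈ C) ∧ ∃ e ∈ E, b = e * a) x y}.encard ≤ m)
    (Γ : Subgroup M) [Γ.FiniteIndex] (kf : ℕ) (e : Γ ≃* FreeGroup (Fin kf))
    (k₀ k m s : ℕ) (K : Set (L × (Fin k₀ → ℤ) × M × (Fin k → ℤ))) (hK : K.Finite) :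
    ∃ (R : ℕ) (N : Subgroup G), N.Normal ∧ N.FiniteIndex ∧
      ∀ (X : Type) (ρ : G →* Equiv.Perm X) (x₀ : X),
      (∃ (U V : Type) (_ : MulAction L U) (_ : MulAction M V) (W : Fin k₀ → Type)
        (T : ∀ i, Equiv.Perm (W i)) (ι : (U × (∀ i, W i) × V) × (Fin k → ℤ) → X)
        (y₀ : U × (∀ i, W i) × V) (z₀ : Fin k → ℤ) (P : Setoid (Fin k)), ι (y₀, z₀) = x₀ ∧
        (∀ (l : L) (u : U), l • u = u → l = 1) ∧ (∀ (x : M) (v : V), x • v = v → x = 1) ∧
        (∀ x x', (∀ j, |x.2 j - z₀ j| ≤ (R : ℤ)) → (∀ j, |x'.2 j - z₀ j| ≤ (R : ℤ)) →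
          ι x = ι x' → x = x') ∧
        (∀ g, (g ∈ S ∨ g⁻¹ ∈ S) → ∃ (a : ∀ i, W i → Fin m) (b : V → Fin m)
          (c : Fin k → ℤ → Fin m)
          (f : U → (Fin k₀ → Fin m) → Fin m → (Fin k → Fin m) → (Fin k → Fin k → ℤ → Prop) →
            L × (Fin k₀ → ℤ) × M × (Fin k → ℤ)), (∀ u α β γ o, f u α β γ o ∈ K) ∧
          ∀ u w v z, (∀ j, |z j - z₀ j| ≤ (R : ℤ)) → ∀ x, x = f u (fun i => a i (w i)) (b v)
              (fun j => c j (z j)) (fun p q d => P p q ∧ |d| ≤ (s : ℤ) ∧ z p + d = z q) →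
            ρ g (ι ((u, w, v), z)) = ι ((x.1 • u, (fun i => (T i ^ x.2.1 i) (w i)),
              x.2.2.1 • v), z + x.2.2.2))) →
      ∀ g ∈ N, ρ g x₀ = x₀ := by
  classical
  obtain ⟨MM, σ, hσS, hσ, -⟩ := exists_tuple G S hS
  obtain ⟨m', hm'⟩ := coding MM k₀ k m s L M K hK
  obtain ⟨D, hD⟩ := exists_bound K hK (fun x => x.2.2.2)
  obtain ⟨R, N, h1, h2, h3⟩ := charts_uniform (cls L M k₀) (uf_all L M hL Γ kf e k₀) k G hG σ hσ
    1 m' m' s D (insert 1 ((fun x : L × (Fin k₀ → ℤ) × M × (Fin k → ℤ) =>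
          ((x.1, fun i => Multiplicative.ofAdd (x.2.1 i), x.2.2.1) :
            L × (Fin k₀ → Multiplicative ℤ) × M)) '' K)) ((hK.image _).insert _)
  refine ⟨R, N, h1, h2, ?_⟩
  rintro X ρ x₀ ⟨U, V, _, _, W, T, ι, y₀, z₀, P, hx₀, hU, hV, hinj, hρ⟩ g hg
  choose a b c f hf hact using fun l => hρ (gen σ l) (gen_mem σ S hσS l)
  obtain ⟨act, bb, cc, F, hP, hF1, hF2, hact', hF3⟩ := hm' U V ℤ W T hU hV a b c f hf
  let ι' : Unit × (U × (∀ i, W i) × V) × (Fin k → ℤ) → X := fun x => ι x.2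
  have hc : Cht σ ρ F bb (obs s cc P) z₀ R ι' := by
    refine ⟨?_, ?_⟩
    · rintro l ⟨i, ⟨u, w, v⟩, z⟩ hz
      show ρ (gen σ l) (ι ((u, w, v), z)) = _
      rw [hact l u w v z hz _ rfl]
      have h6 := hF3 l (u, w, v) z (fun p q d => P p q ∧ |d| ≤ (s : ℤ) ∧ z p + d = z q)
        (fun p q d h => h.2.1) _ rfl
      show _ = ι (act.smul (F l () (bb (u, w, v)) (fun j => cc j (z j),
          fun p q d => P p q ∧ |d| ≤ (s : ℤ) ∧ z p + d = z q)).2.1 (u, w, v),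
        z + (F l () (bb (u, w, v)) (fun j => cc j (z j),
          fun p q d => P p q ∧ |d| ≤ (s : ℤ) ∧ z p + d = z q)).2.2)
      rw [h6, hact']
      rfl
    · rintro ⟨i, y, z⟩ ⟨i', y', z'⟩ hz hz' h
      exact Prod.ext rfl (hinj (y, z) (y', z') hz hz' h)
  have h7 := h3 P Unit (by simp) (U × (∀ i, W i) × V) bb hP cc F hF1 (hF2 D hD) X ρ z₀ ι' hc ()
    y₀ g hg
  rw [← hx₀]
  exact h7

theorem cutp_patW {k : ℕ} {Z : Type} {s s' : ℕ} (h : s' ≤ s) (τ : Equiv.Perm Z) (z : Fin k → Z) :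
    cutp s' (patW s τ z) = fpatW s' τ z := by
  funext p q e
  apply propext
  have h1 := e.2
  constructor
  · intro h2; exact h2.2
  · intro h2
    refine ⟨?_, h2⟩
    rw [abs_le]; constructor <;> omega

theorem dpat_fpatW {k : ℕ} {Z : Type} (s : ℕ) (τ : Equiv.Perm Z) (z : Fin k → Z) :
    dpat s (fpatW s τ z) = patW s τ z := dpat_of s (fun p q d => (τ ^ d) (z p) = z q)

/-- groups of reversible automata with `k` heads on a set with a permutation -/
theorem automata_wt (G : Type) [Group G] [Group.IsFinitelyPresented G] (hG : IsMulTorsion G)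
    (Q : Type) [Finite Q] (k : ℕ) (Z : Type) (τ : Equiv.Perm Z)
    (ρ : G →* Equiv.Perm (Q × (Fin k → Z)))
    (hρ : ∀ g, ∃ (m s : ℕ) (a : Z → Fin m)
      (f : Q → (Fin k → Fin m) → (Fin k → Fin k → ℤ → Prop) → Q × (Fin k → ℤ)),
      ∀ q z x, x = f q (fun j => a (z j)) (patW s τ z) →
        ρ g (q, z) = (x.1, fun j => (τ ^ x.2 j) (z j))) :
    Finite ρ.range := by
  classical
  obtain ⟨MM, σ, -, hσ, -⟩ := exists_tuple G ⊤ (by simp)
  choose m s a f hf using fun l : Fin MM × Bool => hρ (gen σ l)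
  obtain ⟨s₁, hs₁⟩ := (Set.finite_range s).bddAbove
  have hs : ∀ l, s l ≤ s₁ := fun l => hs₁ ⟨l, rfl⟩
  let X : Type := ∀ l : Fin MM × Bool, Fin (m l)
  let ε : X ≃ Fin (Nat.card X) := Finite.equivFin X
  let val : (Σ l : Fin MM × Bool, Q × (Fin k → Fin (m l)) ×
      (Fin k → Fin k → Fin (2 * s l + 1) → Prop)) → Q × (Fin k → ℤ) := fun y =>
    f y.1 y.2.1 y.2.2.1 (dpat (s y.1) y.2.2.2)
  obtain ⟨D, hD'⟩ := exists_bound (Set.univ : Set (Σ l : Fin MM × Bool, Q × (Fin k → Fin (m l)) ×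
      (Fin k → Fin k → Fin (2 * s l + 1) → Prop))) Set.finite_univ (fun y => (val y).2)
  have hD : ∀ y j, |(val y).2 j| ≤ (D : ℤ) := fun y => hD' y trivial
  obtain ⟨N, h1, h2, h3⟩ := wt_uniform (cls Unit Unit 0) uf_triv k G hG σ hσ (Nat.card Q) 1
    (Nat.card X) s₁ D {1} (Set.finite_singleton _)
  let Y : Type := Unit × (∀ i : Fin 0, Unit) × Unit
  letI act : MulAction (Unit × (Fin 0 → Multiplicative ℤ) × Unit) Y :=
    { smul := fun l y => y
      one_smul := fun y => rfl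
      mul_smul := fun l l' y => rfl }
  letI actu : MulAction Unit Unit :=
    { smul := fun l y => y
      one_smul := fun y => rfl
      mul_smul := fun l l' y => rfl }
  let bb : Y → Fin 1 × (Fin 0 → Fin 1) × Fin 1 := fun _ => (0, fun i => i.elim0, 0)
  let E : (Q × (Fin k → Z)) ≃ Q × Y × (Fin k → Z) :=
    { toFun := fun x => (x.1, ((), fun i => i.elim0, ()), x.2)
      invFun := fun x => (x.1, x.2.2)
      left_inv := fun x => rfl
      right_inv := by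
        rintro ⟨q, ⟨u, w, v⟩, z⟩
        refine Prod.ext rfl (Prod.ext (Prod.ext rfl (Prod.ext (funext fun i => i.elim0) rfl)) rfl) }
  obtain ⟨ρ', h4, h5⟩ := exists_conj E ρ
  let α : Fin k → Z → Fin (Nat.card X) := fun j x => ε (fun l => a l x)
  let F : Fin MM × Bool → Q → Fin 1 × (Fin 0 → Fin 1) × Fin 1 →
      (Fin k → Fin (Nat.card X)) × (Fin k → Fin k → ℤ → Prop) →
      Q × (Unit × (Fin 0 → Multiplicative ℤ) × Unit) × (Fin k → ℤ) := fun l q _ o =>
    ((val ⟨l, q, fun j => ε.symm (o.1 j) l, cutp (s l) o.2⟩).1, 1,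
      (val ⟨l, q, fun j => ε.symm (o.1 j) l, cutp (s l) o.2⟩).2)
  have hone : ∀ g ∈ N, ρ' g = 1 := by
    refine h3 Q le_rfl Y bb ?_ Z τ α F ?_ ?_ ρ' ?_
    · exact ⟨Unit, Unit, actu, actu, fun _ => Unit, fun _ => 1, Equiv.refl _, fun _ => 0,
        fun i => i.elim0, fun _ => 0, fun _ _ _ => rfl, fun _ _ _ => rfl,
        fun l y => Prod.ext rfl (Prod.ext (funext fun i => i.elim0) rfl),
        fun y => Prod.ext rfl (Prod.ext (funext fun i => i.elim0) rfl)⟩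
    · intro l q β o; rfl
    · intro l q β o j; exact hD _ _
    · intro l q y z x hx
      have e1 : (q, y, z) = E (q, z) := by
        obtain ⟨u, w, v⟩ := y
        exact Prod.ext rfl (Prod.ext (Prod.ext rfl (Prod.ext (funext fun i => i.elim0) rfl)) rfl)
      have e2 : cutp (s l) (obsW s₁ α τ z).2 = fpatW (s l) τ z := cutp_patW (hs l) τ z
      have e3 : (fun j => ε.symm ((obsW s₁ α τ z).1 j) l) = fun j => a l (z j) := by
        funext j
        show ε.symm (ε (fun l => a l (z j))) l = a l (z j)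
        rw [Equiv.symm_apply_apply]
      have e4 : F l q (bb y) (obsW s₁ α τ z) = ((f l q (fun j => a l (z j)) (patW (s l) τ z)).1, 1,
          (f l q (fun j => a l (z j)) (patW (s l) τ z)).2) := by
        show ((val ⟨l, q, fun j => ε.symm ((obsW s₁ α τ z).1 j) l,
          cutp (s l) (obsW s₁ α τ z).2⟩).1, 1,
          (val ⟨l, q, fun j => ε.symm ((obsW s₁ α τ z).1 j) l,
          cutp (s l) (obsW s₁ α τ z).2⟩).2) = _
        rw [e2, e3]
        show ((f l q (fun j => a l (z j)) (dpat (s l) (fpatW (s l) τ z))).1, 1,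
          (f l q (fun j => a l (z j)) (dpat (s l) (fpatW (s l) τ z))).2) = _
        rw [dpat_fpatW]
      have e5 : x = ((f l q (fun j => a l (z j)) (patW (s l) τ z)).1, 1,
          (f l q (fun j => a l (z j)) (patW (s l) τ z)).2) := hx.trans e4
      rw [e5, e1, h4, hf l q z _ rfl]
      obtain ⟨u, w, v⟩ := y
      refine Prod.ext rfl (Prod.ext (Prod.ext rfl (Prod.ext (funext fun i => i.elim0) rfl)) rfl)
  have hker : N ≤ ρ.ker := fun g hg => h5 g (hone g hg)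
  haveI : ρ.ker.FiniteIndex := Subgroup.finiteIndex_of_le hker
  haveI : Finite (G ⧸ ρ.ker) := inferInstance
  exact Finite.of_equiv _ (QuotientGroup.quotientKerEquivRange ρ).toEquiv

end Vale.Agent.P192.H291
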