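import Vale.Agent.P192.H291.Step

set_option linter.all false

/-! Words for the cosets of a normal subgroup; the members of a virtual system. -/

namespace Vale.Agent.P192.H291

open Vale.Agent.P192 Vale.Agent.P192.H593 Vale.Agent.P192.H437 Vale.Agent.P192.H567

theorem fix_back {G Q : Type} [Group G] (N : Subgroup G) [N.Normal] (ρ : G →* Equiv.Perm Q) (g : G)
    (x : Q) (h : ∀ n ∈ N, ρ n (ρ g x) = ρ g x) : ∀ n ∈ N, ρ n x = x := by
  intro n hn
  have h1 := h (g * n * g⁻¹) (Subgroup.Normal.conj_mem inferInstance n hn g)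
  have h2 : ρ (g * n * g⁻¹) (ρ g x) = ρ g (ρ n x) := by
    rw [← Equiv.Perm.mul_apply, ← map_mul, inv_mul_cancel_right, map_mul, Equiv.Perm.mul_apply]
  rw [h2] at h1
  exact (ρ g).injective h1

/-- words for the cosets -/
theorem coset_words {G : Type} [Group G] {M : ℕ} (σ : Fin M → G)
    (hσ : Subgroup.closure (Set.range σ) = ⊤) (N : Subgroup G) [N.Normal] [N.FiniteIndex] :
    ∃ (w : G ⧸ N → List (Fin M × Bool)) (ℓ : ℕ), w 1 = [] ∧
      (∀ x, (QuotientGroup.mk ((FreeGroup.lift σ : FreeGroup (Fin M) →* G)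
        (FreeGroup.mk (w x))) : G ⧸ N) = x) ∧ ∀ x, (w x).length ≤ ℓ := by
  classical
  have hsurj : Function.Surjective (FreeGroup.lift σ : FreeGroup (Fin M) →* G) :=
    FreeGroup.lift_surjective_iff_closure_range_eq_top.2 hσ
  have h1 : ∀ x : G ⧸ N, ∃ w : List (Fin M × Bool), (x = 1 → w = []) ∧
      (QuotientGroup.mk ((FreeGroup.lift σ : FreeGroup (Fin M) →* G)
        (FreeGroup.mk w)) : G ⧸ N) = x := by
    intro x
    by_cases hx : x = 1
    · refine ⟨[], fun _ => rfl, ?_⟩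
      rw [hx, ← FreeGroup.one_eq_mk, map_one]; rfl
    · obtain ⟨g, rfl⟩ := QuotientGroup.mk_surjective x
      obtain ⟨v, rfl⟩ := hsurj g
      exact ⟨v.toWord, fun h => absurd h hx, by rw [FreeGroup.mk_toWord]⟩
  choose w hw1 hw2 using h1
  haveI : Finite (G ⧸ N) := inferInstance
  obtain ⟨ℓ, hℓ⟩ := (Set.finite_range fun x => (w x).length).bddAbove
  exact ⟨w, ℓ, hw1 1 rfl, hw2, fun x => hℓ ⟨x, rfl⟩⟩

/-- if a transversal of `N` acts on `p` as it should, then `N` fixes `p` -/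
theorem fix_of_cosets {G : Type} [Group G] {M : ℕ} (σ : Fin M → G)
    (hσ : Subgroup.closure (Set.range σ) = ⊤) (N : Subgroup G) [N.Normal]
    (w : G ⧸ N → List (Fin M × Bool)) (hw1 : w 1 = []) {Q : Type} {st : Fin M × Bool → Q → Q}
    (ρ : G →* Equiv.Perm Q) (h : ∀ l q, ρ (gen σ l) q = st l q) (p : Q)
    (H : ∀ l (x : G ⧸ N), runS st (l :: w x) p =
      runS st (w (QuotientGroup.mk (gen σ l) * x)) p) : ∀ g ∈ N, ρ g p = p := by
  have hsurj : Function.Surjective (FreeGroup.lift σ : FreeGroup (Fin M) →* G) :=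
    FreeGroup.lift_surjective_iff_closure_range_eq_top.2 hσ
  have key : ∀ W : List (Fin M × Bool), runS st W p = runS st (w (QuotientGroup.mk
      ((FreeGroup.lift σ : FreeGroup (Fin M) →* G) (FreeGroup.mk W)))) p := by
    intro W
    induction W with
    | nil =>
      have e : (QuotientGroup.mk ((FreeGroup.lift σ : FreeGroup (Fin M) →* G)
          (FreeGroup.mk [])) : G ⧸ N) = 1 := by
        rw [← FreeGroup.one_eq_mk, map_one]; rfl
      rw [e, hw1]
    | cons l W ih =>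
      rw [runS_cons, ih, ← runS_cons st, H, lift_gen, lift_gen, List.map_cons, List.prod_cons]
      rfl
  intro g hg
  obtain ⟨v, rfl⟩ := hsurj g
  have h1 := hom_run σ ρ h v.toWord p
  rw [FreeGroup.mk_toWord] at h1
  rw [h1, key, FreeGroup.mk_toWord]
  have e : (QuotientGroup.mk ((FreeGroup.lift σ : FreeGroup (Fin M) →* G) v) : G ⧸ N) = 1 :=
    (QuotientGroup.eq_one_iff _).2 hg
  rw [e, hw1]; rfl

section

variable {G L : Type} [Group G] [Group L] {M k : ℕ} {I Y B O : Type} [MulAction L Y]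

/-- the members of a virtual system: the transversal does not lead to a bad position -/
def Mem (w : G → List (Fin M × Bool)) (st : Fin M × Bool → (I × Y × (Fin k → ℤ)) →
    (I × Y × (Fin k → ℤ))) (Nr : (Fin k → ℤ) → Prop) (p : I × Y × (Fin k → ℤ)) : Prop :=
  ∀ x, Nr (runS st (w x) p).2.2

/-- the virtual system with the non-members fixed -/
noncomputable def st2 (w : G → List (Fin M × Bool)) (st : Fin M × Bool → (I × Y × (Fin k → ℤ)) →
    (I × Y × (Fin k → ℤ))) (Nr : (Fin k → ℤ) → Prop) (l : Fin M × Bool)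
    (p : I × Y × (Fin k → ℤ)) : I × Y × (Fin k → ℤ) :=
  open Classical in if Mem w st Nr p then st l p else p

theorem mem_step {K : Set L} {D : ℕ} {f : Fin M × Bool → I → B → O → I × L × (Fin k → ℤ)}
    (hf1 : ∀ l i β o, (f l i β o).2.1 ∈ K) (hf2 : ∀ l i β o j, |(f l i β o).2.2 j| ≤ (D : ℤ))
    (b : Y → B) (ob ob' : (Fin k → ℤ) → O) (σ : Fin M → G)
    (N : Subgroup G) [N.Normal] (w : G ⧸ N → List (Fin M × Bool)) (ℓ t : ℕ)
    (hw2 : ∀ x, (QuotientGroup.mk ((FreeGroup.lift σ : FreeGroup (Fin M) →* G)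
        (FreeGroup.mk (w x))) : G ⧸ N) = x) (hw3 : ∀ x, (w x).length ≤ ℓ) (hw1 : w 1 = [])
    (ht : D * (ℓ + 1) ≤ t) (Nr : (Fin k → ℤ) → Prop)
    (ρ : G →* Equiv.Perm (I × Y × (Fin k → ℤ))) (hρ : ∀ l q, ρ (gen σ l) q = hst f b ob l q)
    (RL : ∀ z, Nr z → ∃ z', Mt t ob' ob z z' ∧ ∀ d : Fin k → ℤ, (∀ j, |d j| ≤ (t : ℤ)) →
      ¬ Nr (z + d) → ∀ i y, ∀ g ∈ N, ρ g (i, y, z' + d) = (i, y, z' + d))
    (l : Fin M × Bool) (p : I × Y × (Fin k → ℤ)) (hp : Mem w (hst f b ob') Nr p) :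
    Mem w (hst f b ob') Nr (hst f b ob' l p) := by
  obtain ⟨i, y, z⟩ := p
  have hz : Nr z := by
    have := hp 1
    rwa [hw1] at this
  obtain ⟨z', hz1, hz2⟩ := RL z hz
  intro x
  have hrun : runS (hst f b ob') (w x) (hst f b ob' l (i, y, z)) =
      runS (hst f b ob') (w x ++ [l]) (i, y, z) := by
    rw [runS_append]; rfl
  rw [hrun]
  have hlen : (w x ++ [l]).length ≤ ℓ + 1 := by
    rw [List.length_append]
    exact Nat.add_le_add (hw3 x) le_rfl
  obtain ⟨i₁, τ₁, d₁, -, hd₁, h1, h2⟩ := h_transfer hf1 hf2 b ob' ob (w x ++ [l]) i y y z z'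
    (fun _ _ => rfl) (hz1.mono ((Nat.mul_le_mul_left D hlen).trans ht))
  rw [h1]
  by_contra hno
  have hfix := hz2 d₁ (fun j => (hd₁ j).trans (by
    exact_mod_cast (Nat.mul_le_mul_left D hlen).trans ht)) hno i₁ (τ₁ • y)
  set g' := (FreeGroup.lift σ : FreeGroup (Fin M) →* G) (FreeGroup.mk (w x ++ [l])) with hg'
  have h3 : ρ g' (i, y, z') = (i₁, τ₁ • y, z' + d₁) := by
    rw [hg', hom_run σ ρ hρ, h2]
  have hfix' : ∀ n ∈ N, ρ n (i, y, z') = (i, y, z') :=
    fix_back N ρ g' _ (by rw [h3]; exact hfix)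
  set x₂ : G ⧸ N := QuotientGroup.mk g' with hx₂
  set g₂ := (FreeGroup.lift σ : FreeGroup (Fin M) →* G) (FreeGroup.mk (w x₂)) with hg₂
  have h4 : g₂⁻¹ * g' ∈ N := by
    apply QuotientGroup.eq.1
    exact hw2 x₂
  have h5 : ρ g₂ (i, y, z') = ρ g' (i, y, z') := by
    have : g' = g₂ * (g₂⁻¹ * g') := by group
    conv_rhs => rw [this, map_mul, Equiv.Perm.mul_apply, hfix' _ h4]
  obtain ⟨i₂, τ₂, d₂, -, hd₂, h6, h7⟩ := h_transfer hf1 hf2 b ob' ob (w x₂) i y y z z'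
    (fun _ _ => rfl) (hz1.mono ((Nat.mul_le_mul_left D ((hw3 x₂).trans (Nat.le_succ ℓ))).trans ht))
  have h8 : ρ g₂ (i, y, z') = (i₂, τ₂ • y, z' + d₂) := by
    rw [hg₂, hom_run σ ρ hρ, h7]
  rw [h8, h3] at h5
  have h9 : z' + d₂ = z' + d₁ := congrArg (fun q : I × Y × (Fin k → ℤ) => q.2.2) h5
  have h10 : d₂ = d₁ := add_left_cancel h9
  have h11 := hp x₂
  rw [h6] at h11
  apply hno
  show Nr (z + d₁)
  rw [← h10]
  exact h11

theorem st2_run {w : G → List (Fin M × Bool)} {st : Fin M × Bool → (I × Y × (Fin k → ℤ)) →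
    (I × Y × (Fin k → ℤ))} {Nr : (Fin k → ℤ) → Prop}
    (hst : ∀ l p, Mem w st Nr p → Mem w st Nr (st l p)) (W : List (Fin M × Bool))
    (p : I × Y × (Fin k → ℤ)) (hp : Mem w st Nr p) :
    runS (st2 w st Nr) W p = runS st W p ∧ Mem w st Nr (runS st W p) := by
  induction W with
  | nil => exact ⟨rfl, hp⟩
  | cons l W ih =>
    rw [runS_cons, ih.1, runS_cons]
    refine ⟨?_, hst l _ ih.2⟩
    unfold st2
    rw [if_pos ih.2]

theorem st2_run_not {w : G → List (Fin M × Bool)} {st : Fin M × Bool → (I × Y × (Fin k → ℤ)) →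
    (I × Y × (Fin k → ℤ))} {Nr : (Fin k → ℤ) → Prop} (W : List (Fin M × Bool))
    (p : I × Y × (Fin k → ℤ)) (hp : ¬ Mem w st Nr p) : runS (st2 w st Nr) W p = p := by
  induction W with
  | nil => rfl
  | cons l W ih =>
    rw [runS_cons, ih]
    unfold st2
    rw [if_neg hp]

theorem st2_good {K : Set L} {D : ℕ} {f : Fin M × Bool → I → B → O → I × L × (Fin k → ℤ)}
    (hf1 : ∀ l i β o, (f l i β o).2.1 ∈ K) (hf2 : ∀ l i β o j, |(f l i β o).2.2 j| ≤ (D : ℤ))
    (b : Y → B) (ob ob' : (Fin k → ℤ) → O) (σ : Fin M → G) (R : Set (FreeGroup (Fin M))) (r : ℕ)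
    (hr : 2 ≤ r) (hR : ∀ w ∈ R, w.norm ≤ r)
    (hRk : Subgroup.normalClosure R = (FreeGroup.lift σ : FreeGroup (Fin M) →* G).ker)
    (N : Subgroup G) [N.Normal] (w : G ⧸ N → List (Fin M × Bool)) (ℓ t : ℕ)
    (hw2 : ∀ x, (QuotientGroup.mk ((FreeGroup.lift σ : FreeGroup (Fin M) →* G)
        (FreeGroup.mk (w x))) : G ⧸ N) = x) (hw3 : ∀ x, (w x).length ≤ ℓ) (hw1 : w 1 = [])
    (ht : D * (ℓ + 1) ≤ t) (ht' : D * r ≤ t) (Nr : (Fin k → ℤ) → Prop)
    (ρ : G →* Equiv.Perm (I × Y × (Fin k → ℤ))) (hρ : ∀ l q, ρ (gen σ l) q = hst f b ob l q)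
    (RL : ∀ z, Nr z → ∃ z', Mt t ob' ob z z' ∧ ∀ d : Fin k → ℤ, (∀ j, |d j| ≤ (t : ℤ)) →
      ¬ Nr (z + d) → ∀ i y, ∀ g ∈ N, ρ g (i, y, z' + d) = (i, y, z' + d)) :
    SGood R (st2 w (hst f b ob') Nr) := by
  have hms := mem_step hf1 hf2 b ob ob' σ N w ℓ t hw2 hw3 hw1 ht Nr ρ hρ RL
  have key : ∀ W : List (Fin M × Bool), W.length ≤ r →
      (FreeGroup.lift σ : FreeGroup (Fin M) →* G) (FreeGroup.mk W) = 1 →
      ∀ p, runS (st2 w (hst f b ob') Nr) W p = p := by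
    intro W hW hW1 p
    by_cases hp : Mem w (hst f b ob') Nr p
    · rw [(st2_run hms W p hp).1]
      obtain ⟨i, y, z⟩ := p
      have hz : Nr z := by
        have := hp 1
        rwa [hw1] at this
      obtain ⟨z', hz1, hz2⟩ := RL z hz
      obtain ⟨i₁, τ₁, d₁, -, hd₁, h1, h2⟩ := h_transfer hf1 hf2 b ob' ob W i y y z z'
        (fun _ _ => rfl) (hz1.mono ((Nat.mul_le_mul_left D hW).trans ht'))
      have h3 := hom_run σ ρ hρ W (i, y, z')
      rw [hW1, map_one, h2] at h3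
      have h4 : (i, y, z') = (i₁, τ₁ • y, z' + d₁) := h3
      have e1 : i = i₁ := congrArg Prod.fst h4
      have e2 : y = τ₁ • y := congrArg (fun q : I × Y × (Fin k → ℤ) => q.2.1) h4
      have e3 : z' = z' + d₁ := congrArg (fun q : I × Y × (Fin k → ℤ) => q.2.2) h4
      have e4 : d₁ = 0 := by
        have : z' + 0 = z' + d₁ := by rw [add_zero]; exact e3
        exact (add_left_cancel this).symm
      rw [h1, ← e1, ← e2, e4, add_zero]
    · exact st2_run_not W p hp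
  refine ⟨fun i ε p => ?_, fun v hv p => ?_⟩
  · refine key [(i, ε), (i, !ε)] (by simpa using hr) ?_ p
    rw [lift_gen]
    simp only [List.map_cons, List.map_nil, List.prod_cons, List.prod_nil, mul_one]
    exact gen_inv σ i ε
  · refine key v.toWord (hR v hv) ?_ p
    rw [FreeGroup.mk_toWord]
    have h1 : v ∈ (FreeGroup.lift σ : FreeGroup (Fin M) →* G).ker := by
      rw [← hRk]; exact Subgroup.subset_normalClosure hv
    exact h1

end

end Vale.Agent.P192.H291
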