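import Vale.Agent.P192.H291.ChMain

set_option linter.all false

/-! `k` heads on an arbitrary set with an arbitrary permutation. -/

namespace Vale.Agent.P192.H291

open Vale.Agent.P192 Vale.Agent.P192.H593 Vale.Agent.P192.H437 Vale.Agent.P192.H567

/-- what the heads see on a set with a permutation `T` -/
def obsW {k : ℕ} {A W : Type} (s : ℕ) (a : Fin k → W → A) (T : Equiv.Perm W) (w : Fin k → W) :
    (Fin k → A) × (Fin k → Fin k → ℤ → Prop) :=
  (fun j => a j (w j), fun p q d => |d| ≤ (s : ℤ) ∧ (T ^ d) (w p) = w q)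

theorem zpow_fix {W : Type} (T : Equiv.Perm W) {d e : ℤ} {v v' : W} (h : (T ^ d) v = v')
    (he : (T ^ e) v = v) : (T ^ e) v' = v' := by
  rw [← h, ← Equiv.Perm.mul_apply, ← zpow_add, add_comm, zpow_add, Equiv.Perm.mul_apply, he]

theorem walk_disp {k : ℕ} {W : Type} (T : Equiv.Perm W) (w : Fin k → W) (E : ℕ)
    (Gr : SimpleGraph (Fin k))
    (hG : ∀ p q, Gr.Adj p q → ∃ e : ℤ, |e| ≤ (E : ℤ) ∧ (T ^ e) (w p) = w q) {p q : Fin k}
    (Wk : Gr.Walk p q) : ∃ e : ℤ, |e| ≤ ((Wk.length * E : ℕ) : ℤ) ∧ (T ^ e) (w p) = w q := by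
  induction Wk with
  | nil => exact ⟨0, by simp, by simp⟩
  | cons h Wk ih =>
    obtain ⟨e, h1, h2⟩ := ih
    obtain ⟨e', h3, h4⟩ := hG _ _ h
    refine ⟨e + e', ?_, ?_⟩
    · refine (abs_add_le _ _).trans ?_
      rw [SimpleGraph.Walk.length_cons]
      push_cast at h1 ⊢
      linarith
    · rw [zpow_add, Equiv.Perm.mul_apply, h4, h2]

theorem reach_disp {k : ℕ} {W : Type} (T : Equiv.Perm W) (w : Fin k → W) (E : ℕ)
    (Gr : SimpleGraph (Fin k))
    (hG : ∀ p q, Gr.Adj p q → ∃ e : ℤ, |e| ≤ (E : ℤ) ∧ (T ^ e) (w p) = w q) {p q : Fin k}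
    (h : Gr.Reachable p q) : ∃ e : ℤ, |e| ≤ ((k * E : ℕ) : ℤ) ∧ (T ^ e) (w p) = w q := by
  classical
  obtain ⟨Wk⟩ := h
  obtain ⟨e, h1, h2⟩ := walk_disp T w E Gr hG (Wk.toPath : Gr.Walk p q)
  refine ⟨e, h1.trans ?_, h2⟩
  have h3 := Wk.toPath.2.length_lt
  rw [Fintype.card_fin] at h3
  exact_mod_cast Nat.mul_le_mul_right E h3.le

/-- the head returns after at most `p` steps -/
def Sht {W : Type} (T : Equiv.Perm W) (v : W) (p : ℕ) : Prop :=
  ∃ d : ℤ, d ≠ 0 ∧ |d| ≤ (p : ℤ) ∧ (T ^ d) v = v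

theorem Sht.mono {W : Type} {T : Equiv.Perm W} {v : W} {p q : ℕ} (h : Sht T v p) (hpq : p ≤ q) :
    Sht T v q := by
  obtain ⟨d, h1, h2, h3⟩ := h
  exact ⟨d, h1, h2.trans (by exact_mod_cast hpq), h3⟩

theorem Sht.orbit {W : Type} {T : Equiv.Perm W} {v v' : W} {p : ℕ} (h : Sht T v p) {e : ℤ}
    (he : (T ^ e) v = v') : Sht T v' p := by
  obtain ⟨d, h1, h2, h3⟩ := h
  exact ⟨d, h1, h2, zpow_fix T he h3⟩

/-- the places of a head which returns after at most `p` steps -/
theorem orbit_card {W : Type} (T : Equiv.Perm W) (v : W) (p : ℕ) (hp : 1 ≤ p) (S : Prop)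
    (hS : S → Sht T v p) : Finite {v' : W // v' = v ∨ (S ∧ ∃ d : ℤ, (T ^ d) v = v')} ∧
      Nat.card {v' : W // v' = v ∨ (S ∧ ∃ d : ℤ, (T ^ d) v = v')} ≤ p := by
  classical
  have key : ∃ g : Fin p → {v' : W // v' = v ∨ (S ∧ ∃ d : ℤ, (T ^ d) v = v')},
      Function.Surjective g := by
    by_cases h : S
    · obtain ⟨d, hd0, hd1, hd2⟩ := hS h
      obtain ⟨e, he0, hep, he⟩ : ∃ e : ℤ, 0 < e ∧ e ≤ p ∧ (T ^ e) v = v := by
        rw [abs_le] at hd1
        rcases lt_or_gt_of_ne hd0 with h1 | h1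
        · refine ⟨-d, by omega, by omega, ?_⟩
          rw [zpow_neg, Equiv.Perm.inv_eq_iff_eq]
          exact hd2.symm
        · exact ⟨d, h1, hd1.2, hd2⟩
      have hper : ∀ n : ℤ, (T ^ (e * n)) v = v := by
        intro n
        rw [zpow_mul]
        induction n using Int.induction_on with
        | zero => simp
        | succ n ih => rw [zpow_add, Equiv.Perm.mul_apply, zpow_one, he, ih]
        | pred n ih =>
          rw [sub_eq_add_neg, zpow_add, Equiv.Perm.mul_apply]
          have h5 : ((T ^ e) ^ (-1 : ℤ)) v = v := by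
            rw [zpow_neg_one, Equiv.Perm.inv_eq_iff_eq]; exact he.symm
          rw [h5, ih]
      refine ⟨fun t => ⟨(T ^ ((t : ℕ) : ℤ)) v, Or.inr ⟨h, _, rfl⟩⟩, ?_⟩
      rintro ⟨v', hv'⟩
      obtain ⟨n, hn⟩ : ∃ n : ℤ, (T ^ n) v = v' := by
        rcases hv' with rfl | ⟨-, n, hn⟩
        · exact ⟨0, by simp⟩
        · exact ⟨n, hn⟩
      have h1 := Int.emod_nonneg n he0.ne'
      have h2 := Int.emod_lt_of_pos n he0
      refine ⟨⟨(n % e).toNat, by omega⟩, Subtype.ext ?_⟩
      show (T ^ (((n % e).toNat : ℕ) : ℤ)) v = v'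
      rw [Int.toNat_of_nonneg h1, ← hn]
      conv_rhs => rw [← Int.emod_add_mul_ediv n e, zpow_add, Equiv.Perm.mul_apply, hper]
    · refine ⟨fun _ => ⟨v, Or.inl rfl⟩, ?_⟩
      rintro ⟨v', hv'⟩
      refine ⟨⟨0, hp⟩, Subtype.ext ?_⟩
      rcases hv' with rfl | ⟨h', -⟩
      · rfl
      · exact absurd h' h
  obtain ⟨g, hg⟩ := key
  refine ⟨Finite.of_surjective g hg, ?_⟩
  refine (Nat.card_le_card_of_surjective g hg).trans ?_
  rw [Nat.card_eq_fintype_card, Fintype.card_fin]

theorem wt_point {L : Type} [Group L] (c : Cls L) (k : ℕ) (G : Type) [Group G] {M : ℕ}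
    (σ : Fin M → G) (n m m₁ s D : ℕ) (K : Set L) (p R : ℕ) (hp : 1 ≤ p) (N : Subgroup G)
    (hN : ∀ P : Setoid (Fin k), ∀ (I : Type) [Finite I], Nat.card I ≤ n * p ^ k →
      ∀ (Y : Type) [MulAction L Y] (b : Y → c.C m), c.P m Y b →
      ∀ (a : Fin k → ℤ → Fin m₁) (f : Fin M × Bool → I → c.C m →
        (Fin k → Fin m₁) × (Fin k → Fin k → ℤ → Prop) → I × L × (Fin k → ℤ)),
      (∀ l i β o, (f l i β o).2.1 ∈ K) → (∀ l i β o j, |(f l i β o).2.2 j| ≤ (D : ℤ)) →
      ∀ (X : Type) (ρ : G →* Equiv.Perm X) (z₀ : Fin k → ℤ) (ι : I × Y × (Fin k → ℤ) → X),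
      Cht σ ρ f b (obs s a P) z₀ R ι → ∀ i y, ∀ g ∈ N, ρ g (ι (i, y, z₀)) = ι (i, y, z₀))
    (I : Type) [Finite I] (hI : Nat.card I ≤ n) (Y : Type) [MulAction L Y] (b : Y → c.C m)
    (hb : c.P m Y b) (W : Type) (T : Equiv.Perm W) (a : Fin k → W → Fin m₁)
    (f : Fin M × Bool → I → c.C m → (Fin k → Fin m₁) × (Fin k → Fin k → ℤ → Prop) →
      I × L × (Fin k → ℤ)) (hf1 : ∀ l i β o, (f l i β o).2.1 ∈ K)
    (hf2 : ∀ l i β o j, |(f l i β o).2.2 j| ≤ (D : ℤ))
    (ρ : G →* Equiv.Perm (I × Y × (Fin k → W)))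
    (hρ : ∀ l i y w x, x = f l i (b y) (obsW s a T w) →
      ρ (gen σ l) (i, y, w) = (x.1, x.2.1 • y, fun j => (T ^ x.2.2 j) (w j)))
    (i₀ : I) (y₀ : Y) (w₀ : Fin k → W)
    (hdich : ∀ j, Sht T (w₀ j) (p + 2 * (k * (2 * R + s)) + 2 * R + s + 1) → Sht T (w₀ j) p) :
    ∀ g ∈ N, ρ g (i₀, y₀, w₀) = (i₀, y₀, w₀) := by
  classical
  set E : ℕ := 2 * R + s with hE
  let Sh : Fin k → Prop := fun j => Sht T (w₀ j) p
  have hlong : ∀ j, ¬ Sh j → ∀ d : ℤ, |d| ≤ (2 * (k * E) + 2 * R + s : ℕ) →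
      (T ^ d) (w₀ j) = w₀ j → d = 0 := by
    intro j hj d hd hd'
    by_contra h0
    exact hj (hdich j ⟨d, h0, hd.trans (by push_cast; linarith), hd'⟩)
  let Gr : SimpleGraph (Fin k) := SimpleGraph.fromRel (fun u v => ¬ Sh u ∧ ¬ Sh v ∧
    ∃ e : ℤ, |e| ≤ (E : ℤ) ∧ (T ^ e) (w₀ u) = w₀ v)
  have hsymm : ∀ u v, (∃ e : ℤ, |e| ≤ (E : ℤ) ∧ (T ^ e) (w₀ u) = w₀ v) →
      ∃ e : ℤ, |e| ≤ (E : ℤ) ∧ (T ^ e) (w₀ v) = w₀ u := by
    rintro u v ⟨e, h1, h2⟩
    refine ⟨-e, by rwa [abs_neg], ?_⟩
    rw [zpow_neg, Equiv.Perm.inv_eq_iff_eq]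
    exact h2.symm
  have hGr : ∀ u v, Gr.Adj u v → ∃ e : ℤ, |e| ≤ (E : ℤ) ∧ (T ^ e) (w₀ u) = w₀ v := by
    intro u v h
    rw [SimpleGraph.fromRel_adj] at h
    rcases h.2 with h1 | h1
    · exact h1.2.2
    · exact hsymm _ _ h1.2.2
  let P : Setoid (Fin k) := Gr.reachableSetoid
  have hPdisp : ∀ u v, P u v → ∃ e : ℤ, |e| ≤ ((k * E : ℕ) : ℤ) ∧ (T ^ e) (w₀ u) = w₀ v :=
    fun u v h => reach_disp T w₀ E Gr hGr h
  obtain ⟨rep, hrep1, hrep2⟩ : ∃ rep : Fin k → Fin k, (∀ j, P (rep j) j) ∧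
      ∀ i j, P i j → rep i = rep j :=
    ⟨fun j => (Quotient.mk P j).out, fun j => Quotient.mk_out j,
      fun i j h => congrArg Quotient.out (Quotient.sound h)⟩
  choose off hoff1 hoff2 using fun j => hPdisp _ _ (hrep1 j)
  -- the places of the heads with short orbits
  let O : Fin k → Type := fun j => {v' : W // v' = w₀ j ∨ (Sh j ∧ ∃ d : ℤ, (T ^ d) (w₀ j) = v')}
  haveI hOfin : ∀ j, Finite (O j) := fun j => (orbit_card T (w₀ j) p hp (Sh j) id).1
  have hOcard : ∀ j, Nat.card (O j) ≤ p := fun j => (orbit_card T (w₀ j) p hp (Sh j) id).2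
  have hO : ∀ j (v : O j), ∃ d : ℤ, (T ^ d) (w₀ j) = v.1 := by
    rintro j ⟨v, h | ⟨-, h⟩⟩
    · exact ⟨0, by simp [h]⟩
    · exact h
  let I' : Type := I × (∀ j, O j)
  have hI' : Nat.card I' ≤ n * p ^ k := by
    show Nat.card (I × (∀ j, O j)) ≤ _
    rw [Nat.card_prod, Nat.card_pi]
    refine Nat.mul_le_mul hI ?_
    refine (Finset.prod_le_pow_card _ _ p (fun j _ => hOcard j)).trans ?_
    rw [Finset.card_univ, Fintype.card_fin]
  -- real position and observation
  let wr : (∀ j, O j) → (Fin k → ℤ) → Fin k → W := fun co z j =>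
    if Sh j then (co j).1 else (T ^ z j) (w₀ (rep j))
  let a' : Fin k → ℤ → Fin m₁ := fun j z => a j ((T ^ z) (w₀ (rep j)))
  let ro : (∀ j, O j) → (Fin k → Fin m₁) × (Fin k → Fin k → ℤ → Prop) →
      (Fin k → Fin m₁) × (Fin k → Fin k → ℤ → Prop) := fun co o =>
    (fun j => if Sh j then a j (co j).1 else o.1 j, fun u v d =>
      (Sh u ∧ Sh v ∧ |d| ≤ (s : ℤ) ∧ (T ^ d) (co u).1 = (co v).1) ∨ (¬ Sh u ∧ ¬ Sh v ∧ o.2 u v d))
  have hwr : ∀ co z j, ∃ d : ℤ, (T ^ d) (w₀ j) = wr co z j := by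
    intro co z j
    show ∃ d : ℤ, (T ^ d) (w₀ j) = if Sh j then (co j).1 else (T ^ z j) (w₀ (rep j))
    split_ifs with h
    · exact hO j (co j)
    · refine ⟨z j - off j, ?_⟩
      rw [sub_eq_add_neg, zpow_add, Equiv.Perm.mul_apply]
      congr 1
      rw [zpow_neg, Equiv.Perm.inv_eq_iff_eq]
      exact (hoff2 j).symm
  have hro : ∀ co z, (∀ j, |z j - off j| ≤ (R : ℤ)) →
      obsW s a T (wr co z) = ro co (obs s a' P z) := by
    intro co z hz
    refine Prod.ext (funext fun j => ?_) (funext fun u => funext fun v => funext fun d =>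
      propext ?_)
    · show a j (if Sh j then (co j).1 else (T ^ z j) (w₀ (rep j))) =
        if Sh j then a j (co j).1 else a j ((T ^ z j) (w₀ (rep j)))
      split_ifs <;> rfl
    · show (|d| ≤ (s : ℤ) ∧ (T ^ d) (wr co z u) = wr co z v) ↔
        ((Sh u ∧ Sh v ∧ |d| ≤ (s : ℤ) ∧ (T ^ d) (co u).1 = (co v).1) ∨
          (¬ Sh u ∧ ¬ Sh v ∧ (P u v ∧ |d| ≤ (s : ℤ) ∧ z u + d = z v)))
      have hsame : (T ^ d) (wr co z u) = wr co z v → (Sh u ↔ Sh v) := by
        intro h
        obtain ⟨d1, h1⟩ := hwr co z u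
        obtain ⟨d2, h2⟩ := hwr co z v
        have h3 : (T ^ (-d2 + (d + d1))) (w₀ u) = w₀ v := by
          rw [zpow_add, Equiv.Perm.mul_apply, zpow_add, Equiv.Perm.mul_apply, h1, h, zpow_neg,
            Equiv.Perm.inv_eq_iff_eq]
          exact h2.symm
        constructor
        · intro h4; exact h4.orbit h3
        · intro h4
          refine h4.orbit (e := -(-d2 + (d + d1))) ?_
          rw [zpow_neg, Equiv.Perm.inv_eq_iff_eq]
          exact h3.symm
      by_cases hu : Sh u
      · by_cases hv : Sh v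
        · have e1 : wr co z u = (co u).1 := if_pos hu
          have e2 : wr co z v = (co v).1 := if_pos hv
          rw [e1, e2]
          constructor
          · intro h; exact Or.inl ⟨hu, hv, h⟩
          · rintro (h | h)
            · exact h.2.2
            · exact absurd hu h.1
        · constructor
          · rintro ⟨h1, h2⟩
            exact absurd ((hsame h2).1 hu) hv
          · rintro (h | h)
            · exact absurd h.2.1 hv
            · exact absurd hu h.1
      · by_cases hv : Sh v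
        · constructor
          · rintro ⟨h1, h2⟩
            exact absurd ((hsame h2).2 hv) hu
          · rintro (h | h)
            · exact absurd h.1 hu
            · exact absurd hv h.2.1
        · have e1 : wr co z u = (T ^ z u) (w₀ (rep u)) := if_neg hu
          have e2 : wr co z v = (T ^ z v) (w₀ (rep v)) := if_neg hv
          rw [e1, e2]
          have hzu := hz u
          have hzv := hz v
          constructor
          · rintro ⟨h1, h2⟩
            refine Or.inr ⟨hu, hv, ?_⟩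
            have h3 : (T ^ (off v - z v + (d + (z u - off u)))) (w₀ u) = w₀ v := by
              have e3 : (T ^ (z u - off u)) (w₀ u) = (T ^ z u) (w₀ (rep u)) := by
                rw [sub_eq_add_neg, zpow_add, Equiv.Perm.mul_apply]
                congr 1
                rw [zpow_neg, Equiv.Perm.inv_eq_iff_eq]
                exact (hoff2 u).symm
              rw [zpow_add, Equiv.Perm.mul_apply, zpow_add, Equiv.Perm.mul_apply, e3, h2,
                ← Equiv.Perm.mul_apply, ← zpow_add, sub_add_cancel, hoff2]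
            have h4 : |off v - z v + (d + (z u - off u))| ≤ (E : ℤ) := by
              rw [hE]
              push_cast
              rw [abs_le] at hzu hzv h1 ⊢
              constructor <;> linarith
            have hPuv : P u v := by
              by_cases huv : u = v
              · rw [huv]
              · show Gr.Reachable u v
                refine SimpleGraph.Adj.reachable ?_
                rw [SimpleGraph.fromRel_adj]
                exact ⟨huv, Or.inl ⟨hu, hv, _, h4, h3⟩⟩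
            refine ⟨hPuv, h1, ?_⟩
            have h5 : rep u = rep v := hrep2 u v hPuv
            rw [h5] at h2
            have h6 : (T ^ (-z v + (d + z u))) (w₀ (rep v)) = w₀ (rep v) := by
              rw [zpow_add, Equiv.Perm.mul_apply, zpow_add, Equiv.Perm.mul_apply, h2, zpow_neg,
                Equiv.Perm.inv_eq_iff_eq]
            have h7 : (T ^ (-z v + (d + z u))) (w₀ v) = w₀ v := zpow_fix T (hoff2 v) h6
            have h8 := hlong v hv (-z v + (d + z u)) (by
              have h9 := hoff1 u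
              have h10 := hoff1 v
              push_cast at h9 h10 ⊢
              rw [abs_le] at hzu hzv h1 h9 h10 ⊢
              constructor <;> linarith) h7
            linarith
          · rintro (h | h)
            · exact absurd h.1 hu
            · obtain ⟨-, -, h1, h2, h3⟩ := h
              refine ⟨h2, ?_⟩
              rw [hrep2 u v h1, ← Equiv.Perm.mul_apply, ← zpow_add, ← h3, add_comm]
  -- the chart
  let f' : Fin M × Bool → I' → c.C m → (Fin k → Fin m₁) × (Fin k → Fin k → ℤ → Prop) →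
      I' × L × (Fin k → ℤ) := fun l i β o =>
    (((f l i.1 β (ro i.2 o)).1, fun j => if hj : Sh j then
        ⟨(T ^ (f l i.1 β (ro i.2 o)).2.2 j) (i.2 j).1, Or.inr ⟨hj, by
          obtain ⟨d, hd⟩ := hO j (i.2 j)
          exact ⟨(f l i.1 β (ro i.2 o)).2.2 j + d, by
            rw [zpow_add, Equiv.Perm.mul_apply, hd]⟩⟩⟩
        else i.2 j),
      (f l i.1 β (ro i.2 o)).2.1, fun j => if Sh j then 0 else (f l i.1 β (ro i.2 o)).2.2 j)
  let X : Type := (I × Y × (Fin k → W)) × (Fin k → ℤ)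
  let ρ' : G →* Equiv.Perm X :=
    { toFun := fun g => Equiv.prodCongr (ρ g) (Equiv.refl _)
      map_one' := by ext x <;> simp
      map_mul' := by intro g h; ext x <;> simp }
  have hρ' : ∀ g x, ρ' g x = (ρ g x.1, x.2) := fun g x => rfl
  let ι : I' × Y × (Fin k → ℤ) → X := fun x =>
    ((x.1.1, x.2.1, wr x.1.2 x.2.2), fun j => if Sh j then x.2.2 j else 0)
  have hchart : Cht σ ρ' f' b (obs s a' P) off R ι := by
    refine ⟨?_, ?_⟩
    · rintro l ⟨⟨i, co⟩, y, z⟩ hz
      rw [hρ']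
      show (ρ (gen σ l) (i, y, wr co z), fun j => if Sh j then z j else 0) = _
      rw [hρ l i y (wr co z) (f l i (b y) (ro co (obs s a' P z))) (by rw [hro co z hz])]
      refine Prod.ext (Prod.ext rfl (Prod.ext rfl (funext fun j => ?_))) (funext fun j => ?_)
      · show (T ^ (f l i (b y) (ro co (obs s a' P z))).2.2 j)
            (if Sh j then (co j).1 else (T ^ z j) (w₀ (rep j))) =
          if Sh j then ((if hj : Sh j then (⟨(T ^ (f l i (b y) (ro co (obs s a' P z))).2.2 j)
            (co j).1, _⟩ : O j) else co j : O j)).1 else (T ^ (z j + if Sh j then 0 else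
              (f l i (b y) (ro co (obs s a' P z))).2.2 j)) (w₀ (rep j))
        by_cases hj : Sh j
        · rw [if_pos hj, if_pos hj, dif_pos hj]
        · rw [if_neg hj, if_neg hj, if_neg hj, add_comm, zpow_add, Equiv.Perm.mul_apply]
      · show (if Sh j then z j else 0) = if Sh j then (z j + if Sh j then 0 else
          (f l i (b y) (ro co (obs s a' P z))).2.2 j) else 0
        by_cases hj : Sh j
        · rw [if_pos hj, if_pos hj, if_pos hj, add_zero]
        · rw [if_neg hj, if_neg hj]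
    · rintro ⟨⟨i, co⟩, y, z⟩ ⟨⟨i', co'⟩, y', z'⟩ hz hz' h
      have h1 : i = i' := congrArg (fun x : X => x.1.1) h
      have h2 : y = y' := congrArg (fun x : X => x.1.2.1) h
      have h3 : ∀ j, wr co z j = wr co' z' j := fun j =>
        congrFun (congrArg (fun x : X => x.1.2.2) h) j
      have h4 : ∀ j, (if Sh j then z j else 0) = (if Sh j then z' j else 0) := fun j =>
        congrFun (congrArg (fun x : X => x.2) h) j
      have h5 : ∀ j, co j = co' j ∧ z j = z' j := by
        intro j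
        have h6 := h3 j
        have h7 := h4 j
        by_cases hj : Sh j
        · rw [if_pos hj, if_pos hj] at h7
          refine ⟨Subtype.ext ?_, h7⟩
          have e1 : wr co z j = (co j).1 := if_pos hj
          have e2 : wr co' z' j = (co' j).1 := if_pos hj
          rw [← e1, ← e2, h6]
        · constructor
          · apply Subtype.ext
            have h8 : ∀ v : O j, v.1 = w₀ j := by
              rintro ⟨v, hv | hv⟩
              · exact hv
              · exact absurd hv.1 hj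
            rw [h8, h8]
          · have e1 : wr co z j = (T ^ z j) (w₀ (rep j)) := if_neg hj
            have e2 : wr co' z' j = (T ^ z' j) (w₀ (rep j)) := if_neg hj
            rw [e1, e2] at h6
            have h8 : (T ^ (-z' j + z j)) (w₀ (rep j)) = w₀ (rep j) := by
              rw [zpow_add, Equiv.Perm.mul_apply, h6, zpow_neg, Equiv.Perm.inv_eq_iff_eq]
            have h9 : (T ^ (-z' j + z j)) (w₀ j) = w₀ j := zpow_fix T (hoff2 j) h8
            have h10 := hlong j hj (-z' j + z j) (by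
              have h11 : |z j - off j| ≤ (R : ℤ) := hz j
              have h12 : |z' j - off j| ≤ (R : ℤ) := hz' j
              have h13 : (0 : ℤ) ≤ 2 * (k * E) + s := by positivity
              push_cast
              rw [abs_le] at h11 h12 ⊢
              constructor <;> linarith) h9
            linarith
      rw [h1, h2, funext fun j => (h5 j).1, funext fun j => (h5 j).2]
  intro g hg
  let co₀ : ∀ j, O j := fun j => ⟨w₀ j, Or.inl rfl⟩
  have h1 := hN P I' hI' Y b hb a' f' (fun l i β o => hf1 _ _ _ _) (fun l i β o j => by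
    show |if Sh j then 0 else (f l i.1 β (ro i.2 o)).2.2 j| ≤ (D : ℤ)
    split_ifs
    · simp
    · exact hf2 _ _ _ _ _) X ρ' off ι hchart (i₀, co₀) y₀ g hg
  have h2 : wr co₀ off = w₀ := by
    funext j
    show (if Sh j then w₀ j else (T ^ off j) (w₀ (rep j))) = w₀ j
    split_ifs
    · rfl
    · exact hoff2 j
  have h3 : ρ g (i₀, y₀, wr co₀ off) = (i₀, y₀, wr co₀ off) := congrArg Prod.fst h1
  rw [h2] at h3
  exact h3

/-- the next scale -/
noncomputable def nxt (k s : ℕ) (R : ℕ → ℕ) (p : ℕ) : ℕ := p + 2 * (k * (2 * R p + s)) + 2 * R p + s + 1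

/-- `k` heads on an arbitrary set with an arbitrary permutation, over any class with uniform
finiteness -/
theorem wt_uniform {L : Type} [Group L] (c : Cls L) (hUF : UF c) (k : ℕ) (G : Type) [Group G]
    [Group.IsFinitelyPresented G] (hG : IsMulTorsion G) {M : ℕ} (σ : Fin M → G)
    (hσ : Subgroup.closure (Set.range σ) = ⊤) (n m m₁ s D : ℕ) (K : Set L) (hK : K.Finite) :
    ∃ N : Subgroup G, N.Normal ∧ N.FiniteIndex ∧ ∀ (I : Type) [Finite I], Nat.card I ≤ n →
      ∀ (Y : Type) [MulAction L Y] (b : Y → c.C m), c.P m Y b →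
      ∀ (W : Type) (T : Equiv.Perm W) (a : Fin k → W → Fin m₁) (f : Fin M × Bool → I → c.C m →
        (Fin k → Fin m₁) × (Fin k → Fin k → ℤ → Prop) → I × L × (Fin k → ℤ)),
      (∀ l i β o, (f l i β o).2.1 ∈ K) → (∀ l i β o j, |(f l i β o).2.2 j| ≤ (D : ℤ)) →
      ∀ ρ : G →* Equiv.Perm (I × Y × (Fin k → W)),
      (∀ l i y w x, x = f l i (b y) (obsW s a T w) →
        ρ (gen σ l) (i, y, w) = (x.1, x.2.1 • y, fun j => (T ^ x.2.2 j) (w j))) →
      ∀ g ∈ N, ρ g = 1 := by
  classical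
  choose R Nf hNf1 hNf2 hNf3 using fun p : ℕ =>
    charts_uniform c hUF k G hG σ hσ (n * p ^ k) m m₁ s D K hK
  let ps : ℕ → ℕ := fun t => (nxt k s R)^[t] 1
  have hps : ∀ t, ps (t + 1) = nxt k s R (ps t) := fun t => Function.iterate_succ_apply' _ _ _
  have hps1 : ∀ t, 1 ≤ ps t := by
    intro t
    induction t with
    | zero => exact le_rfl
    | succ t ih => rw [hps]; unfold nxt; omega
  have hmono : ∀ t t', t ≤ t' → ps t ≤ ps t' := by
    intro t t' h
    induction h with
    | refl => exact le_rfl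
    | step _ ih => refine ih.trans ?_; rw [hps]; unfold nxt; omega
  refine ⟨⨅ t : Fin (k + 1), Nf (ps t), Subgroup.normal_iInf_normal fun t => hNf1 _,
    Subgroup.finiteIndex_iInf fun t => hNf2 _, ?_⟩
  intro I _ hI Y _ b hb W T a f hf1 hf2 ρ hρ g hg
  ext1 ⟨i₀, y₀, w₀⟩
  obtain ⟨t, ht⟩ : ∃ t : Fin (k + 1), ∀ j, Sht T (w₀ j) (ps (t + 1)) → Sht T (w₀ j) (ps t) := by
    by_contra hno
    push Not at hno
    choose h hh1 hh2 using hno
    have hinj : Function.Injective h := by
      have key : ∀ t t' : Fin (k + 1), t < t' → h t ≠ h t' := by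
        intro t t' htt he
        have h1 := hh1 t
        rw [he] at h1
        exact hh2 t' (h1.mono (hmono _ _ htt))
      intro t t' he
      rcases lt_trichotomy t t' with h | h | h
      · exact absurd he (key _ _ h)
      · exact h
      · exact absurd he.symm (key _ _ h)
    have := Fintype.card_le_of_injective h hinj
    rw [Fintype.card_fin, Fintype.card_fin] at this
    omega
  have hg' : g ∈ Nf (ps t) := by
    have := (iInf_le (fun t : Fin (k + 1) => Nf (ps t)) t) hg
    exact this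
  exact wt_point c k G σ n m m₁ s D K (ps t) (R (ps t)) (hps1 t) (Nf (ps t)) (hNf3 (ps t)) I hI Y b
    hb W T a f hf1 hf2 ρ hρ i₀ y₀ w₀ (fun j hj => ht j (by rw [hps]; exact hj)) g hg'

end Vale.Agent.P192.H291
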